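import Crest.Agent.R128.H6Aux

/-! Row 128, task AVG. -/

set_option autoImplicit false

namespace Crest.Agent.R128

open MeasureTheory Set Filter
open scoped Real BigOperators Classical

namespace H6

theorem card_le_of_diam (S : Finset ℕ) {D : ℝ} (hD : 0 ≤ D)
    (h : ∀ r ∈ S, ∀ r' ∈ S, r < r' → (r' : ℝ) - r ≤ D) : (S.card : ℝ) ≤ 1 + D := by
  rcases S.eq_empty_or_nonempty with rfl | hS
  · simp; linarith
  have h1 : S.card ≤ (Finset.Icc (S.min' hS) (S.max' hS)).card := Finset.card_le_card fun x hx =>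
    Finset.mem_Icc.2 ⟨S.min'_le x hx, S.le_max' x hx⟩
  have h2 := S.min'_le_max' hS
  rw [Nat.card_Icc] at h1
  have h3 : (S.card : ℝ) + S.min' hS ≤ S.max' hS + 1 := by
    exact_mod_cast (show S.card + S.min' hS ≤ S.max' hS + 1 by omega)
  rcases h2.eq_or_lt with h4 | h4
  · rw [h4] at h3; linarith
  · linarith [h _ (S.min'_mem hS) _ (S.max'_mem hS) h4]

def Th (𝕂 θ : ℝ) (g : ℕ) (U : ℕ → ℝ) : Prop :=
  (∀ j : ℕ, j ≤ (g + 1) ^ 2 → 𝕂 ^ ((1 - θ) * j) / 2 ≤ ne U j) ∧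
  ∃ w : ℕ, g ^ 2 < w ∧ w ≤ (g + 1) ^ 2 ∧ ne U w ≤ 2 * 𝕂 ^ ((1 - θ) * w)

theorem card_ev (𝕂 θ : ℝ) (N : ℕ) (U : ℕ → ℝ) (T : Finset ℕ) :
    (T.filter fun g => Ev' 𝕂 θ N g U).card ≤ 1 + (T.filter fun g => Th 𝕂 θ g U).card := by
  set G := T.filter fun g => Ev' 𝕂 θ N g U with hG
  rcases G.eq_empty_or_nonempty with h | h
  · simp [h]
  rw [← Finset.card_erase_add_one (G.max'_mem h), add_comm]
  refine Nat.add_le_add_left (Finset.card_le_card fun g hg => ?_) 1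
  have h1 := G.lt_max'_of_mem_erase_max' h hg
  obtain ⟨h2, -, w, w1, w2, -, w3⟩ := Finset.mem_filter.1 (Finset.mem_of_mem_erase hg)
  exact Finset.mem_filter.2 ⟨h2, fun j hj => (Finset.mem_filter.1 (G.max'_mem h)).2.1 j
    (hj.trans (Nat.pow_le_pow_left h1 2)), w, w1, w2, w3⟩

theorem Th_diam {𝕂 θ θ' θ₀ : ℝ} {g : ℕ} {U : ℕ → ℝ} (h1 : 1 < 𝕂) (h0 : 16 ≤ 𝕂 ^ θ₀) (hθ : θ ≤ θ')
    (a : Th 𝕂 θ g U) (b : Th 𝕂 θ' g U) : (θ' - θ) * g ^ 2 ≤ θ₀ / 2 := by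
  obtain ⟨w, w1, w2, w3⟩ := b.2
  have k0 : 0 < 𝕂 := by linarith
  have h2 := (a.1 w w2).trans w3
  have h3 : 𝕂 ^ ((θ' - θ) * w) ≤ 4 := by
    rw [show (1 - θ) * w = (θ' - θ) * w + (1 - θ') * w by ring, Real.rpow_add k0] at h2
    exact le_of_mul_le_mul_right (by linarith) (Real.rpow_pos_of_pos k0 ((1 - θ') * w))
  have h4 : 𝕂 ^ ((θ' - θ) * w * 2) ≤ 𝕂 ^ θ₀ := by
    rw [Real.rpow_mul k0.le, Real.rpow_two]
    nlinarith [Real.rpow_pos_of_pos k0 ((θ' - θ) * w)]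
  rw [Real.rpow_le_rpow_left_iff h1] at h4
  have h5 : (g : ℝ) ^ 2 ≤ w := by exact_mod_cast w1.le
  nlinarith

theorem count {𝕂 θ₀ : ℝ} (h1 : 1 < 𝕂) (hθ : 0 < θ₀) (h0 : 16 ≤ 𝕂 ^ θ₀) (N : ℕ) (U : ℕ → ℝ) :
    (((Finset.range (2 * N + 2) ×ˢ Finset.Icc 20 N).filter fun x : ℕ × ℕ =>
      Ev' 𝕂 (θ₀ * (1 + x.1 / (2 * N + 2))) N x.2 U).card : ℝ) ≤ 2 * (2 * N + 2) := by
  have R0 : (0 : ℝ) < 2 * N + 2 := by positivity
  have e1 : ((Finset.range (2 * N + 2) ×ˢ Finset.Icc 20 N).filter fun x : ℕ × ℕ =>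
      Ev' 𝕂 (θ₀ * (1 + x.1 / (2 * N + 2))) N x.2 U).card ≤ (2 * N + 2) + ∑ g ∈ Finset.Icc 20 N,
        ((Finset.range (2 * N + 2)).filter fun r : ℕ => Th 𝕂 (θ₀ * (1 + r / (2 * N + 2))) g U).card := by
    simp only [Finset.card_filter]
    rw [Finset.sum_product, Finset.sum_comm (s := Finset.Icc 20 N)]
    simp only [← Finset.card_filter]
    refine (Finset.sum_le_sum fun r _ => card_ev _ _ _ _ _).trans ?_
    simp [Finset.sum_add_distrib]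
  have e2 : ∀ g ∈ Finset.Icc 20 N, (((Finset.range (2 * N + 2)).filter fun r : ℕ =>
      Th 𝕂 (θ₀ * (1 + r / (2 * N + 2))) g U).card : ℝ) ≤ 1 + (N + 1) * ((g : ℝ) ^ 2)⁻¹ := fun g hg => by
    have g0 : (0 : ℝ) < g := by exact_mod_cast (show 0 < g by have := (Finset.mem_Icc.1 hg).1; omega)
    refine card_le_of_diam _ (by positivity) fun r hr r' hr' h => ?_
    have h2 : (r : ℝ) ≤ r' := by exact_mod_cast h.le
    have := Th_diam h1 h0 (by gcongr) (Finset.mem_filter.1 hr).2 (Finset.mem_filter.1 hr').2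
    rw [← div_eq_mul_inv, le_div_iff₀ (by positivity)]
    rw [show (θ₀ * (1 + r' / (2 * N + 2)) - θ₀ * (1 + r / (2 * N + 2))) * (g : ℝ) ^ 2 =
      θ₀ * ((r' - r) * g ^ 2 / (2 * N + 2)) by ring, show θ₀ / 2 = θ₀ * (1 / 2) by ring,
      mul_le_mul_iff_right₀ hθ, div_le_iff₀ R0] at this
    linarith
  have e3 : ∑ g ∈ Finset.Icc 20 N, ((g : ℝ) ^ 2)⁻¹ ≤ 1 := by
    refine le_trans (Finset.sum_le_sum_of_subset_of_nonneg (t := Finset.Ioo 1 (N + 1))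
      (fun g hg => ?_) fun _ _ _ => by positivity) ((sum_Ioo_inv_sq_le 1 (N + 1)).trans (by norm_num))
    have := Finset.mem_Icc.1 hg
    exact Finset.mem_Ioo.2 (by omega)
  have e4 := Finset.sum_le_sum e2
  rw [Finset.sum_add_distrib, ← Finset.mul_sum, Finset.sum_const, nsmul_eq_mul, mul_one] at e4
  have e5 : ((Finset.Icc 20 N).card : ℝ) ≤ N := by exact_mod_cast (show _ ≤ N by simp)
  have e6 := mul_le_mul_of_nonneg_left e3 (show (0 : ℝ) ≤ N + 1 by positivity)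
  refine le_trans (Nat.cast_le.2 e1) ?_
  rw [Nat.cast_add, Nat.cast_sum]
  push_cast
  linarith

theorem meas_Ev' (k 𝕂 θ : ℝ) (N g : ℕ) : MeasurableSet {ω : ℝ × ℝ | Ev' 𝕂 θ N g (pot k ω.1 ω.2)} := by
  have := fun j => (cont_ne k j).measurable
  unfold Ev'
  measurability

theorem meas_bad (k 𝕂 θ : ℝ) (N : ℕ) : MeasurableSet {ω : ℝ × ℝ | ¬ Good 𝕂 θ N (pot k ω.1 ω.2)} := by
  have := fun j => (cont_Mx k j).measurable
  unfold Good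
  measurability

theorem good_not {𝕂 θ₀ θ : ℝ} {N g : ℕ} {U : ℕ → ℝ} (k1 : 1 < 𝕂) (h0 : 0 < θ₀) (k2 : 16 ≤ 𝕂 ^ θ₀)
    (a2 : θ₀ ≤ θ) (hG : Good 𝕂 (θ₀ / 2) N U) (hM : ∀ l ≤ N, Mx U l = ne U l) : ¬ Ev' 𝕂 θ N g U := by
  rintro ⟨-, w, w1, -, w2, w3⟩
  have k0 : 0 < 𝕂 := by linarith
  have a1 := hG w w2
  rw [hM w w2] at a1
  have w0 : (1 : ℝ) ≤ w := by exact_mod_cast (show 1 ≤ w by omega)
  have a3 : 𝕂 ^ (θ₀ / 2 + (1 - θ) * w) ≤ 𝕂 ^ ((1 - θ₀ / 2) * w) :=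
    Real.rpow_le_rpow_of_exponent_le k1.le (by nlinarith)
  rw [Real.rpow_add k0] at a3
  have a4 : 𝕂 ^ (θ₀ / 2) ≤ 2 :=
    le_of_mul_le_mul_right (a3.trans (a1.trans w3)) (Real.rpow_pos_of_pos k0 _)
  have a5 : 𝕂 ^ θ₀ = 𝕂 ^ (θ₀ / 2) * 𝕂 ^ (θ₀ / 2) := by rw [← Real.rpow_add k0, add_halves]
  nlinarith [Real.rpow_pos_of_pos k0 (θ₀ / 2)]

end H6

open H6 in
theorem avg_proof (hMG : MG) : AVG := by
  intro θ₀ h0 h1
  filter_upwards [tendsto_KK.eventually hMG, eventually_ge_atTop 0,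
    tendsto_KK.eventually (eventually_gt_atTop 1),
    tendsto_KK.eventually ((tendsto_rpow_atTop h0).eventually_ge_atTop 16)] with k hM hk k1 k2 N
  have R0 : (0 : ℝ) < 2 * N + 2 := by positivity
  have hg : ∀ (ω : ℝ × ℝ) (r g : ℕ), Good (KK k) (θ₀ / 2) N (pot k ω.1 ω.2) →
      ¬ Ev' (KK k) (θ₀ * (1 + r / (2 * N + 2))) N g (pot k ω.1 ω.2) := fun ω r g hω =>
    good_not k1 h0 k2 (le_mul_of_one_le_right h0.le (le_add_of_nonneg_right (by positivity))) hω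
      (hM _ (by positivity) (by linarith) _ (bd_pot hk _ _) N hω)
  have key := sum_meas_le (Finset.range (2 * N + 2) ×ˢ Finset.Icc 20 N)
    (fun x => {ω | Ev' (KK k) (θ₀ * (1 + x.1 / (2 * N + 2))) N x.2 (pot k ω.1 ω.2)})
    {ω | ¬ Good (KK k) (θ₀ / 2) N (pot k ω.1 ω.2)} (2 * (2 * N + 2))
    (fun x => meas_Ev' _ _ _ _ _) (meas_bad k (KK k) (θ₀ / 2) N)
    (fun ω => by convert count k1 h0 k2 N (pot k ω.1 ω.2) using 3; rfl)
    fun ω hω x _ => hg ω x.1 x.2 (not_not.1 hω)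
  rw [Finset.sum_product] at key
  have e : 2 * (2 * N + 2) * mu.real {ω | ¬ Good (KK k) (θ₀ / 2) N (pot k ω.1 ω.2)} =
      ∑ _r ∈ Finset.range (2 * N + 2), 2 * Pr k (fun V => ¬ Good (KK k) (θ₀ / 2) N (fwd V 1)) := by
    simp only [Pr, fwd_VV, Finset.sum_const, Finset.card_range, nsmul_eq_mul]
    push_cast
    ring
  obtain ⟨r, hr, h⟩ := Finset.exists_le_of_sum_le (Finset.nonempty_range_iff.2 (by omega))
    (key.trans e.le)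
  refine ⟨θ₀ * (1 + r / (2 * N + 2)),
    le_mul_of_one_le_right h0.le (le_add_of_nonneg_right (by positivity)), ?_, h⟩
  have : (r : ℝ) / (2 * N + 2) ≤ 1 := (div_le_one R0).2 (by exact_mod_cast (Finset.mem_range.1 hr).le)
  nlinarith

end Crest.Agent.R128
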