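import Crest.Agent.R128.Defs

/-! # Row 128: common tools for the tasks ND and DG -/

set_option autoImplicit false

namespace Crest.Agent.R128

open MeasureTheory Set Filter
open scoped Real BigOperators Classical Topology

theorem al_slope {f f' : ℝ → ℝ} (hf : ∀ x, HasDerivAt f (f' x) x) {a b c e : ℝ}
    (h : ∀ x ∈ Icc a b, |f' x - c| ≤ e) {x y : ℝ} (hx : x ∈ Icc a b) (hy : y ∈ Icc a b) :
    |f y - f x - c * (y - x)| ≤ e * |y - x| := by
  have := (convex_Icc a b).norm_image_sub_le_of_norm_hasDerivWithin_le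
    (f := fun t => f t - c * t) (f' := fun t => f' t - c) (C := e)
    (fun t _ => (((hf t).sub ((hasDerivAt_id' t).const_mul c)).congr_deriv (by ring)).hasDerivWithinAt)
    (fun t ht => h t ht) hx hy
  simp only [Real.norm_eq_abs] at this
  have e1 : f y - f x - c * (y - x) = f y - c * y - (f x - c * x) := by ring
  rw [e1]
  exact this

theorem al_cos (M : ℤ) (i : ℕ) (θ : ℝ) :
    Real.cos (2 * π * (M + i / 2 + θ)) = (-1) ^ i * Real.cos (2 * π * θ) := by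
  have : 2 * π * (M + i / 2 + θ) = (2 * π * θ + i * π) + M * (2 * π) := by ring
  rw [this, Real.cos_add_int_mul_two_pi, Real.cos_add_nat_mul_pi]

theorem al_sin (M : ℤ) (i : ℕ) (θ : ℝ) :
    Real.sin (2 * π * (M + i / 2 + θ)) = (-1) ^ i * Real.sin (2 * π * θ) := by
  have : 2 * π * (M + i / 2 + θ) = (2 * π * θ + i * π) + M * (2 * π) := by ring
  rw [this, Real.sin_add_int_mul_two_pi, Real.sin_add_nat_mul_pi]

theorem al_cos_ge {θ : ℝ} (h : |θ| ≤ 1 / 4) : 1 - 4 * |θ| ≤ Real.cos (2 * π * θ) := by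
  have hπ := Real.pi_pos
  have h1 : Real.cos (2 * π * θ) = Real.cos (2 * π * |θ|) := by
    rw [← Real.cos_abs (2 * π * θ), abs_mul, abs_of_pos (by positivity : 0 < 2 * π)]
  have h2 := Real.one_sub_mul_le_cos (x := 2 * π * |θ|) (by positivity) (by nlinarith)
  have h3 : 2 / π * (2 * π * |θ|) = 4 * |θ| := by field_simp; ring
  rw [h1, ← h3]
  exact h2

theorem al_cos_sgn {σ : ℝ} (hσ : σ = 1 ∨ σ = -1) (x : ℝ) :
    Real.cos (2 * π * (σ * x)) = Real.cos (2 * π * x) := by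
  rcases hσ with rfl | rfl
  · rw [one_mul]
  · rw [← Real.cos_neg]; congr 1; ring

theorem al_ev : ∀ᶠ k : ℝ in atTop, KK k ^ (-0.2 : ℝ) ≤ 1 / 10 ^ 12 ∧
    1024 * KK k ^ (0.6 : ℝ) ≤ KK k ^ (0.7 : ℝ) ∧ 1024 ≤ KK k ^ (0.7 : ℝ) ∧ 10 ^ 10 ≤ 2 * π * k ∧
    2 * π * k * KK k ^ (-1.9 : ℝ) ≤ 1 / 10 ^ 7 := by
  have hK : Tendsto (fun k : ℝ => 2 * π * k) atTop atTop :=
    tendsto_id.const_mul_atTop (by positivity)
  have hKK : Tendsto KK atTop atTop := tendsto_atTop_add_const_right _ 3 hK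
  have h1 := ((tendsto_rpow_neg_atTop (y := 0.2) (by norm_num)).comp hKK).eventually
    (eventually_le_nhds (show (0 : ℝ) < 1 / 10 ^ 12 by norm_num))
  have h2 := ((tendsto_rpow_atTop (y := 0.1) (by norm_num)).comp hKK).eventually_ge_atTop 1024
  have h3 := hK.eventually_ge_atTop (10 ^ 10)
  have h4 := ((tendsto_rpow_neg_atTop (y := 0.9) (by norm_num)).comp hKK).eventually
    (eventually_le_nhds (show (0 : ℝ) < 1 / 10 ^ 7 by norm_num))
  filter_upwards [h1, h2, h3, h4] with k h1 h2 h3 h4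
  simp only [Function.comp] at h1 h2 h4
  have h0 : 1 ≤ KK k := by unfold KK; linarith [h3]
  have h0' : 0 < KK k := by linarith
  have e1 : KK k ^ (0.7 : ℝ) = KK k ^ (0.1 : ℝ) * KK k ^ (0.6 : ℝ) := by
    rw [← Real.rpow_add h0']; norm_num
  have e2 : 1 ≤ KK k ^ (0.6 : ℝ) := Real.one_le_rpow h0 (by norm_num)
  have e3 : KK k ^ (-(0.9 : ℝ)) = KK k * KK k ^ (-1.9 : ℝ) := by
    rw [mul_comm, ← Real.rpow_add_one h0'.ne']; norm_num
  have e4 : 0 < KK k ^ (-1.9 : ℝ) := Real.rpow_pos_of_pos h0' _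
  refine ⟨h1, ?_, ?_, h3, ?_⟩
  · rw [e1]; nlinarith
  · rw [e1]; nlinarith
  · rw [e3] at h4
    have : 2 * π * k ≤ KK k := by unfold KK; linarith
    nlinarith

theorem al_intervals {H : ℝ → ℝ} {α ℓ N₁ γ q w : ℝ} (x : Fin 5 → ℝ) (hw : c0 * ℓ ≤ w)
    (h1 : ∀ i, α ≤ x i ∧ x i + w < α + ℓ) (h2 : ∀ i j, i < j → x i + w + 2 * c0 / N₁ ≤ x j)
    (h3 : ∀ i p', x i - c0 / N₁ < p' → p' < x i + w + c0 / N₁ → γ ≤ (-1) ^ (i : ℕ) * (H p' - q)) :
    AltSys H α ℓ N₁ γ := by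
  refine ⟨q, 1, fun i => Icc (x i) (x i + w), Or.inl rfl, fun i => ⟨measurableSet_Icc, ?_, ?_⟩,
    ?_, ?_⟩
  · intro p hp
    exact ⟨(h1 i).1.trans hp.1, hp.2.trans_lt (h1 i).2⟩
  · rw [Real.volume_Icc]
    exact ENNReal.ofReal_le_ofReal (by linarith)
  · intro i j hij p hp p' hp'
    have := h2 i j hij
    linarith [hp.2, hp'.1]
  · intro i p hp p' hp'
    rw [mul_one]
    rw [abs_lt] at hp'
    exact h3 i p' (by linarith [hp.1]) (by linarith [hp.2])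

/-- normal form of the frontier term -/
theorem al_hh {k N : ℝ} (hk : 0 < 2 * π * k) (hN : 0 < N) (a A u : ℝ → ℝ) (p σ : ℝ)
    (hσ : σ = 1 ∨ σ = -1) :
    2 * π * k * N ^ 2 * hh k a A u p =
      1 / ((σ * A p / N) ^ 2 * (Real.cos (2 * π * (σ * a p)) + (2 - u p) / (2 * π * k))) := by
  rw [al_cos_sgn hσ, hh, Wm]
  have h2 : σ ^ 2 = 1 := by rcases hσ with rfl | rfl <;> norm_num
  set K := 2 * π * k
  have e : (σ * A p / N) ^ 2 * (Real.cos (2 * π * a p) + (2 - u p) / K) =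
      (A p ^ 2 * (2 + K * Real.cos (2 * π * a p) - u p)) / (K * N ^ 2) := by
    rw [div_pow, mul_pow, h2]
    field_simp
    ring
  rw [e, one_div_div, mul_one_div]

theorem Side.sgn {𝕂 : ℝ} {a A u I : ℝ → ℝ} {p₀ N : ℝ} (h : Side 𝕂 a A u I p₀ N) :
    ∃ σ : ℝ, (σ = 1 ∨ σ = -1) ∧ σ * A p₀ = N := by
  rcases le_total 0 (A p₀) with h1 | h1
  · exact ⟨1, Or.inl rfl, by rw [one_mul, ← h.base, abs_of_nonneg h1]⟩
  · exact ⟨-1, Or.inr rfl, by rw [← h.base, abs_of_nonpos h1]; ring⟩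

theorem Side.near' {𝕂 : ℝ} {a A u I : ℝ → ℝ} {p₀ N σ η : ℝ} (h : Side 𝕂 a A u I p₀ N)
    (hσ : σ = 1 ∨ σ = -1) (hb : σ * A p₀ = N) (hη : 𝕂 ^ (-0.2 : ℝ) ≤ η) {p : ℝ}
    (hp : |p - p₀| ≤ 𝕂 ^ (0.7 : ℝ) / N) : |σ * A p - N| ≤ η * N ∧ |u p| ≤ 1 / 2 := by
  obtain ⟨h1, h2⟩ := h.near p hp
  refine ⟨?_, h2⟩
  have : |σ * A p - N| = |A p - A p₀| := by
    rw [← hb, ← mul_sub, abs_mul]
    rcases hσ with rfl | rfl <;> simp
  rw [this]
  have := mul_le_mul_of_nonneg_left hη h.pos.le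
  linarith

theorem al_ivt {f f' : ℝ → ℝ} (hf : ∀ x, HasDerivAt f (f' x) x) {a b y : ℝ} (hab : a ≤ b)
    (h1 : f a ≤ y) (h2 : y ≤ f b) : ∃ p ∈ Icc a b, f p = y :=
  intermediate_value_Icc hab (fun x _ => (hf x).continuousAt.continuousWithinAt) ⟨h1, h2⟩

end Crest.Agent.R128
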