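import Crest.Agent.R128.Defs

/-! # Row 128: area formula with multiplicity (task AREA) -/

set_option autoImplicit false

namespace Crest.Agent.R128

open MeasureTheory Set Filter
open scoped Real BigOperators Classical Topology

section
variable {E : Type} [NormedAddCommGroup E] [NormedSpace ℝ E] [FiniteDimensional ℝ E]

theorem ar_loc {f : E → E} (hf : ContDiff ℝ 1 f) {x : E} (hx : (fderiv ℝ f x).det ≠ 0) :
    ∃ U ∈ 𝓝 x, InjOn f U := by
  have : CompleteSpace E := FiniteDimensional.complete ℝ E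
  have h1 : HasStrictFDerivAt f (fderiv ℝ f x) x := hf.contDiffAt.hasStrictFDerivAt one_ne_zero
  have h2 : HasStrictFDerivAt f
      (((fderiv ℝ f x).toContinuousLinearEquivOfDetNeZero hx : E ≃L[ℝ] E) : E →L[ℝ] E) x := by
    simpa using h1
  refine ⟨(h2.toOpenPartialHomeomorph f).source, ?_, ?_⟩
  · exact (h2.toOpenPartialHomeomorph f).open_source.mem_nhds h2.mem_toOpenPartialHomeomorph_source
  · have := (h2.toOpenPartialHomeomorph f).injOn
    simpa using this

omit [FiniteDimensional ℝ E] in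
theorem ar_ind (f : E → E) (S : Set E) (z : E) :
    fibSum f S z = ∑' x : E, indicator {x | x ∈ S ∧ f x = z}
      (fun x => ENNReal.ofReal (1 / |(fderiv ℝ f x).det|)) x := by
  rw [fibSum, ← tsum_subtype]
  rfl

omit [FiniteDimensional ℝ E] in
theorem ar_split (f : E → E) (P : ℕ → Set E) (hP : Pairwise (Function.onFun Disjoint P)) (z : E) :
    fibSum f (⋃ n, P n) z = ∑' n, fibSum f (P n) z := by
  simp only [ar_ind]
  rw [ENNReal.tsum_comm]
  refine tsum_congr fun x => ?_
  by_cases hx : x ∈ ⋃ n, P n ∧ f x = z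
  · obtain ⟨n, hn⟩ := mem_iUnion.1 hx.1
    rw [tsum_eq_single n]
    · rw [indicator_of_mem (show x ∈ {x | x ∈ ⋃ n, P n ∧ f x = z} from hx),
        indicator_of_mem (show x ∈ {x | x ∈ P n ∧ f x = z} from ⟨hn, hx.2⟩)]
    · intro m hm
      refine indicator_of_notMem (fun h => ?_) _
      exact Set.disjoint_left.1 (hP hm) h.1 hn
  · rw [indicator_of_notMem (show x ∉ {x | x ∈ ⋃ n, P n ∧ f x = z} from hx)]
    symm
    rw [ENNReal.tsum_eq_zero]
    intro n
    exact indicator_of_notMem (fun h => hx ⟨mem_iUnion.2 ⟨n, h.1⟩, h.2⟩) _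

omit [FiniteDimensional ℝ E] in
theorem ar_ext {f : E → E} {P : Set E} (hP : InjOn f P) :
    fibSum f P = Function.extend (P.domRestrict f)
      (fun x : P => ENNReal.ofReal (1 / |(fderiv ℝ f x.1).det|)) 0 := by
  funext z
  have hinj : Function.Injective (P.domRestrict f) := injOn_iff_injective.1 hP
  by_cases hz : ∃ x : P, P.domRestrict f x = z
  · obtain ⟨x, rfl⟩ := hz
    rw [hinj.extend_apply, fibSum, tsum_eq_single ⟨x.1, x.2, rfl⟩]
    intro y hy
    have h : y.1 = x.1 := hP y.2.1 x.2 y.2.2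
    exact absurd (Subtype.ext h) hy
  · rw [Function.extend_apply' _ _ _ hz, fibSum, Pi.zero_apply, ENNReal.tsum_eq_zero]
    intro y
    exact absurd ⟨⟨y.1, y.2.1⟩, y.2.2⟩ hz

variable [MeasurableSpace E] [BorelSpace E] (μ : Measure E) [μ.IsAddHaarMeasure]

theorem ar_piece {f : E → E} (hf : ContDiff ℝ 1 f) {P : Set E} (hPm : MeasurableSet P)
    (hP : InjOn f P) (hd : ∀ x ∈ P, (fderiv ℝ f x).det ≠ 0) :
    Measurable (fibSum f P) ∧ ∫⁻ z, fibSum f P z ∂μ = μ P := by
  have hf' : ∀ x ∈ P, HasFDerivWithinAt f (fderiv ℝ f x) P x := fun x _ =>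
    ((hf.differentiable one_ne_zero) x).hasFDerivAt.hasFDerivWithinAt
  have hemb : MeasurableEmbedding (P.domRestrict f) := measurableEmbedding_of_fderivWithin hPm hf' hP
  have hinj : Function.Injective (P.domRestrict f) := injOn_iff_injective.1 hP
  have hc : Continuous fun x => (fderiv ℝ f x).det :=
    ContinuousLinearMap.continuous_det.comp (hf.continuous_fderiv one_ne_zero)
  have hm : Measurable fun x : P => ENNReal.ofReal (1 / |(fderiv ℝ f x.1).det|) :=
    ENNReal.measurable_ofReal.comp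
      ((measurable_const.div (continuous_abs.comp hc).measurable).comp measurable_subtype_coe)
  have him : MeasurableSet (f '' P) := measurable_image_of_fderivWithin hPm hf' hP
  refine ⟨?_, ?_⟩
  · rw [ar_ext hP]
    exact hemb.measurable_extend hm measurable_const
  · have h1 : ∫⁻ z, fibSum f P z ∂μ = ∫⁻ z in f '' P, fibSum f P z ∂μ := by
      rw [← lintegral_indicator him]
      refine lintegral_congr fun z => ?_
      by_cases hz : z ∈ f '' P
      · rw [indicator_of_mem hz]
      · rw [indicator_of_notMem hz, fibSum, ENNReal.tsum_eq_zero]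
        intro y
        exact absurd ⟨y.1, y.2.1, y.2.2⟩ hz
    rw [h1, lintegral_image_eq_lintegral_abs_det_fderiv_mul μ hPm hf' hP,
      setLIntegral_congr_fun hPm (g := fun _ => 1), setLIntegral_one]
    intro x hx
    have h2 : fibSum f P (f x) = ENNReal.ofReal (1 / |(fderiv ℝ f x).det|) := by
      rw [ar_ext hP]
      exact hinj.extend_apply _ _ ⟨x, hx⟩
    have h3 : |(fderiv ℝ f x).det| ≠ 0 := abs_ne_zero.2 (hd x hx)
    simp only
    rw [h2, ← ENNReal.ofReal_mul (abs_nonneg _), mul_one_div_cancel h3, ENNReal.ofReal_one]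

end

theorem area_proof : AREA := by
  intro E _ _ _ _ _ μ _ f hf S hS hd
  obtain ⟨b, hb⟩ : ∃ b : ℕ → Set E, (∀ n, IsOpen (b n)) ∧
      ∀ x, ∀ U ∈ 𝓝 x, ∃ n, x ∈ b n ∧ b n ⊆ U := by
    obtain ⟨B, hBc, -, hB⟩ := TopologicalSpace.exists_countable_basis E
    obtain ⟨b, hb⟩ := (hBc.insert ∅).exists_eq_range (insert_nonempty _ _)
    refine ⟨b, fun n => ?_, fun x U hU => ?_⟩
    · have : b n ∈ insert ∅ B := hb ▸ mem_range_self n
      rcases this with h | h
      · rw [h]; exact isOpen_empty
      · exact hB.isOpen h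
    · obtain ⟨t, ht, hx, htU⟩ := hB.mem_nhds_iff.1 hU
      have : t ∈ range b := hb ▸ mem_insert_of_mem _ ht
      obtain ⟨n, rfl⟩ := this
      exact ⟨n, hx, htU⟩
  let V : ℕ → Set E := fun n => if InjOn f (b n) then b n else ∅
  have hVm : ∀ n, MeasurableSet (V n) := fun n => by
    simp only [V]
    split_ifs
    · exact (hb.1 n).measurableSet
    · exact MeasurableSet.empty
  have hVi : ∀ n, InjOn f (V n) := fun n => by
    simp only [V]
    split_ifs with h
    · exact h
    · exact injOn_empty f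
  let P : ℕ → Set E := fun n => S ∩ disjointed V n
  have hPm : ∀ n, MeasurableSet (P n) := fun n => hS.inter (MeasurableSet.disjointed hVm n)
  have hPd : Pairwise (Function.onFun Disjoint P) := fun m n h =>
    (disjoint_disjointed V h).mono inter_subset_right inter_subset_right
  have hPi : ∀ n, InjOn f (P n) := fun n =>
    (hVi n).mono (inter_subset_right.trans (disjointed_subset V n))
  have hU : ⋃ n, P n = S := by
    rw [← inter_iUnion, iUnion_disjointed, inter_eq_left]
    intro x hx
    obtain ⟨U, hU, hi⟩ := ar_loc hf (hd x hx)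
    obtain ⟨n, h1, h2⟩ := hb.2 x U hU
    refine mem_iUnion.2 ⟨n, ?_⟩
    simp only [V]
    rw [if_pos (hi.mono h2)]
    exact h1
  have hp := fun n => ar_piece μ hf (hPm n) (hPi n) fun x hx => hd x hx.1
  have e : fibSum f S = fun z => ∑' n, fibSum f (P n) z := by
    funext z
    rw [← ar_split f P hPd, hU]
  rw [e]
  refine ⟨Measurable.tsum fun n => (hp n).1, ?_⟩
  rw [lintegral_tsum fun n => (hp n).1.aemeasurable]
  simp only [fun n => (hp n).2]
  rw [← measure_iUnion hPd hPm, hU]

end Crest.Agent.R128
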