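import Crest.Agent.R128.Basic

/-! Task BOOT: the multiscale bootstrap. -/

set_option autoImplicit false

namespace Crest.Agent.R128

open MeasureTheory Set Filter
open scoped Real BigOperators Classical

namespace BootAux

theorem exists_tail {θ₀ c C η : ℝ} (hθ : 0 < θ₀) (hc : 0 < c) (hη : 0 < η) :
    ∃ L₁ : ℕ, 8 ≤ θ₀ * L₁ ∧ ∀ N : ℕ,
      ∑ L ∈ Finset.Icc L₁ N, C * Real.exp (-c * ((⌊θ₀ * L / 4⌋₊ - 1 : ℕ) : ℝ)) ≤ η := by
  have hs : Summable (fun L : ℕ => C * Real.exp (-c * ((⌊θ₀ * L / 4⌋₊ - 1 : ℕ) : ℝ))) := by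
    apply Summable.mul_left
    have hg : Summable (fun L : ℕ => Real.exp (2 * c) * Real.exp (-(c * θ₀ / 4)) ^ L) := by
      apply Summable.mul_left
      refine summable_geometric_of_lt_one (Real.exp_pos _).le ?_
      rw [Real.exp_lt_one_iff]
      have : 0 < c * θ₀ / 4 := by positivity
      linarith
    refine Summable.of_nonneg_of_le (fun L => (Real.exp_pos _).le) (fun L => ?_) hg
    rw [← Real.exp_nat_mul, ← Real.exp_add]
    apply Real.exp_le_exp.2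
    have h1 : θ₀ * L / 4 < (⌊θ₀ * L / 4⌋₊ : ℝ) + 1 := Nat.lt_floor_add_one _
    have h2 : (⌊θ₀ * L / 4⌋₊ : ℝ) ≤ ((⌊θ₀ * L / 4⌋₊ - 1 : ℕ) : ℝ) + 1 := by
      have : ⌊θ₀ * L / 4⌋₊ ≤ (⌊θ₀ * L / 4⌋₊ - 1) + 1 := by omega
      exact_mod_cast this
    nlinarith
  obtain ⟨s, hs'⟩ := summable_iff_vanishing_norm.1 hs η hη
  refine ⟨max (s.sup id + 1) ⌈8 / θ₀⌉₊, ?_, fun N => ?_⟩
  · have h1 : (8 / θ₀ : ℝ) ≤ ((max (s.sup id + 1) ⌈8 / θ₀⌉₊ : ℕ) : ℝ) :=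
      (Nat.le_ceil _).trans (by exact_mod_cast le_max_right _ _)
    rw [div_le_iff₀ hθ] at h1
    linarith
  · refine le_trans (le_abs_self _) (le_of_lt ?_)
    rw [← Real.norm_eq_abs]
    apply hs'
    rw [Finset.disjoint_left]
    intro L hL hLs
    have h1 : L ≤ s.sup id := Finset.le_sup (f := id) hLs
    have h2 := (Finset.mem_Icc.1 hL).1
    have h3 := le_max_left (s.sup id + 1) ⌈8 / θ₀⌉₊
    omega

end BootAux

open BootAux in
theorem boot_proof (hDET : DET) (hDET2 : DET2) (hMAX : MAX) (hSHIFT : SHIFT) (hQB : QB)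
    (hDB : DB) (hREST : REST) : BOOT := by
  obtain ⟨δ, hδ0, hδ1, c, hc, C, hR⟩ := hREST
  obtain ⟨θ₀, hθδ⟩ : ∃ θ₀ : ℝ, 7 * θ₀ = δ := ⟨δ / 7, by ring⟩
  have hθ0 : 0 < θ₀ := by linarith
  have hθ1 : θ₀ ≤ 1 / 1000 := by linarith
  obtain ⟨c₁, hc₁⟩ : ∃ c₁ : ℝ, c₁ = θ₀ ^ 2 / 32 := ⟨_, rfl⟩
  have hc₁0 : 0 < c₁ := by rw [hc₁]; positivity
  have hc₁1 : c₁ ≤ 1 := by rw [hc₁]; nlinarith
  obtain ⟨ε, hε⟩ : ∃ ε : ℝ, ε = θ₀ * c₁ / (24 * 288) := ⟨_, rfl⟩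
  have hε0 : 0 < ε := by rw [hε]; positivity
  have hε1 : ε ≤ 1 / 2 := by rw [hε]; nlinarith
  have hη : 0 < ε * θ₀ / 24 := by positivity
  obtain ⟨L₁, hL₁, htail⟩ := exists_tail (C := C) hθ0 hc hη
  have hA : 0 < 1 + 801 / c₁ + L₁ := by positivity
  refine ⟨θ₀ / 2, by positivity, by linarith, ?_⟩
  filter_upwards [ev_KK (hDET θ₀ hθ0 hθ1), ev_KK (hDET2 θ₀ hθ0 hθ1), hDB θ₀ hθ0 hθ1, hR,
    hQB c₁ hc₁0 (ε * θ₀ / 24 / (1 + 801 / c₁ + L₁)) (by positivity),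
    eventually_ge_atTop (0 : ℝ)] with k hD hD2 hDB' hR' hq hk
  rw [← hc₁] at hD hD2 hDB'
  rw [le_div_iff₀ hA] at hq
  have hsm : ∀ L : ℤ, Pr k (fun V => Small (KK k) c₁ (V L)) =
      Pr k (fun V => Small (KK k) c₁ (V 0)) := by
    intro L
    rw [← hSHIFT k _ (measurableSet_Small (KK k) c₁ 0) L]
    simp only [sh_apply_zero]
  obtain ⟨q, hqe⟩ : ∃ q, q = Pr k (fun V => Small (KK k) c₁ (V 0)) := ⟨_, rfl⟩
  rw [← hqe] at hq hDB' hsm
  have hq0 : 0 ≤ q := hqe ▸ Pr_nonneg _ _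
  suffices h : ∀ N : ℕ, Pr k (fun V => ¬ Good (KK k) (θ₀ / 2) N (fwd V 1)) ≤ ε from
    fun N => (h N).trans hε1
  intro N
  induction N with
  | zero =>
    have : Pr k (fun V => ¬ Good (KK k) (θ₀ / 2) 0 (fwd V 1)) ≤ Pr k (fun _ => False) := by
      refine Pr_mono k fun ω h => h ?_
      intro i hi
      obtain rfl : i = 0 := by omega
      simp
    refine this.trans ?_
    simp [Pr, hε0.le]
  | succ N ih =>
    obtain ⟨θ, hθa, hθb, hdb⟩ := hDB' N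
    obtain ⟨u, hue⟩ : ∃ u, u = Pr k (fun V => ¬ Good (KK k) (θ₀ / 2) N (fwd V 1)) := ⟨_, rfl⟩
    rw [← hue] at ih hdb
    have hu0 : 0 ≤ u := hue ▸ Pr_nonneg _ _
    -- D-times
    have hD0 : Pr k (D0 (KK k) θ c₁ N) ≤ 801 * q + 288 * u ^ 2 := by
      have h1 := Pr_or_le k
        (fun V => ¬ Good (KK k) θ N (bwd V (-1)) ∧ ¬ Good (KK k) θ N (fwd V 0))
        (fun V => Small (KK k) c₁ (V 0))
      have h2 := hSHIFT k (fun V => ¬ Good (KK k) θ N (bwd V 0) ∧ ¬ Good (KK k) θ N (fwd V 1))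
        ((measurableSet_Good_bwd _ θ N 0).compl.inter (measurableSet_Good_fwd _ θ N 1).compl) (-1)
      simp only [fwd_sh, bwd_sh, zero_add, add_neg_cancel] at h2
      rw [h2, ← hqe] at h1
      have h3 : Pr k (D0 (KK k) θ c₁ N) ≤ _ := h1
      linarith
    have hP : Pr k (fun V => ¬ Good (KK k) θ N (fwd V 1)) ≤
        (801 * q + 288 * u ^ 2) / c₁ + L₁ * q + ε * θ₀ / 24 := by
      have h1 : Pr k (fun V => ¬ Good (KK k) θ N (fwd V 1)) ≤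
          Pr k (fun V => Dense (fun j => D0 (KK k) θ c₁ N (sh V j)) c₁ N ∨
            ((∃ L ∈ Finset.range L₁, Small (KK k) c₁ (V (L : ℕ))) ∨
              ∃ L ∈ Finset.Icc L₁ N, Rev (KK k) δ (⌊θ₀ * (L : ℕ) / 4⌋₊ - 1) (sh V (L : ℕ)))) := by
        refine Pr_mono k fun ω h => ?_
        rcases hD θ hθa hθb _ (bdZ_VV hk ω) N h with h' | ⟨L, _, hLN, hs, hr⟩
        · exact Or.inl h'
        · by_cases hL : L < L₁
          · exact Or.inr (Or.inl ⟨L, Finset.mem_range.2 hL, hs⟩)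
          · refine Or.inr (Or.inr ⟨L, Finset.mem_Icc.2 ⟨by omega, hLN⟩, ?_⟩)
            rw [← hθδ]
            apply hr
            have : (L₁ : ℝ) ≤ L := by exact_mod_cast (not_lt.1 hL)
            nlinarith
      have h2 := hMAX k _ (measurableSet_D0 (KK k) θ c₁ N) c₁ hc₁0 N
      have h3 : Pr k (fun V => ∃ L ∈ Finset.range L₁, Small (KK k) c₁ (V (L : ℕ))) ≤ L₁ * q := by
        refine (Pr_exists_le k _ (fun (L : ℕ) V => Small (KK k) c₁ (V L))).trans ?_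
        simp only [hsm, Finset.sum_const, Finset.card_range, nsmul_eq_mul, le_refl]
      have h4 : Pr k (fun V => ∃ L ∈ Finset.Icc L₁ N,
          Rev (KK k) δ (⌊θ₀ * (L : ℕ) / 4⌋₊ - 1) (sh V (L : ℕ))) ≤ ε * θ₀ / 24 := by
        refine (Pr_exists_le k _
          (fun (L : ℕ) V => Rev (KK k) δ (⌊θ₀ * L / 4⌋₊ - 1) (sh V L))).trans ?_
        refine le_trans (Finset.sum_le_sum fun L _ => ?_) (htail N)
        rw [hSHIFT k _ (measurableSet_Rev (KK k) δ _) L]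
        exact hR' _
      have h5 : Pr k (D0 (KK k) θ c₁ N) / c₁ ≤ (801 * q + 288 * u ^ 2) / c₁ := by gcongr
      refine h1.trans ((Pr_or_le k _ _).trans ?_)
      have h6 := Pr_or_le k (fun V => ∃ L ∈ Finset.range L₁, Small (KK k) c₁ (V (L : ℕ)))
        (fun V => ∃ L ∈ Finset.Icc L₁ N, Rev (KK k) δ (⌊θ₀ * (L : ℕ) / 4⌋₊ - 1) (sh V (L : ℕ)))
      linarith
    have hD1 : Pr k (D1 (KK k) θ c₁ N) ≤ Pr k (fun V => ¬ Good (KK k) θ N (fwd V 1)) + q := by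
      rw [hqe]
      exact Pr_or_le k _ _
    have h7 : Pr k (fun V => ¬ Good (KK k) (θ₀ / 2) (N + 1) (fwd V 1)) ≤
        Pr k (fun V => Dense (fun j => D1 (KK k) θ c₁ N (sh V j)) (θ₀ / 8) (N + 1)) :=
      Pr_mono k fun ω h => hD2 θ (by linarith) (by linarith) _ (bdZ_VV hk ω) N h
    have h8 := hMAX k _ (measurableSet_D1 (KK k) θ c₁ N) (θ₀ / 8) (by positivity) (N + 1)
    refine h7.trans (h8.trans ?_)
    rw [div_le_iff₀ (by positivity)]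
    have h9 : 288 * u ^ 2 / c₁ ≤ ε * θ₀ / 24 := by
      rw [div_le_iff₀ hc₁0]
      have h10 : u ^ 2 ≤ ε ^ 2 := by gcongr
      have h11 : 288 * ε ^ 2 = ε * θ₀ / 24 * c₁ := by
        rw [pow_two]; nth_rewrite 2 [hε]; ring
      linarith
    have h12 : (801 * q + 288 * u ^ 2) / c₁ = q * (801 / c₁) + 288 * u ^ 2 / c₁ := by ring
    nlinarith

end Crest.Agent.R128
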