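import Crest.Agent.R128.Defs

/-! # Row 128: elementary facts (all proved). -/

set_option autoImplicit false

namespace Crest.Agent.R128

open MeasureTheory Set Filter
open scoped Real BigOperators Classical

/-! ## the recurrence -/

section Rec
variable {R : Type*} [CommRing R]

@[simp] lemma sol_zero (U : ℕ → R) (a b : R) : sol U a b 0 = a := rfl
@[simp] lemma sol_one (U : ℕ → R) (a b : R) : sol U a b 1 = b := rfl
lemma sol_succ_succ (U : ℕ → R) (a b : R) (j : ℕ) :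
    sol U a b (j + 2) = U (j + 1) * sol U a b (j + 1) - sol U a b j := rfl

@[simp] lemma eta_zero (U : ℕ → R) : eta U 0 = 0 := rfl
@[simp] lemma eta_one (U : ℕ → R) : eta U 1 = 1 := rfl
@[simp] lemma zeta_zero (U : ℕ → R) : zeta U 0 = 1 := rfl
@[simp] lemma zeta_one (U : ℕ → R) : zeta U 1 = 0 := rfl
lemma eta_succ_succ (U : ℕ → R) (j : ℕ) :
    eta U (j + 2) = U (j + 1) * eta U (j + 1) - eta U j := rfl
lemma zeta_succ_succ (U : ℕ → R) (j : ℕ) :
    zeta U (j + 2) = U (j + 1) * zeta U (j + 1) - zeta U j := rfl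

/-- a sequence solving the recurrence up to `m` is `sol`. -/
lemma eq_sol_of_rec (U f : ℕ → R) (m : ℕ)
    (h : ∀ j, j + 2 ≤ m → f (j + 2) = U (j + 1) * f (j + 1) - f j) :
    ∀ j, j ≤ m → f j = sol U (f 0) (f 1) j := by
  intro j
  induction j using Nat.strong_induction_on with
  | _ j ih =>
    intro hj
    match j with
    | 0 => rfl
    | 1 => rfl
    | (j + 2) =>
      rw [h j hj, sol_succ_succ, ← ih (j + 1) (by omega) (by omega), ← ih j (by omega) (by omega)]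

lemma sol_eq (U : ℕ → R) (a b : R) (j : ℕ) : sol U a b j = a * zeta U j + b * eta U j := by
  induction j using Nat.strong_induction_on with
  | _ j ih =>
    match j with
    | 0 => simp
    | 1 => simp
    | (j + 2) =>
      rw [sol_succ_succ, zeta_succ_succ, eta_succ_succ, ih (j + 1) (by omega), ih j (by omega)]
      ring

lemma sol_one_eq (U : ℕ → R) (r r' : R) (j : ℕ) :
    sol U 1 r j = sol U 1 r' j + (r - r') * eta U j := by
  rw [sol_eq, sol_eq U 1 r']; ring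

/-- `sol` only depends on `U 1, …, U (j-1)`. -/
lemma sol_congr (U U' : ℕ → R) (a b : R) (j : ℕ) (h : ∀ l, 1 ≤ l → l < j → U l = U' l) :
    sol U a b j = sol U' a b j := by
  induction j using Nat.strong_induction_on with
  | _ j ih =>
    match j with
    | 0 => rfl
    | 1 => rfl
    | (j + 2) =>
      rw [sol_succ_succ, sol_succ_succ, h (j + 1) (by omega) (by omega),
        ih (j + 1) (by omega) (fun l h1 h2 => h l h1 (by omega)),
        ih j (by omega) (fun l h1 h2 => h l h1 (by omega))]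

lemma wronsk (U : ℕ → R) (a b a' b' : R) (j : ℕ) :
    sol U a b j * sol U a' b' (j + 1) - sol U a b (j + 1) * sol U a' b' j = a * b' - b * a' := by
  induction j with
  | zero => simp
  | succ j ih => rw [sol_succ_succ, sol_succ_succ, ← ih]; ring

lemma wronsk_zeta_eta (U : ℕ → R) (j : ℕ) :
    zeta U j * eta U (j + 1) - zeta U (j + 1) * eta U j = 1 := by
  have := wronsk U 1 0 0 1 j
  simpa [zeta, eta] using this

lemma wronsk_one_eta (U : ℕ → R) (r : R) (j : ℕ) :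
    sol U 1 r j * eta U (j + 1) - sol U 1 r (j + 1) * eta U j = 1 := by
  have := wronsk U 1 r 0 1 j
  simpa [eta] using this

/-- a solution with prescribed values at `L, L+1`. -/
lemma exists_sol (U : ℕ → R) (L : ℕ) (x y : R) :
    ∃ a b : R, sol U a b L = x ∧ sol U a b (L + 1) = y := by
  refine ⟨x * eta U (L + 1) - y * eta U L, y * zeta U L - x * zeta U (L + 1), ?_, ?_⟩
  · rw [sol_eq]; have := wronsk_zeta_eta U L; linear_combination x * this
  · rw [sol_eq]; have := wronsk_zeta_eta U L; linear_combination y * this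

lemma sol_map {S : Type*} [CommRing S] (φ : R →+* S) (U : ℕ → R) (a b : R) (j : ℕ) :
    sol (fun l => φ (U l)) (φ a) (φ b) j = φ (sol U a b j) := by
  induction j using Nat.strong_induction_on with
  | _ j ih =>
    match j with
    | 0 => rfl
    | 1 => rfl
    | (j + 2) =>
      rw [sol_succ_succ, sol_succ_succ, ih (j + 1) (by omega), ih j (by omega)]; simp

end Rec

section Fld
variable {R : Type*} [Field R]

lemma rr_one (U : ℕ → R) : rr U 1 = 0 := by simp [rr]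

lemma sol_rr (U : ℕ → R) (m : ℕ) (h : eta U m ≠ 0) : sol U 1 (rr U m) m = 0 := by
  rw [sol_eq, rr]; field_simp; ring

lemma sub_rr (U : ℕ → R) (r : R) (m : ℕ) (h : eta U m ≠ 0) :
    r - rr U m = sol U 1 r m / eta U m := by
  rw [sol_eq, rr]; field_simp; ring

lemma rr_succ (U : ℕ → R) (m : ℕ) (h : eta U m ≠ 0) (h' : eta U (m + 1) ≠ 0) :
    rr U (m + 1) - rr U m = 1 / (eta U m * eta U (m + 1)) := by
  have := wronsk_zeta_eta U m
  rw [rr, rr]; field_simp; linear_combination this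

lemma rr_succ_succ (U : ℕ → R) (m : ℕ) (h : eta U m ≠ 0) (h' : eta U (m + 2) ≠ 0) :
    rr U (m + 2) - rr U m = U (m + 1) / (eta U m * eta U (m + 2)) := by
  have := wronsk_zeta_eta U m
  have h1 := eta_succ_succ U m
  have h2 := zeta_succ_succ U m
  rw [rr, rr]; field_simp
  linear_combination U (m + 1) * this + zeta U m * h1 - eta U m * h2

end Fld

/-! ## pair norms -/

lemma nn_nonneg (f : ℕ → ℝ) (j : ℕ) : 0 ≤ nn f j := le_max_of_le_left (abs_nonneg _)
lemma abs_le_nn (f : ℕ → ℝ) (j : ℕ) : |f j| ≤ nn f j := le_max_left _ _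
lemma abs_succ_le_nn (f : ℕ → ℝ) (j : ℕ) : |f (j + 1)| ≤ nn f j := le_max_right _ _
lemma abs_le_nn_of (f : ℕ → ℝ) {j m : ℕ} (h : m = j ∨ m = j + 1) : |f m| ≤ nn f j := by
  rcases h with rfl | rfl
  · exact abs_le_nn _ _
  · exact abs_succ_le_nn _ _
lemma nn_le_iff (f : ℕ → ℝ) (j : ℕ) (c : ℝ) : nn f j ≤ c ↔ |f j| ≤ c ∧ |f (j + 1)| ≤ c :=
  max_le_iff
lemma exists_nn (f : ℕ → ℝ) (j : ℕ) : ∃ m, (m = j ∨ m = j + 1) ∧ |f m| = nn f j := by
  rcases le_total |f j| |f (j + 1)| with h | h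
  · exact ⟨j + 1, Or.inr rfl, (max_eq_right h).symm⟩
  · exact ⟨j, Or.inl rfl, (max_eq_left h).symm⟩

lemma Bd.one_le {𝕂 : ℝ} {U : ℕ → ℝ} (h : Bd 𝕂 U) : 1 ≤ 𝕂 := by
  have := h 0; have := abs_nonneg (U 0); linarith

lemma nn_succ_le {𝕂 : ℝ} {U : ℕ → ℝ} (h : Bd 𝕂 U) (a b : ℝ) (j : ℕ) :
    nn (sol U a b) (j + 1) ≤ 𝕂 * nn (sol U a b) j := by
  have h1 := h.one_le
  have h0 := nn_nonneg (sol U a b) j
  have ha := abs_le_nn (sol U a b) j
  have hb := abs_succ_le_nn (sol U a b) j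
  rw [nn_le_iff]
  refine ⟨by nlinarith, ?_⟩
  rw [show j + 1 + 1 = j + 2 from rfl, sol_succ_succ]
  calc _ ≤ |U (j + 1)| * |sol U a b (j + 1)| + |sol U a b j| := by
        rw [← abs_mul]; exact abs_sub _ _
    _ ≤ (𝕂 - 1) * nn (sol U a b) j + nn (sol U a b) j := by
        gcongr
        exact h _
    _ = _ := by ring

lemma nn_le_succ {𝕂 : ℝ} {U : ℕ → ℝ} (h : Bd 𝕂 U) (a b : ℝ) (j : ℕ) :
    nn (sol U a b) j ≤ 𝕂 * nn (sol U a b) (j + 1) := by
  have h1 := h.one_le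
  have h0 := nn_nonneg (sol U a b) (j + 1)
  have ha := abs_le_nn (sol U a b) (j + 1)
  have hb := abs_succ_le_nn (sol U a b) (j + 1)
  rw [nn_le_iff]
  refine ⟨?_, by nlinarith⟩
  have e : sol U a b j = U (j + 1) * sol U a b (j + 1) - sol U a b (j + 1 + 1) := by
    rw [show j + 1 + 1 = j + 2 from rfl, sol_succ_succ]; ring
  rw [e]
  calc _ ≤ |U (j + 1)| * |sol U a b (j + 1)| + |sol U a b (j + 1 + 1)| := by
        rw [← abs_mul]; exact abs_sub _ _
    _ ≤ (𝕂 - 1) * nn (sol U a b) (j + 1) + nn (sol U a b) (j + 1) := by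
        gcongr
        exact h _
    _ = _ := by ring

lemma nn_add_le {𝕂 : ℝ} {U : ℕ → ℝ} (h : Bd 𝕂 U) (a b : ℝ) (j s : ℕ) :
    nn (sol U a b) (j + s) ≤ 𝕂 ^ s * nn (sol U a b) j := by
  have h1 := h.one_le
  induction s with
  | zero => simp
  | succ s ih =>
    calc _ ≤ 𝕂 * nn (sol U a b) (j + s) := nn_succ_le h a b (j + s)
      _ ≤ 𝕂 * (𝕂 ^ s * nn (sol U a b) j) := by gcongr
      _ = _ := by ring

lemma nn_le_add {𝕂 : ℝ} {U : ℕ → ℝ} (h : Bd 𝕂 U) (a b : ℝ) (j s : ℕ) :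
    nn (sol U a b) j ≤ 𝕂 ^ s * nn (sol U a b) (j + s) := by
  have h1 := h.one_le
  induction s with
  | zero => simp
  | succ s ih =>
    calc _ ≤ 𝕂 ^ s * nn (sol U a b) (j + s) := ih
      _ ≤ 𝕂 ^ s * (𝕂 * nn (sol U a b) (j + s + 1)) := by gcongr; exact nn_le_succ h a b (j + s)
      _ = _ := by rw [← add_assoc]; ring

@[simp] lemma ne_zero (U : ℕ → ℝ) : ne U 0 = 1 := by simp [ne, nn]
@[simp] lemma Mx_zero (U : ℕ → ℝ) : Mx U 0 = 1 := by simp [Mx, nn]

lemma ne_pos (U : ℕ → ℝ) (j : ℕ) : 0 < ne U j := by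
  have hw := wronsk_zeta_eta U j
  by_contra hc
  have h1 := abs_le_nn (eta U) j
  have h2 := abs_succ_le_nn (eta U) j
  have e1 : eta U j = 0 := abs_nonpos_iff.1 (h1.trans (not_lt.1 hc))
  have e2 : eta U (j + 1) = 0 := abs_nonpos_iff.1 (h2.trans (not_lt.1 hc))
  rw [e1, e2] at hw; simp at hw

lemma eta_ne_zero_of {U : ℕ → ℝ} {j m : ℕ} (h : |eta U m| = ne U j) : eta U m ≠ 0 := by
  intro h0; have := ne_pos U j; rw [← h, h0] at this; simp at this

lemma ne_le_Mx (U : ℕ → ℝ) (j : ℕ) : ne U j ≤ Mx U j := le_max_left _ _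
lemma nn_zeta_le_Mx (U : ℕ → ℝ) (j : ℕ) : nn (zeta U) j ≤ Mx U j := le_max_right _ _
lemma Mx_pos (U : ℕ → ℝ) (j : ℕ) : 0 < Mx U j := (ne_pos U j).trans_le (ne_le_Mx U j)

lemma ne_succ_le {𝕂 : ℝ} {U : ℕ → ℝ} (h : Bd 𝕂 U) (j : ℕ) : ne U (j + 1) ≤ 𝕂 * ne U j :=
  nn_succ_le h 0 1 j
lemma ne_le_succ {𝕂 : ℝ} {U : ℕ → ℝ} (h : Bd 𝕂 U) (j : ℕ) : ne U j ≤ 𝕂 * ne U (j + 1) :=
  nn_le_succ h 0 1 j
lemma ne_add_le {𝕂 : ℝ} {U : ℕ → ℝ} (h : Bd 𝕂 U) (j s : ℕ) : ne U (j + s) ≤ 𝕂 ^ s * ne U j :=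
  nn_add_le h 0 1 j s
lemma ne_le_add {𝕂 : ℝ} {U : ℕ → ℝ} (h : Bd 𝕂 U) (j s : ℕ) : ne U j ≤ 𝕂 ^ s * ne U (j + s) :=
  nn_le_add h 0 1 j s
lemma ne_le_pow {𝕂 : ℝ} {U : ℕ → ℝ} (h : Bd 𝕂 U) (j : ℕ) : ne U j ≤ 𝕂 ^ j := by
  simpa using ne_add_le h 0 j
lemma abs_eta_succ_le_pow {𝕂 : ℝ} {U : ℕ → ℝ} (h : Bd 𝕂 U) (j : ℕ) :
    |eta U (j + 1)| ≤ 𝕂 ^ j := (abs_succ_le_nn _ j).trans (ne_le_pow h j)

lemma Mx_add_le {𝕂 : ℝ} {U : ℕ → ℝ} (h : Bd 𝕂 U) (j s : ℕ) : Mx U (j + s) ≤ 𝕂 ^ s * Mx U j := by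
  have h1 := h.one_le
  refine max_le ((nn_add_le h 0 1 j s).trans ?_) ((nn_add_le h 1 0 j s).trans ?_)
  · gcongr; exact ne_le_Mx U j
  · gcongr; exact nn_zeta_le_Mx U j
lemma Mx_le_add {𝕂 : ℝ} {U : ℕ → ℝ} (h : Bd 𝕂 U) (j s : ℕ) : Mx U j ≤ 𝕂 ^ s * Mx U (j + s) := by
  have h1 := h.one_le
  refine max_le ((nn_le_add h 0 1 j s).trans ?_) ((nn_le_add h 1 0 j s).trans ?_)
  · gcongr; exact ne_le_Mx U _
  · gcongr; exact nn_zeta_le_Mx U _
lemma Mx_le_succ {𝕂 : ℝ} {U : ℕ → ℝ} (h : Bd 𝕂 U) (j : ℕ) : Mx U j ≤ 𝕂 * Mx U (j + 1) := by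
  simpa using Mx_le_add h j 1
lemma Mx_succ_le {𝕂 : ℝ} {U : ℕ → ℝ} (h : Bd 𝕂 U) (j : ℕ) : Mx U (j + 1) ≤ 𝕂 * Mx U j := by
  simpa using Mx_add_le h j 1

/-- the Dirichlet solution at its own end has pair norm `1/ne`. -/
lemma nn_dir (U : ℕ → ℝ) {j m : ℕ} (hm : m = j ∨ m = j + 1) (h : |eta U m| = ne U j) :
    nn (sol U 1 (rr U m)) j = 1 / ne U j := by
  have h0 := eta_ne_zero_of h
  have hz := sol_rr U m h0
  have hw := wronsk_one_eta U (rr U m) j
  have hp := ne_pos U j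
  rcases hm with rfl | rfl
  · rw [hz] at hw
    have : sol U 1 (rr U m) (m + 1) = -1 / eta U m := by field_simp; linarith
    rw [nn, hz, this, abs_div, h]; simp [hp.le]
  · rw [hz] at hw
    have : sol U 1 (rr U (j + 1)) j = 1 / eta U (j + 1) := by field_simp; linarith
    rw [nn, hz, this, abs_div, h]; simp [hp.le]

lemma rr_step {𝕂 : ℝ} {U : ℕ → ℝ} (hU : Bd 𝕂 U) {i m m' : ℕ} (hm : m = i ∨ m = i + 1)
    (hm' : m' = i + 1 ∨ m' = i + 1 + 1) (h : |eta U m| = ne U i) (h' : |eta U m'| = ne U (i + 1)) :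
    |rr U m' - rr U m| ≤ 𝕂 / (ne U i * ne U (i + 1)) := by
  have h0 := eta_ne_zero_of h
  have h0' := eta_ne_zero_of h'
  have h1 := hU.one_le
  have hp := ne_pos U i
  have hp' := ne_pos U (i + 1)
  rcases hm with rfl | rfl <;> rcases hm' with rfl | rfl
  · rw [rr_succ U m h0 h0', abs_div, abs_mul, h, h', abs_one]; gcongr
  · rw [rr_succ_succ U m h0 h0', abs_div, abs_mul, h, h']; gcongr; linarith [hU (m + 1)]
  · rw [sub_self, abs_zero]; positivity
  · rw [rr_succ U (i + 1) h0 h0', abs_div, abs_mul, h, h', abs_one]; gcongr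

/-- Wronskian bound. -/
lemma one_le_nn_mul (U : ℕ → ℝ) (r : ℝ) (j : ℕ) : 1 ≤ 2 * (nn (sol U 1 r) j * ne U j) := by
  have hw := wronsk_one_eta U r j
  have a1 := abs_le_nn (sol U 1 r) j
  have a2 := abs_succ_le_nn (sol U 1 r) j
  have b1 : |eta U j| ≤ ne U j := abs_le_nn _ j
  have b2 : |eta U (j + 1)| ≤ ne U j := abs_succ_le_nn _ j
  have h0 := nn_nonneg (sol U 1 r) j
  calc (1 : ℝ) = |sol U 1 r j * eta U (j + 1) - sol U 1 r (j + 1) * eta U j| := by rw [hw]; simp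
    _ ≤ |sol U 1 r j| * |eta U (j + 1)| + |sol U 1 r (j + 1)| * |eta U j| := by
        rw [← abs_mul, ← abs_mul]; exact abs_sub _ _
    _ ≤ nn (sol U 1 r) j * ne U j + nn (sol U 1 r) j * ne U j := by gcongr
    _ = _ := by ring

/-! ## two-sided sequences -/

lemma fwd_sh (V : ℤ → ℝ) (t a : ℤ) : fwd (sh V t) a = fwd V (a + t) := by
  funext j; simp only [fwd, sh]; congr 1; ring
lemma bwd_sh (V : ℤ → ℝ) (t a : ℤ) : bwd (sh V t) a = bwd V (a + t) := by
  funext j; simp only [bwd, sh]; congr 1; ring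
lemma sh_sh (V : ℤ → ℝ) (s t : ℤ) : sh (sh V s) t = sh V (t + s) := by
  funext j; simp only [sh]; congr 1; ring
@[simp] lemma sh_zero (V : ℤ → ℝ) : sh V 0 = V := by funext j; simp [sh]
@[simp] lemma sh_apply_zero (V : ℤ → ℝ) (t : ℤ) : sh V t 0 = V t := by simp [sh]
lemma bwd_eq_fwd (V : ℤ → ℝ) (t : ℤ) : bwd V t = fwd (fun s => V (-s)) (-t) := by
  funext j; simp only [fwd, bwd]; congr 1; ring
lemma BdZ.fwd {𝕂 : ℝ} {V : ℤ → ℝ} (h : BdZ 𝕂 V) (a : ℤ) : Bd 𝕂 (fwd V a) := fun _ => h _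
lemma BdZ.bwd {𝕂 : ℝ} {V : ℤ → ℝ} (h : BdZ 𝕂 V) (a : ℤ) : Bd 𝕂 (bwd V a) := fun _ => h _
lemma BdZ.sh {𝕂 : ℝ} {V : ℤ → ℝ} (h : BdZ 𝕂 V) (a : ℤ) : BdZ 𝕂 (sh V a) := fun _ => h _
lemma BdZ.neg {𝕂 : ℝ} {V : ℤ → ℝ} (h : BdZ 𝕂 V) : BdZ 𝕂 (fun s => V (-s)) := fun _ => h _

lemma sol_shift (V : ℤ → ℝ) (a : ℤ) (x y : ℝ) (L l : ℕ) :
    sol (fwd V a) x y (L + l) =
      sol (fwd V (a + L)) (sol (fwd V a) x y L) (sol (fwd V a) x y (L + 1)) l := by
  refine eq_sol_of_rec (fwd V (a + L)) (fun l => sol (fwd V a) x y (L + l)) l ?_ l le_rfl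
  intro j _
  have : fwd V (a + L) (j + 1) = fwd V a (L + j + 1) := by
    simp only [fwd]; congr 1; push_cast; ring
  rw [this]; exact sol_succ_succ _ _ _ (L + j)

/-- reading a solution backwards from index `L + 1`. -/
lemma sol_back' (V : ℤ → ℝ) (a : ℤ) (x y : ℝ) (L l : ℕ) (hl : l ≤ L + 1) :
    sol (fwd V a) x y (L + 1 - l) =
      sol (bwd V (a + L - 1)) (sol (fwd V a) x y (L + 1)) (sol (fwd V a) x y L) l := by
  refine eq_sol_of_rec (bwd V (a + L - 1)) (fun l => sol (fwd V a) x y (L + 1 - l)) (L + 1) ?_ l hl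
  intro j hj
  obtain ⟨i, rfl⟩ : ∃ i, L = i + j + 1 := ⟨L - j - 1, by omega⟩
  have e1 : i + j + 1 + 1 - (j + 2) = i := by omega
  have e2 : i + j + 1 + 1 - (j + 1) = i + 1 := by omega
  have e3 : i + j + 1 + 1 - j = i + 2 := by omega
  have : bwd V (a + ((i + j + 1 : ℕ) : ℤ) - 1) (j + 1) = fwd V a (i + 1) := by
    simp only [fwd, bwd]; congr 1; push_cast; ring
  simp only [e1, e2, e3, this]
  rw [sol_succ_succ]; ring

/-- reading a solution backwards from index `L ≥ 1` (site `a - 1 + L`). -/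
lemma sol_back (V : ℤ → ℝ) (a : ℤ) (x y : ℝ) (L l : ℕ) (hL : 1 ≤ L) (hl : l ≤ L) :
    sol (fwd V a) x y (L - l) =
      sol (bwd V (a + L - 2)) (sol (fwd V a) x y L)
        (V (a - 1 + L) * sol (fwd V a) x y L - sol (fwd V a) x y (L + 1)) l := by
  obtain ⟨i, rfl⟩ : ∃ i, L = i + 1 := ⟨L - 1, by omega⟩
  have h := sol_back' V a x y i l hl
  have e : V (a - 1 + ((i + 1 : ℕ) : ℤ)) * sol (fwd V a) x y (i + 1) - sol (fwd V a) x y (i + 1 + 1)
      = sol (fwd V a) x y i := by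
    rw [show i + 1 + 1 = i + 2 from rfl, sol_succ_succ]; simp only [fwd]; ring
  rw [e, h]; congr 2; push_cast; ring

lemma prepend_eta (V : ℤ → ℝ) (a : ℤ) (j : ℕ) :
    eta (fwd V a) (j + 1) = zeta (fwd V (a + 1)) j + V a * eta (fwd V (a + 1)) j := by
  have h := sol_shift V a 0 1 1 j
  rw [add_comm 1 j] at h
  rw [eta, h, sol_eq, show (1 : ℕ) + 1 = 0 + 2 from rfl, sol_succ_succ]
  simp [fwd]

lemma prepend_zeta (V : ℤ → ℝ) (a : ℤ) (j : ℕ) :
    zeta (fwd V a) (j + 1) = -eta (fwd V (a + 1)) j := by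
  have h := sol_shift V a 1 0 1 j
  rw [add_comm 1 j] at h
  rw [zeta, h, sol_eq, show (1 : ℕ) + 1 = 0 + 2 from rfl, sol_succ_succ]
  simp

lemma Mx_prepend_ge {𝕂 : ℝ} {V : ℤ → ℝ} (h : BdZ 𝕂 V) (a : ℤ) (i : ℕ) :
    Mx (fwd V (a + 1)) i ≤ 𝕂 * Mx (fwd V a) (i + 1) := by
  have h1 := (h.fwd a).one_le
  have hp := Mx_pos (fwd V a) (i + 1)
  have hz : ∀ j, (j = i ∨ j = i + 1) → |eta (fwd V (a + 1)) j| ≤ Mx (fwd V a) (i + 1) := by
    intro j hj
    rw [← abs_neg, ← prepend_zeta]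
    exact (abs_le_nn_of _ (by omega)).trans (nn_zeta_le_Mx _ _)
  have he : ∀ j, (j = i ∨ j = i + 1) → |zeta (fwd V (a + 1)) j| ≤ 𝕂 * Mx (fwd V a) (i + 1) := by
    intro j hj
    have e : zeta (fwd V (a + 1)) j = eta (fwd V a) (j + 1) - V a * eta (fwd V (a + 1)) j := by
      rw [prepend_eta]; ring
    have b1 : |eta (fwd V a) (j + 1)| ≤ Mx (fwd V a) (i + 1) :=
      (abs_le_nn_of _ (by omega)).trans (ne_le_Mx _ _)
    rw [e]
    calc _ ≤ |eta (fwd V a) (j + 1)| + |V a| * |eta (fwd V (a + 1)) j| := by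
          rw [← abs_mul]; exact abs_sub _ _
      _ ≤ Mx (fwd V a) (i + 1) + (𝕂 - 1) * Mx (fwd V a) (i + 1) := by
          gcongr
          · exact h a
          · exact hz j hj
      _ = _ := by ring
  refine max_le (max_le ?_ ?_) (max_le (he _ (Or.inl rfl)) (he _ (Or.inr rfl)))
  · nlinarith [hz i (Or.inl rfl)]
  · nlinarith [hz (i + 1) (Or.inr rfl)]

/-- reversal symmetry of the max-entry norm of the transfer matrix over `[a, a+n)`. -/
lemma Mx_symm (V : ℤ → ℝ) (a : ℤ) (n : ℕ) : Mx (fwd V a) n = Mx (bwd V (a + n - 1)) n := by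
  have hw := wronsk_zeta_eta (fwd V a) n
  have e0 := sol_back' V a 0 1 n (n + 1) le_rfl
  have e1 := sol_back' V a 0 1 n n (by omega)
  have z0 := sol_back' V a 1 0 n (n + 1) le_rfl
  have z1 := sol_back' V a 1 0 n n (by omega)
  rw [Nat.sub_self, sol_zero, sol_eq] at e0 z0
  rw [show n + 1 - n = 1 by omega, sol_one, sol_eq] at e1 z1
  change 0 = eta (fwd V a) (n + 1) * _ + eta (fwd V a) n * _ at e0
  change 1 = eta (fwd V a) (n + 1) * _ + eta (fwd V a) n * _ at e1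
  change 1 = zeta (fwd V a) (n + 1) * _ + zeta (fwd V a) n * _ at z0
  change 0 = zeta (fwd V a) (n + 1) * _ + zeta (fwd V a) n * _ at z1
  set B := bwd V (a + n - 1)
  set A := fwd V a
  have k1 : eta B (n + 1) = eta A (n + 1) := by
    linear_combination (-eta B (n + 1)) * hw - eta A (n + 1) * z0 + zeta A (n + 1) * e0
  have k2 : zeta B (n + 1) = -eta A n := by
    linear_combination (-zeta B (n + 1)) * hw + eta A n * z0 - zeta A n * e0
  have k3 : eta B n = -zeta A (n + 1) := by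
    linear_combination (-eta B n) * hw - eta A (n + 1) * z1 + zeta A (n + 1) * e1
  have k4 : zeta B n = zeta A n := by
    linear_combination (-zeta B n) * hw + eta A n * z1 - zeta A n * e1
  simp only [Mx, nn, k1, k2, k3, k4, abs_neg]
  ac_rfl

/-! ## dynamics -/

@[simp] lemma xi_zero (k b p : ℝ) : xi k b p 0 = b := rfl
@[simp] lemma xi_one (k b p : ℝ) : xi k b p 1 = p := rfl
lemma xi_succ_succ (k b p : ℝ) (j : ℕ) :
    xi k b p (j + 2) = Fm k (xi k b p (j + 1)) - xi k b p j := rfl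
@[simp] lemma xiC_zero (k b : ℝ) (w : ℂ) : xiC k b w 0 = b := rfl
@[simp] lemma xiC_one (k b : ℝ) (w : ℂ) : xiC k b w 1 = w := rfl
lemma xiC_succ_succ (k b : ℝ) (w : ℂ) (j : ℕ) :
    xiC k b w (j + 2) = FC k (xiC k b w (j + 1)) - xiC k b w j := rfl

lemma tendsto_KK : Tendsto KK atTop atTop := by
  unfold KK
  exact tendsto_atTop_add_const_right _ _ (tendsto_id.const_mul_atTop (by positivity))

lemma abs_Wm_le {k : ℝ} (hk : 0 ≤ k) (x : ℝ) : |Wm k x| ≤ KK k - 1 := by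
  have h := Real.abs_cos_le_one (2 * π * x)
  have hp : 0 ≤ 2 * π * k := by positivity
  unfold Wm KK
  calc _ ≤ |(2 : ℝ)| + |2 * π * k * Real.cos (2 * π * x)| := abs_add_le _ _
    _ = 2 + 2 * π * k * |Real.cos (2 * π * x)| := by rw [abs_mul, abs_of_nonneg hp]; simp
    _ ≤ 2 + 2 * π * k * 1 := by gcongr
    _ = _ := by ring

lemma bd_pot {k : ℝ} (hk : 0 ≤ k) (b p : ℝ) : Bd (KK k) (pot k b p) := fun _ => abs_Wm_le hk _
lemma bdZ_VV {k : ℝ} (hk : 0 ≤ k) (ω : ℝ × ℝ) : BdZ (KK k) (VV k ω) := fun _ => abs_Wm_le hk _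

lemma hasDerivAt_Fm (k x : ℝ) : HasDerivAt (Fm k) (Wm k x) x := by
  have h1 : HasDerivAt (fun x : ℝ => 2 * π * x) (2 * π) x := by
    simpa using (hasDerivAt_id x).const_mul (2 * π)
  have h := ((hasDerivAt_id x).const_mul 2).add (h1.sin.const_mul k)
  exact h.congr_deriv (by unfold Wm; ring)

lemma hasDerivAt_Wm (k x : ℝ) :
    HasDerivAt (Wm k) (-(2 * π * (2 * π * k) * Real.sin (2 * π * x))) x := by
  have h1 : HasDerivAt (fun x : ℝ => 2 * π * x) (2 * π) x := by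
    simpa using (hasDerivAt_id x).const_mul (2 * π)
  have h := (h1.cos.const_mul (2 * π * k)).const_add 2
  exact h.congr_deriv (by ring)

lemma hasDerivAt_FC (k : ℝ) (x : ℂ) : HasDerivAt (FC k) (WC k x) x := by
  have h1 : HasDerivAt (fun x : ℂ => 2 * π * x) (2 * π) x := by
    simpa using (hasDerivAt_id x).const_mul (2 * (π : ℂ))
  have h := ((hasDerivAt_id x).const_mul 2).add (h1.csin.const_mul (k : ℂ))
  exact h.congr_deriv (by unfold WC; ring)

lemma Fm_lip {k : ℝ} (hk : 0 ≤ k) (x y : ℝ) : |Fm k x - Fm k y| ≤ (KK k - 1) * |x - y| := by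
  have := Convex.norm_image_sub_le_of_norm_hasDerivWithin_le (s := univ) (f := Fm k)
    (f' := Wm k) (C := KK k - 1) (fun z _ => (hasDerivAt_Fm k z).hasDerivWithinAt)
    (fun z _ => abs_Wm_le hk z) convex_univ (mem_univ y) (mem_univ x)
  simpa [Real.norm_eq_abs] using this

lemma Wm_lip {k : ℝ} (hk : 0 ≤ k) (x y : ℝ) :
    |Wm k x - Wm k y| ≤ 2 * π * (2 * π * k) * |x - y| := by
  have hp : 0 ≤ 2 * π * (2 * π * k) := by positivity
  have := Convex.norm_image_sub_le_of_norm_hasDerivWithin_le (s := univ) (f := Wm k)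
    (f' := fun x => -(2 * π * (2 * π * k) * Real.sin (2 * π * x))) (C := 2 * π * (2 * π * k))
    (fun z _ => (hasDerivAt_Wm k z).hasDerivWithinAt)
    (fun z _ => by
      rw [norm_neg, Real.norm_eq_abs, abs_mul, abs_of_nonneg hp]
      have := Real.abs_sin_le_one (2 * π * z)
      nlinarith) convex_univ (mem_univ y) (mem_univ x)
  simpa [Real.norm_eq_abs] using this

lemma Wm_lip' {k : ℝ} (hk : 0 ≤ k) (x y : ℝ) : |Wm k x - Wm k y| ≤ 6.5 * KK k * |x - y| := by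
  refine (Wm_lip hk x y).trans ?_
  have h1 := Real.pi_lt_d2
  have h2 : 0 ≤ 2 * π * k := by positivity
  gcongr
  · linarith
  · unfold KK; linarith

lemma hasFDerivAt_xi (k : ℝ) (j : ℕ) (ω : ℝ × ℝ) :
    HasFDerivAt (fun ω : ℝ × ℝ => xi k ω.1 ω.2 j)
      (zeta (pot k ω.1 ω.2) j • ContinuousLinearMap.fst ℝ ℝ ℝ +
        eta (pot k ω.1 ω.2) j • ContinuousLinearMap.snd ℝ ℝ ℝ) ω := by
  induction j using Nat.strong_induction_on with
  | _ j ih =>
    match j with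
    | 0 => simpa using hasFDerivAt_fst
    | 1 => simpa using hasFDerivAt_snd
    | (j + 2) =>
      have h1 := ih (j + 1) (by omega)
      have h0 := ih j (by omega)
      have h := ((hasDerivAt_Fm k (xi k ω.1 ω.2 (j + 1))).comp_hasFDerivAt ω h1).sub h0
      refine h.congr_fderiv ?_
      rw [eta_succ_succ, zeta_succ_succ]
      ext <;> simp [pot]

lemma hasDerivAt_xi (k b p : ℝ) (j : ℕ) :
    HasDerivAt (fun p => xi k b p j) (eta (pot k b p) j) p := by
  induction j using Nat.strong_induction_on with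
  | _ j ih =>
    match j with
    | 0 => simpa using hasDerivAt_const p b
    | 1 => simpa using hasDerivAt_id' p
    | (j + 2) =>
      exact ((hasDerivAt_Fm k (xi k b p (j + 1))).comp p (ih (j + 1) (by omega))).sub
        (ih j (by omega))

lemma hasDerivAt_xiC (k b : ℝ) (w : ℂ) (j : ℕ) :
    HasDerivAt (fun w => xiC k b w j) (eta (potC k b w) j) w := by
  induction j using Nat.strong_induction_on with
  | _ j ih =>
    match j with
    | 0 => simpa using hasDerivAt_const w (b : ℂ)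
    | 1 => simpa using hasDerivAt_id' w
    | (j + 2) =>
      exact ((hasDerivAt_FC k (xiC k b w (j + 1))).comp w (ih (j + 1) (by omega))).sub
        (ih j (by omega))

lemma contDiff_Fm (k : ℝ) {n : WithTop ℕ∞} : ContDiff ℝ n (Fm k) := by unfold Fm; fun_prop
lemma contDiff_Wm (k : ℝ) {n : WithTop ℕ∞} : ContDiff ℝ n (Wm k) := by unfold Wm; fun_prop
lemma continuous_Fm (k : ℝ) : Continuous (Fm k) := (contDiff_Fm k (n := 0)).continuous
lemma continuous_Wm (k : ℝ) : Continuous (Wm k) := (contDiff_Wm k (n := 0)).continuous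

lemma contDiff_xi (k : ℝ) (j : ℕ) {n : WithTop ℕ∞} :
    ContDiff ℝ n (fun ω : ℝ × ℝ => xi k ω.1 ω.2 j) := by
  induction j using Nat.strong_induction_on with
  | _ j ih =>
    match j with
    | 0 => exact contDiff_fst
    | 1 => exact contDiff_snd
    | (j + 2) => exact ((contDiff_Fm k).comp (ih (j + 1) (by omega))).sub (ih j (by omega))

lemma continuous_xi (k : ℝ) (j : ℕ) : Continuous (fun ω : ℝ × ℝ => xi k ω.1 ω.2 j) :=
  (contDiff_xi k j (n := 0)).continuous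

lemma continuous_pot (k : ℝ) : Continuous (fun ω : ℝ × ℝ => pot k ω.1 ω.2) :=
  continuous_pi fun j => (continuous_Wm k).comp (continuous_xi k j)

lemma continuous_VV (k : ℝ) : Continuous (VV k) := by
  refine continuous_pi fun j => (continuous_Wm k).comp ?_
  cases j with
  | ofNat n => exact continuous_xi k n
  | negSucc n => exact (continuous_xi k (n + 2)).comp continuous_swap

lemma measurable_VV (k : ℝ) : Measurable (VV k) := (continuous_VV k).measurable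

lemma differentiable_xiC (k b : ℝ) (j : ℕ) : Differentiable ℂ (fun w => xiC k b w j) :=
  fun w => (hasDerivAt_xiC k b w j).differentiableAt

lemma differentiable_potC (k b : ℝ) (j : ℕ) : Differentiable ℂ (fun w => potC k b w j) := by
  have := differentiable_xiC k b j
  unfold potC WC; fun_prop

lemma differentiable_solC (k b : ℝ) (x y : ℂ) (j : ℕ) :
    Differentiable ℂ (fun w => sol (potC k b w) x y j) := by
  induction j using Nat.strong_induction_on with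
  | _ j ih =>
    match j with
    | 0 => exact differentiable_const _
    | 1 => exact differentiable_const _
    | (j + 2) =>
      exact ((differentiable_potC k b (j + 1)).mul (ih (j + 1) (by omega))).sub (ih j (by omega))

lemma differentiable_etaC (k b : ℝ) (j : ℕ) : Differentiable ℂ (fun w => eta (potC k b w) j) :=
  differentiable_solC k b 0 1 j
lemma differentiable_zetaC (k b : ℝ) (j : ℕ) : Differentiable ℂ (fun w => zeta (potC k b w) j) :=
  differentiable_solC k b 1 0 j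

lemma FC_ofReal (k x : ℝ) : FC k x = (Fm k x : ℝ) := by unfold FC Fm; push_cast; rfl
lemma WC_ofReal (k x : ℝ) : WC k x = (Wm k x : ℝ) := by unfold WC Wm; push_cast; rfl

lemma xiC_ofReal (k b p : ℝ) (j : ℕ) : xiC k b p j = (xi k b p j : ℝ) := by
  induction j using Nat.strong_induction_on with
  | _ j ih =>
    match j with
    | 0 => rfl
    | 1 => rfl
    | (j + 2) =>
      rw [xiC_succ_succ, xi_succ_succ, ih (j + 1) (by omega), ih j (by omega), FC_ofReal]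
      push_cast; rfl

lemma potC_ofReal (k b p : ℝ) : potC k b p = fun j => ((pot k b p j : ℝ) : ℂ) := by
  funext j; rw [potC, xiC_ofReal, WC_ofReal]; rfl

lemma etaC_ofReal (k b p : ℝ) (j : ℕ) : eta (potC k b p) j = (eta (pot k b p) j : ℝ) := by
  rw [potC_ofReal]; simpa [eta] using sol_map Complex.ofRealHom (pot k b p) 0 1 j
lemma zetaC_ofReal (k b p : ℝ) (j : ℕ) : zeta (potC k b p) j = (zeta (pot k b p) j : ℝ) := by
  rw [potC_ofReal]; simpa [zeta] using sol_map Complex.ofRealHom (pot k b p) 1 0 j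
lemma rrC_ofReal (k b p : ℝ) (m : ℕ) : rr (potC k b p) m = (rr (pot k b p) m : ℝ) := by
  rw [rr, rr, etaC_ofReal, zetaC_ofReal]; push_cast; rfl

lemma Fm_add_int (k x : ℝ) (m : ℤ) : Fm k (x + m) = Fm k x + 2 * m := by
  unfold Fm
  rw [show 2 * π * (x + m) = 2 * π * x + m * (2 * π) by ring, Real.sin_add_int_mul_two_pi]; ring
lemma Wm_add_int (k x : ℝ) (m : ℤ) : Wm k (x + m) = Wm k x := by
  unfold Wm
  rw [show 2 * π * (x + m) = 2 * π * x + m * (2 * π) by ring, Real.cos_add_int_mul_two_pi]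

lemma xi_add_int (k b p : ℝ) (a c : ℤ) (j : ℕ) :
    xi k (b + a) (p + c) j = xi k b p j + ((a + j * (c - a) : ℤ) : ℝ) := by
  induction j using Nat.strong_induction_on with
  | _ j ih =>
    match j with
    | 0 => simp
    | 1 => simp
    | (j + 2) =>
      rw [xi_succ_succ, xi_succ_succ, ih (j + 1) (by omega), ih j (by omega), Fm_add_int]
      push_cast; ring

lemma pot_add_int (k b p : ℝ) (a c : ℤ) : pot k (b + a) (p + c) = pot k b p := by
  funext j; rw [pot, xi_add_int, Wm_add_int]; rfl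

lemma VV_add_int (k : ℝ) (ω : ℝ × ℝ) (a c : ℤ) : VV k (ω.1 + a, ω.2 + c) = VV k ω := by
  funext j
  cases j with
  | ofNat n => exact congrFun (pot_add_int k ω.1 ω.2 a c) n
  | negSucc n => exact congrFun (pot_add_int k ω.2 ω.1 c a) (n + 2)

lemma xi_shift (k b p : ℝ) (j : ℕ) : xi k p (Fm k p - b) j = xi k b p (j + 1) := by
  induction j using Nat.strong_induction_on with
  | _ j ih =>
    match j with
    | 0 => rfl
    | 1 => rfl
    | (j + 2) => rw [xi_succ_succ, ih (j + 1) (by omega), ih j (by omega)]; rfl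

lemma orb_nat (k : ℝ) (ω : ℝ × ℝ) (n : ℕ) : orb k ω n = xi k ω.1 ω.2 n := rfl
lemma orb_one_sub (k : ℝ) (ω : ℝ × ℝ) (n : ℕ) : orb k ω (1 - n) = xi k ω.2 ω.1 n := by
  match n with
  | 0 => rfl
  | 1 => rfl
  | (n + 2) =>
    have : (1 : ℤ) - ((n + 2 : ℕ) : ℤ) = Int.negSucc n := by rw [Int.negSucc_eq]; push_cast; ring
    rw [this]; rfl

lemma orb_sig (k : ℝ) (ω : ℝ × ℝ) (j : ℤ) : orb k (sig k ω) j = orb k ω (j + 1) := by
  rcases le_or_gt 0 j with h | h
  · lift j to ℕ using h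
    rw [show (j : ℤ) + 1 = ((j + 1 : ℕ) : ℤ) by push_cast; ring, orb_nat, orb_nat]
    exact xi_shift k ω.1 ω.2 j
  · obtain ⟨n, rfl⟩ : ∃ n : ℕ, j = 1 - ((n + 1 : ℕ) : ℤ) := ⟨(-j).toNat, by omega⟩
    rw [orb_one_sub, show (1 : ℤ) - ((n + 1 : ℕ) : ℤ) + 1 = 1 - (n : ℤ) by push_cast; ring,
      orb_one_sub, ← xi_shift]
    simp [sig]

lemma VV_sig (k : ℝ) (ω : ℝ × ℝ) : VV k (sig k ω) = sh (VV k ω) 1 := by
  funext j; simp only [VV, sh, orb_sig]

lemma VV_zero (k : ℝ) (ω : ℝ × ℝ) : VV k ω 0 = Wm k ω.1 := rfl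
lemma fwd_VV_one (k : ℝ) (ω : ℝ × ℝ) : fwd (VV k ω) 1 = pot k ω.1 ω.2 := by
  funext j; simp only [fwd, VV, pot]; rw [show (1 : ℤ) - 1 + j = j by ring, orb_nat]
lemma bwd_VV_zero (k : ℝ) (ω : ℝ × ℝ) : bwd (VV k ω) 0 = pot k ω.2 ω.1 := by
  funext j; simp only [bwd, VV, pot]; rw [show (0 : ℤ) + 1 - j = 1 - j by ring, orb_one_sub]
lemma bwd_VV_neg_one (k : ℝ) (ω : ℝ × ℝ) :
    bwd (VV k ω) (-1) = pot k ω.1 (Fm k ω.1 - ω.2) := by
  funext j; simp only [bwd, VV, pot]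
  rw [show (-1 : ℤ) + 1 - j = 1 - ((j + 1 : ℕ) : ℤ) by push_cast; ring, orb_one_sub, xi_shift]

/-! ## continuity and measurability of the events -/

lemma continuous_sol (j : ℕ) : Continuous (fun x : (ℕ → ℝ) × ℝ × ℝ => sol x.1 x.2.1 x.2.2 j) := by
  induction j using Nat.strong_induction_on with
  | _ j ih =>
    match j with
    | 0 => exact continuous_fst.comp continuous_snd
    | 1 => exact continuous_snd.comp continuous_snd
    | (j + 2) =>
      exact (((continuous_apply (j + 1)).comp continuous_fst).mul (ih (j + 1) (by omega))).sub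
        (ih j (by omega))

lemma continuous_sol' (a b : ℝ) (j : ℕ) : Continuous (fun U : ℕ → ℝ => sol U a b j) :=
  (continuous_sol j).comp (continuous_id.prodMk (continuous_const (y := (a, b))))
lemma continuous_eta (j : ℕ) : Continuous (fun U : ℕ → ℝ => eta U j) := continuous_sol' 0 1 j
lemma continuous_zeta (j : ℕ) : Continuous (fun U : ℕ → ℝ => zeta U j) := continuous_sol' 1 0 j
lemma continuous_ne (j : ℕ) : Continuous (fun U : ℕ → ℝ => ne U j) :=
  (continuous_eta j).abs.max (continuous_eta (j + 1)).abs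
lemma continuous_Mx (j : ℕ) : Continuous (fun U : ℕ → ℝ => Mx U j) :=
  (continuous_ne j).max ((continuous_zeta j).abs.max (continuous_zeta (j + 1)).abs)
lemma continuous_fwd (a : ℤ) : Continuous (fun V : ℤ → ℝ => fwd V a) :=
  continuous_pi fun _ => continuous_apply _
lemma continuous_bwd (a : ℤ) : Continuous (fun V : ℤ → ℝ => bwd V a) :=
  continuous_pi fun _ => continuous_apply _
lemma continuous_sh (a : ℤ) : Continuous (fun V : ℤ → ℝ => sh V a) :=
  continuous_pi fun _ => continuous_apply _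
lemma measurable_sh (a : ℤ) : Measurable (fun V : ℤ → ℝ => sh V a) := (continuous_sh a).measurable

lemma isClosed_Good (𝕂 θ : ℝ) (N : ℕ) : IsClosed {U | Good 𝕂 θ N U} := by
  have : {U | Good 𝕂 θ N U} = ⋂ i : ℕ, ⋂ _ : i ≤ N, {U | 𝕂 ^ ((1 - θ) * i) ≤ Mx U i} := by
    ext U; simp [Good]
  rw [this]
  exact isClosed_iInter fun i => isClosed_iInter fun _ =>
    isClosed_le continuous_const (continuous_Mx i)

lemma measurableSet_Good (𝕂 θ : ℝ) (N : ℕ) : MeasurableSet {U | Good 𝕂 θ N U} :=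
  (isClosed_Good 𝕂 θ N).measurableSet
lemma measurableSet_Good_fwd (𝕂 θ : ℝ) (N : ℕ) (a : ℤ) :
    MeasurableSet {V : ℤ → ℝ | Good 𝕂 θ N (fwd V a)} :=
  (continuous_fwd a).measurable (measurableSet_Good 𝕂 θ N)
lemma measurableSet_Good_bwd (𝕂 θ : ℝ) (N : ℕ) (a : ℤ) :
    MeasurableSet {V : ℤ → ℝ | Good 𝕂 θ N (bwd V a)} :=
  (continuous_bwd a).measurable (measurableSet_Good 𝕂 θ N)
lemma measurableSet_Small (𝕂 θ₁ : ℝ) (a : ℤ) :
    MeasurableSet {V : ℤ → ℝ | Small 𝕂 θ₁ (V a)} :=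
  (isOpen_lt (continuous_apply a).abs continuous_const).measurableSet
lemma measurableSet_D0 (𝕂 θ θ₁ : ℝ) (N : ℕ) : MeasurableSet {V | D0 𝕂 θ θ₁ N V} :=
  ((measurableSet_Good_bwd 𝕂 θ N (-1)).compl.inter (measurableSet_Good_fwd 𝕂 θ N 0).compl).union
    (measurableSet_Small 𝕂 θ₁ 0)
lemma measurableSet_D1 (𝕂 θ θ₁ : ℝ) (N : ℕ) : MeasurableSet {V | D1 𝕂 θ θ₁ N V} :=
  (measurableSet_Good_fwd 𝕂 θ N 1).compl.union (measurableSet_Small 𝕂 θ₁ 0)

lemma isOpen_Loc (𝕂 δ : ℝ) (S : ℕ) : IsOpen {x : (ℕ → ℝ) × ℝ | Loc 𝕂 δ S x.1 x.2} := by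
  have h : ∀ j, Continuous (fun x : (ℕ → ℝ) × ℝ => sol x.1 1 x.2 j) := fun j =>
    (continuous_sol j).comp (continuous_fst.prodMk (continuous_const.prodMk continuous_snd))
  exact isOpen_lt ((h S).abs.max (h (S + 1)).abs) continuous_const

lemma isOpen_Rev (𝕂 δ : ℝ) (S : ℕ) : IsOpen {V | Rev 𝕂 δ S V} := by
  have : {V | Rev 𝕂 δ S V} = ⋃ r : ℝ, ({V : ℤ → ℝ | Loc 𝕂 δ S (fwd V 1) r} ∩
      {V : ℤ → ℝ | Loc 𝕂 δ S (bwd V (-1)) (V 0 - r)}) := by
    ext V; simp [Rev]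
  rw [this]
  refine isOpen_iUnion fun r => IsOpen.inter ?_ ?_
  · exact (isOpen_Loc 𝕂 δ S).preimage ((continuous_fwd 1).prodMk continuous_const)
  · exact (isOpen_Loc 𝕂 δ S).preimage
      ((continuous_bwd (-1)).prodMk ((continuous_apply 0).sub continuous_const))

lemma measurableSet_Rev (𝕂 δ : ℝ) (S : ℕ) : MeasurableSet {V | Rev 𝕂 δ S V} :=
  (isOpen_Rev 𝕂 δ S).measurableSet

lemma measurableSet_Ev (𝕂 θ : ℝ) (N g m : ℕ) : MeasurableSet {U | Ev 𝕂 θ N g m U} := by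
  have h1 := fun j => (continuous_ne j).measurable
  have h2 := fun j => (continuous_eta j).measurable
  unfold Ev
  refine (MeasurableSet.const _).inter ((measurableSet_eq_fun (h2 m).abs (h1 _)).inter ?_)
  refine (measurableSet_setOfPred.2 (Measurable.exists fun w => ?_))
  refine measurable_const.and (measurable_const.and (measurable_const.and (Measurable.and ?_ ?_)))
  · exact Measurable.forall fun j => measurable_const.imp
      (measurableSet_setOfPred.1 (measurableSet_le measurable_const (h1 j)))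
  · exact measurableSet_setOfPred.1 (measurableSet_lt (h1 w) measurable_const)

lemma measurableSet_Ev' (𝕂 θ : ℝ) (N g : ℕ) : MeasurableSet {U | Ev' 𝕂 θ N g U} := by
  have h1 := fun j => (continuous_ne j).measurable
  unfold Ev'
  refine measurableSet_setOfPred.2 (Measurable.and ?_ (Measurable.exists fun w => ?_))
  · exact Measurable.forall fun j => measurable_const.imp
      (measurableSet_setOfPred.1 (measurableSet_le measurable_const (h1 j)))
  · exact measurable_const.and (measurable_const.and (measurable_const.and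
      (measurableSet_setOfPred.1 (measurableSet_le (h1 w) measurable_const))))

/-! ## the probability `Pr` -/

instance : IsProbabilityMeasure mu := ⟨by
  rw [mu, Measure.restrict_apply_univ, Measure.volume_eq_prod, Measure.prod_prod]; simp⟩

lemma mu_eq_prod : mu = (volume.restrict (Ico (0 : ℝ) 1)).prod (volume.restrict (Ico (0 : ℝ) 1)) := by
  rw [mu, Measure.volume_eq_prod, Measure.prod_restrict]

lemma mu_apply (s : Set (ℝ × ℝ)) : mu s = volume (s ∩ Ico (0 : ℝ) 1 ×ˢ Ico (0 : ℝ) 1) :=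
  Measure.restrict_apply' (measurableSet_Ico.prod measurableSet_Ico)

lemma Pr_nonneg (k : ℝ) (Q : (ℤ → ℝ) → Prop) : 0 ≤ Pr k Q := measureReal_nonneg
lemma Pr_le_one (k : ℝ) (Q : (ℤ → ℝ) → Prop) : Pr k Q ≤ 1 := measureReal_le_one
lemma Pr_mono (k : ℝ) {Q Q' : (ℤ → ℝ) → Prop} (h : ∀ ω, Q (VV k ω) → Q' (VV k ω)) :
    Pr k Q ≤ Pr k Q' := measureReal_mono (fun ω hω => h ω hω)
lemma Pr_or_le (k : ℝ) (Q Q' : (ℤ → ℝ) → Prop) :
    Pr k (fun V => Q V ∨ Q' V) ≤ Pr k Q + Pr k Q' := measureReal_union_le _ _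
lemma Pr_exists_le (k : ℝ) {ι : Type*} (s : Finset ι) (Q : ι → (ℤ → ℝ) → Prop) :
    Pr k (fun V => ∃ i ∈ s, Q i V) ≤ ∑ i ∈ s, Pr k (Q i) := by
  have : {ω | ∃ i ∈ s, Q i (VV k ω)} = ⋃ i ∈ s, {ω | Q i (VV k ω)} := by ext ω; simp
  unfold Pr; rw [this]; exact measureReal_biUnion_finset_le _ _

/-! ## "for large `𝕂`" -/

lemma ev_const_le_rpow (C a : ℝ) (ha : 0 < a) : ∀ᶠ 𝕂 : ℝ in atTop, C ≤ 𝕂 ^ a :=
  (tendsto_rpow_atTop ha).eventually_ge_atTop C

lemma ev_const_le_log (C : ℝ) : ∀ᶠ 𝕂 : ℝ in atTop, C ≤ Real.log 𝕂 :=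
  Real.tendsto_log_atTop.eventually_ge_atTop C

/-- transfer a statement for large `𝕂` to large `k`. -/
lemma ev_KK {P : ℝ → Prop} (h : ∀ᶠ 𝕂 : ℝ in atTop, P 𝕂) : ∀ᶠ k : ℝ in atTop, P (KK k) :=
  tendsto_KK.eventually h

end Crest.Agent.R128
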