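import Crest.Agent.R128.Defs

/-! Row 128, task CNT. -/

set_option autoImplicit false

namespace Crest.Agent.R128

theorem cnt_proof : CNT := by
  intro x n m hx hx1
  have h := Finset.sum_pow_mul_eq_add_pow (1 : ℝ) x (Finset.range n)
  rw [Finset.card_range] at h
  rw [le_div_iff₀ (pow_pos hx m), ← h, Finset.card_eq_sum_ones, Nat.cast_sum, Finset.sum_mul]
  refine le_trans (Finset.sum_le_sum fun T hT => ?_)
    (Finset.sum_le_sum_of_subset_of_nonneg (Finset.filter_subset _ _) fun _ _ _ => by positivity)
  obtain ⟨h1, h2⟩ := Finset.mem_filter.1 hT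
  rw [Finset.card_sdiff_of_subset (Finset.mem_powerset.1 h1), Finset.card_range] at h2
  rw [Nat.cast_one, one_pow]
  exact mul_le_mul_of_nonneg_left (pow_le_pow_of_le_one hx.le hx1 h2) zero_le_one

end Crest.Agent.R128
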