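import Crest.Agent.R128.Defs

/-! Row 128, task CST: complex stability. -/

set_option autoImplicit false

namespace Crest.Agent.R128

open MeasureTheory Set Filter
open scoped Real BigOperators Classical

noncomputable section

namespace CstAux

theorem eta_ss {R : Type*} [CommRing R] (U : ℕ → R) (j : ℕ) :
    eta U (j + 2) = U (j + 1) * eta U (j + 1) - eta U j := rfl

theorem hasDerivAt_FC (k : ℝ) (x : ℂ) : HasDerivAt (FC k) (WC k x) x := by
  have h1 : HasDerivAt (fun x : ℂ => 2 * (π : ℂ) * x) (2 * π) x := by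
    simpa using (hasDerivAt_id x).const_mul (2 * (π : ℂ))
  have h2 := ((hasDerivAt_id x).const_mul (2 : ℂ)).add (h1.csin.const_mul (k : ℂ))
  have e : WC k x = 2 * 1 + k * (Complex.cos (2 * π * x) * (2 * π)) := by unfold WC; ring
  rw [e]
  exact h2

theorem deriv_xiC (k b : ℝ) (w : ℂ) (j : ℕ) :
    HasDerivAt (fun w => xiC k b w j) (eta (potC k b w) j) w ∧
      HasDerivAt (fun w => xiC k b w (j + 1)) (eta (potC k b w) (j + 1)) w := by
  induction j with
  | zero => exact ⟨hasDerivAt_const w (b : ℂ), hasDerivAt_id w⟩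
  | succ j ih => exact ⟨ih.2, ((hasDerivAt_FC k _).comp w ih.2).sub ih.1⟩

theorem xiC_coe (k b p : ℝ) (j : ℕ) :
    xiC k b p j = (xi k b p j : ℝ) ∧ xiC k b p (j + 1) = (xi k b p (j + 1) : ℝ) := by
  induction j with
  | zero => exact ⟨rfl, rfl⟩
  | succ j ih =>
    refine ⟨ih.2, ?_⟩
    change FC k (xiC k b p (j + 1)) - xiC k b p j = ((Fm k (xi k b p (j + 1)) - xi k b p j : ℝ) : ℂ)
    rw [ih.1, ih.2, FC, Fm]; push_cast; ring

theorem WC_sub {k : ℝ} (hk : 0 ≤ k) (a : ℝ) (x : ℂ) (h : ‖x - a‖ ≤ 0.01) :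
    ‖WC k x - (Wm k a : ℝ)‖ ≤ 13 * KK k * ‖x - a‖ := by
  have hpi := Real.pi_lt_d2
  have hpi0 := Real.pi_pos
  set y : ℂ := 2 * π * (x - a) with hy
  have hny : ‖y‖ = 2 * π * ‖x - a‖ := by
    rw [hy, norm_mul, norm_mul, Complex.norm_real, Real.norm_of_nonneg hpi0.le]; simp
  have hy1 : ‖y‖ ≤ 1 := by rw [hny]; nlinarith [norm_nonneg (x - a)]
  have e1 := Complex.norm_exp_sub_one_le (x := y * Complex.I) (by simpa using hy1)
  have e2 := Complex.norm_exp_sub_one_le (x := -y * Complex.I) (by simpa using hy1)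
  have e3 : WC k x - (Wm k a : ℝ) = (π * k : ℝ) *
      (Complex.exp ((2 * π * a : ℝ) * Complex.I) * (Complex.exp (y * Complex.I) - 1) +
        Complex.exp ((-(2 * π * a) : ℝ) * Complex.I) * (Complex.exp (-y * Complex.I) - 1)) := by
    have : 2 * π * x = (2 * π * a : ℝ) + y := by rw [hy]; push_cast; ring
    rw [WC, Wm, this]
    push_cast
    simp only [Complex.cos, add_mul, neg_add, Complex.exp_add]
    ring
  rw [e3, norm_mul, Complex.norm_real, Real.norm_of_nonneg (by positivity)]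
  have e4 := norm_add_le
    (Complex.exp ((2 * π * a : ℝ) * Complex.I) * (Complex.exp (y * Complex.I) - 1))
    (Complex.exp ((-(2 * π * a) : ℝ) * Complex.I) * (Complex.exp (-y * Complex.I) - 1))
  rw [norm_mul, norm_mul, Complex.norm_exp_ofReal_mul_I, Complex.norm_exp_ofReal_mul_I] at e4
  simp only [norm_mul, norm_neg, Complex.norm_I, mul_one] at e1 e2
  refine (mul_le_mul_of_nonneg_left (e4.trans (show _ ≤ 4 * ‖y‖ by linarith))
    (by positivity)).trans ?_
  rw [hny, KK]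
  have h0 : 0 ≤ π * k * ‖x - a‖ := by positivity
  nlinarith [norm_nonneg (x - a)]

theorem pot_bd {k : ℝ} (hk : 0 ≤ k) (b p : ℝ) (j : ℕ) : |pot k b p j| ≤ KK k - 1 := by
  have h1 := Real.abs_cos_le_one (2 * π * xi k b p j)
  have h2 : 0 ≤ 2 * π * k := by positivity
  have h3 := abs_add_le 2 (2 * π * k * Real.cos (2 * π * xi k b p j))
  rw [abs_mul, abs_of_nonneg h2, abs_two] at h3
  rw [pot, Wm, KK]
  nlinarith

theorem ne_succ_le {𝕂 : ℝ} (h𝕂 : 1 ≤ 𝕂) {U : ℕ → ℝ} (hU : ∀ j, |U j| ≤ 𝕂 - 1) (j : ℕ) :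
    ne U (j + 1) ≤ 𝕂 * ne U j := by
  have h1 : |eta U j| ≤ ne U j := le_max_left _ _
  have h2 : |eta U (j + 1)| ≤ ne U j := le_max_right _ _
  have h0 : 0 ≤ ne U j := (abs_nonneg _).trans h1
  refine max_le (by nlinarith) ?_
  have h3 := abs_sub (U (j + 1) * eta U (j + 1)) (eta U j)
  rw [abs_mul] at h3
  rw [eta_ss]
  nlinarith [mul_le_mul (hU (j + 1)) h2 (abs_nonneg _) (by linarith)]

theorem ne_le_pow_mul {𝕂 : ℝ} (h𝕂 : 1 ≤ 𝕂) {U : ℕ → ℝ} (hU : ∀ j, |U j| ≤ 𝕂 - 1) (j d : ℕ) :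
    ne U (j + d) ≤ 𝕂 ^ d * ne U j := by
  induction d with
  | zero => simp
  | succ d ih =>
    rw [← add_assoc, pow_succ', mul_assoc]
    exact (ne_succ_le h𝕂 hU _).trans (mul_le_mul_of_nonneg_left ih (by linarith))

end CstAux

open CstAux in
theorem cst_proof : CST := by
  have ev : ∀ᶠ k : ℝ in atTop, 0 ≤ k ∧ 2 ≤ KK k ^ (0.98 : ℝ) := by
    refine (eventually_ge_atTop 0).and (Tendsto.eventually_ge_atTop ?_ 2)
    refine (tendsto_rpow_atTop (by norm_num)).comp ?_
    exact tendsto_atTop_add_const_right _ 3 (tendsto_id.const_mul_atTop (by positivity))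
  filter_upwards [ev] with k ⟨hk, h2⟩ b p₀ z hB i hi R hR0 hR
  have hU := pot_bd hk b p₀
  have h𝕂 : 3 ≤ KK k := by
    have : 0 ≤ 2 * π * k := by positivity
    rw [KK]; linarith
  set 𝕂 := KK k with h𝕂d
  set U := pot k b p₀ with hUd
  set N := ne U z with hN
  have h0 : 0 < 𝕂 := by linarith
  have h1 : 1 ≤ 𝕂 := by linarith
  have hne0 : ∀ j, 0 ≤ ne U j := fun j => (abs_nonneg _).trans (le_max_left _ _)
  have hN0 : 0 < N := by
    have e : ne U 0 = 1 := by simp [ne, nn, eta, sol]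
    rcases Nat.eq_zero_or_pos z with rfl | hz
    · rw [hN, e]; exact one_pos
    · have := hB 0 hz
      rw [e, mul_one] at this
      exact (Real.rpow_pos_of_pos h0 _).trans_le this
  have hi' : (i : ℝ) ≤ z := by exact_mod_cast hi
  set E : ℕ → ℝ := fun j => 100 * R * N ^ 2 * 𝕂 ^ (1 - 1.98 * ((z : ℝ) - j + 1)) with hE
  have hE0 : ∀ j, 0 ≤ E j := fun j => by positivity
  have hRad : 0 < Rad 𝕂 N z i := by unfold Rad; positivity
  have hρ : R / Rad 𝕂 N z i ≤ 1 := (div_le_one hRad).2 hR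
  have hEn : ∀ j ≤ i, E j ≤ R / Rad 𝕂 N z i * ne U j / 10 := by
    intro j hj
    have hj' : (j : ℝ) ≤ i := by exact_mod_cast hj
    have a1 := ne_le_pow_mul h1 hU j (z - j)
    rw [show j + (z - j) = z by omega, ← Real.rpow_natCast, Nat.cast_sub (by omega)] at a1
    have a2 : 𝕂 ^ (1 - 1.98 * ((z : ℝ) - j + 1)) * 𝕂 ^ ((z : ℝ) - j) *
        𝕂 ^ (0.98 * ((z : ℝ) - i + 1)) ≤ 1 := by
      rw [← Real.rpow_add h0, ← Real.rpow_add h0]
      exact Real.rpow_le_one_of_one_le_of_nonpos h1 (by linarith)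
    have a3 : 0 < 𝕂 ^ (0.98 * ((z : ℝ) - i + 1)) := by positivity
    have a4 : R / Rad 𝕂 N z i * ne U j / 10 =
        100 * R * N * ne U j / 𝕂 ^ (0.98 * ((z : ℝ) - i + 1)) := by
      unfold Rad; field_simp; ring
    rw [a4, le_div_iff₀ a3]
    calc E j * 𝕂 ^ (0.98 * ((z : ℝ) - i + 1)) = 100 * R * N * (N *
          (𝕂 ^ (1 - 1.98 * ((z : ℝ) - j + 1)) * 𝕂 ^ (0.98 * ((z : ℝ) - i + 1)))) := by
          rw [hE]; ring
      _ ≤ 100 * R * N * (𝕂 ^ ((z : ℝ) - j) * ne U j *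
          (𝕂 ^ (1 - 1.98 * ((z : ℝ) - j + 1)) * 𝕂 ^ (0.98 * ((z : ℝ) - i + 1)))) := by gcongr
      _ = 100 * R * N * ne U j * (𝕂 ^ (1 - 1.98 * ((z : ℝ) - j + 1)) * 𝕂 ^ ((z : ℝ) - j) *
          𝕂 ^ (0.98 * ((z : ℝ) - i + 1))) := by ring
      _ ≤ _ := mul_le_of_le_one_right (by have := hne0 j; positivity) a2
  have hEs : ∀ j, 2 * 𝕂 * E j ≤ E (j + 1) := by
    intro j
    have : E (j + 1) = 𝕂 ^ (0.98 : ℝ) * 𝕂 * E j := by
      simp only [hE]
      rw [show (1 - 1.98 * ((z : ℝ) - ((j + 1 : ℕ) : ℝ) + 1)) =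
        0.98 + 1 + (1 - 1.98 * ((z : ℝ) - j + 1)) by push_cast; ring, Real.rpow_add h0,
        Real.rpow_add h0, Real.rpow_one]
      ring
    rw [this]
    have := hE0 j
    gcongr
  have main : ∀ j ≤ i, ∀ w : ℂ, ‖w - p₀‖ ≤ R →
      ‖eta (potC k b w) j - (eta U j : ℝ)‖ ≤ E j ∧
      ‖eta (potC k b w) (j + 1) - (eta U (j + 1) : ℝ)‖ ≤ E j ∧
      (1 ≤ j → ‖potC k b w j‖ ≤ 2 * 𝕂) := by
    intro j
    induction j with
    | zero => exact fun _ w _ => ⟨by simpa [eta, sol] using hE0 0, by simpa [eta, sol] using hE0 0,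
        fun h => absurd h (by omega)⟩
    | succ j ih =>
      intro hj w hw
      have hj' : (j : ℝ) + 1 ≤ i := by exact_mod_cast hj
      have ih := ih (by omega)
      have hn := hne0 j
      have b1 : ∀ w : ℂ, ‖w - p₀‖ ≤ R → ‖eta (potC k b w) (j + 1)‖ ≤ 1.1 * ne U j := by
        intro w hw
        have c1 := (ih w hw).2.1.trans (hEn j (by omega))
        have c2 : |eta U (j + 1)| ≤ ne U j := le_max_right _ _
        have c3 := norm_le_norm_add_norm_sub' (eta (potC k b w) (j + 1)) (eta U (j + 1) : ℝ)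
        rw [Complex.norm_real, Real.norm_eq_abs] at c3
        nlinarith
      have b2 : ‖xiC k b w (j + 1) - (xi k b p₀ (j + 1) : ℝ)‖ ≤ 1.1 * ne U j * R := by
        have := (convex_closedBall (p₀ : ℂ) R).norm_image_sub_le_of_norm_hasDerivWithin_le
          (f := fun w => xiC k b w (j + 1)) (f' := fun w => eta (potC k b w) (j + 1))
          (fun w _ => (deriv_xiC k b w j).2.hasDerivWithinAt)
          (fun w hw => b1 w (mem_closedBall_iff_norm.1 hw)) (Metric.mem_closedBall_self hR0)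
          (mem_closedBall_iff_norm.2 hw)
        rw [(xiC_coe k b p₀ j).2] at this
        exact this.trans (mul_le_mul_of_nonneg_left hw (by positivity))
      set x := 𝕂 ^ (0.99 * ((z : ℝ) - j)) with hx
      have hx0 : 0 < x := by positivity
      have b3 : x * ne U j ≤ N := hB j (by omega)
      have b4 : ne U j * R ≤ 1 / 1000 := by
        have c1 : 𝕂 ^ (0.98 * ((z : ℝ) - i + 1)) ≤ x :=
          Real.rpow_le_rpow_of_exponent_le h1 (by linarith)
        have c2 : R * (1000 * N) ≤ x := by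
          rw [Rad, le_div_iff₀ (by positivity)] at hR; exact hR.trans c1
        have c3 : x * (ne U j * R * 1000) ≤ x * 1 := by
          nlinarith [mul_le_mul_of_nonneg_left b3 hR0]
        have := le_of_mul_le_mul_left c3 hx0
        linarith
      have b5 : ‖potC k b w (j + 1) - (U (j + 1) : ℝ)‖ ≤ 13 * 𝕂 * (1.1 * ne U j * R) :=
        (WC_sub hk _ _ (b2.trans (by linarith))).trans (mul_le_mul_of_nonneg_left b2 (by positivity))
      have b6 : 100 * 𝕂 * R * ne U j ^ 2 ≤ E (j + 1) := by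
        have c1 : 𝕂 ^ (1 - 1.98 * ((z : ℝ) - ((j + 1 : ℕ) : ℝ) + 1)) * x ^ 2 = 𝕂 := by
          rw [hx, sq, ← Real.rpow_add h0, ← Real.rpow_add h0]
          convert Real.rpow_one 𝕂 using 2
          push_cast; ring
        have c2 : (x * ne U j) ^ 2 ≤ N ^ 2 := by gcongr
        calc 100 * 𝕂 * R * ne U j ^ 2 = 100 * R * (x * ne U j) ^ 2 *
              𝕂 ^ (1 - 1.98 * ((z : ℝ) - ((j + 1 : ℕ) : ℝ) + 1)) := by
              conv_lhs => rw [← c1]
              ring
          _ ≤ _ := by simp only [hE]; gcongr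
      obtain ⟨i1, i2, -⟩ := ih w hw
      have s1 := hEs j
      have s0 := hE0 j
      refine ⟨i2.trans (by nlinarith), ?_, fun _ => ?_⟩
      · have e : eta (potC k b w) (j + 1 + 1) - (eta U (j + 1 + 1) : ℝ) =
            (potC k b w (j + 1) - (U (j + 1) : ℝ)) * eta (potC k b w) (j + 1) +
            (U (j + 1) : ℝ) * (eta (potC k b w) (j + 1) - (eta U (j + 1) : ℝ)) -
            (eta (potC k b w) j - (eta U j : ℝ)) := by
          rw [eta_ss, eta_ss]; push_cast; ring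
        rw [e]
        refine (norm_sub_le _ _).trans ((add_le_add_left (norm_add_le _ _) _).trans ?_)
        rw [norm_mul, norm_mul, Complex.norm_real, Real.norm_eq_abs]
        have c1 := mul_le_mul b5 (b1 w hw) (norm_nonneg _) (by positivity)
        have c2 := mul_le_mul (hU (j + 1)) i2 (norm_nonneg _) (by linarith)
        have c3 : 0 ≤ 𝕂 * R * ne U j ^ 2 := by positivity
        nlinarith
      · have c3 := norm_le_norm_add_norm_sub' (potC k b w (j + 1)) (U (j + 1) : ℝ)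
        rw [Complex.norm_real, Real.norm_eq_abs] at c3
        have := hU (j + 1)
        nlinarith [mul_le_mul_of_nonneg_left b4 h0.le]
  intro w hw j hj
  obtain ⟨m1, m2, m3⟩ := main j hj w hw
  exact ⟨m1.trans (hEn j hj), m2.trans (hEn j hj), m3⟩

end

end Crest.Agent.R128
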