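import Crest.Agent.R128.H6Aux

/-! Row 128, task DB. -/

set_option autoImplicit false

namespace Crest.Agent.R128

open MeasureTheory Set Filter
open scoped Real BigOperators Classical

namespace H6

theorem grow {U : ℕ → ℝ} {l : ℝ} (hl : 1 ≤ l) (j : ℕ) (h : ∀ i, 1 ≤ i → i ≤ j → l + 1 ≤ |U i|) :
    l ^ j ≤ |eta U (j + 1)| ∧ |eta U j| ≤ |eta U (j + 1)| := by
  induction j with
  | zero => simp [eta, sol]
  | succ j ih =>
    obtain ⟨h1, h2⟩ := ih fun i a b => h i a (by omega)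
    have h3 := mul_le_mul_of_nonneg_right (h (j + 1) (by omega) le_rfl) (abs_nonneg (eta U (j + 1)))
    have h4 := abs_sub_abs_le_abs_sub (U (j + 1) * eta U (j + 1)) (eta U j)
    rw [abs_mul] at h4
    have h5 : l * |eta U (j + 1)| ≤ |eta U (j + 1 + 1)| := by
      refine le_trans ?_ h4
      linarith
    exact ⟨by rw [pow_succ']; exact (mul_le_mul_of_nonneg_left h1 (by linarith)).trans h5,
      (le_mul_of_one_le_left (abs_nonneg _) hl).trans h5⟩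

theorem bad_cases {𝕂 θ θ₁ : ℝ} {N : ℕ} {U : ℕ → ℝ} (k1 : 1 < 𝕂) (hθ : θ ≤ 1) (k2 : 2 ≤ 𝕂 ^ (θ - θ₁))
    (hM : ∀ N : ℕ, Good 𝕂 θ N U → ∀ l : ℕ, l ≤ N → Mx U l = ne U l) (h : ¬ Good 𝕂 θ N U) :
    (∃ j ∈ Finset.Icc 1 400, Small 𝕂 θ₁ (U j)) ∨
      ∃ x ∈ Finset.Icc 20 N ×ˢ Finset.range 2, Ev 𝕂 θ N x.1 (x.1 ^ 2 + x.2) U := by
  have k0 : 0 < 𝕂 := by linarith
  have hex : ∃ i : ℕ, i ≤ N ∧ Mx U i < 𝕂 ^ ((1 - θ) * i) := by
    simpa [Good] using h
  obtain ⟨w1, w2⟩ := Nat.find_spec hex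
  have w3 : ∀ j < Nat.find hex, 𝕂 ^ ((1 - θ) * j) ≤ Mx U j := fun j hj =>
    not_lt.1 fun h' => Nat.find_min hex hj ⟨by omega, h'⟩
  generalize Nat.find hex = w at *
  have w4 : ne U w < 𝕂 ^ ((1 - θ) * w) := (le_max_left _ _).trans_lt w2
  by_cases hw : w ≤ 400
  · left
    by_contra hn
    simp only [not_exists, not_and, Small, not_lt] at hn
    have l1 : 1 ≤ 𝕂 ^ (1 - θ) := Real.one_le_rpow k1.le (by linarith)
    have l2 : 𝕂 ^ (1 - θ) + 1 ≤ 𝕂 ^ (1 - θ₁) := by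
      rw [show 1 - θ₁ = (1 - θ) + (θ - θ₁) by ring, Real.rpow_add k0]
      nlinarith
    have := (grow l1 w fun i a b => l2.trans (hn i (Finset.mem_Icc.2 ⟨a, by omega⟩))).1
    rw [← Real.rpow_natCast, ← Real.rpow_mul k0.le] at this
    exact absurd (this.trans (le_max_right _ _)) (not_le.2 w4)
  · right
    have g1 := Nat.sqrt_le' (w - 1)
    have g2 := Nat.lt_succ_sqrt' (w - 1)
    have g3 : 20 ≤ Nat.sqrt (w - 1) := Nat.le_sqrt'.2 (by omega)
    have g4 := Nat.sqrt_le_self (w - 1)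
    rw [Nat.succ_eq_add_one] at g2
    generalize Nat.sqrt (w - 1) = g at *
    have hne : ∀ j < w, 𝕂 ^ ((1 - θ) * j) ≤ ne U j := fun j hj => by
      rw [← hM (w - 1) (fun i hi => w3 i (by omega)) j (by omega)]
      exact w3 j hj
    have b1 : g ^ 2 < w := by omega
    have b2 : w ≤ (g + 1) ^ 2 := by omega
    rcases max_choice |eta U (g ^ 2)| |eta U (g ^ 2 + 1)| with e | e
    · exact ⟨(g, 0), by simp; omega, .inl rfl, e.symm, w, b1, b2, w1, hne, w4⟩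
    · exact ⟨(g, 1), by simp; omega, .inr rfl, e.symm, w, b1, b2, w1, hne, w4⟩

end H6

open H6 in
theorem db_proof (hI : INDEP) (hA : AVG) (hMG : MG) (hS : SHIFT) : DB := by
  intro θ₀ h0 h1
  filter_upwards [hI, hA θ₀ h0 h1, tendsto_KK.eventually hMG, eventually_ge_atTop 0,
    tendsto_KK.eventually (eventually_gt_atTop 1),
    tendsto_KK.eventually ((tendsto_rpow_atTop (half_pos h0)).eventually_ge_atTop 2)]
    with k hI hA hM hk k1 k2 N
  obtain ⟨θ, t1, t2, hA⟩ := hA N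
  refine ⟨θ, t1, t2, ?_⟩
  have k3 : 2 ≤ KK k ^ (θ - θ₀ ^ 2 / 32) :=
    k2.trans (Real.rpow_le_rpow_of_exponent_le k1.le (by nlinarith))
  have bc := fun b p => bad_cases (N := N) (U := pot k b p) k1 (by linarith) k3
    (hM θ (by linarith) (by linarith) _ (bd_pot hk b p))
  have hq : ∀ t : ℤ, mu.real {ω | Small (KK k) (θ₀ ^ 2 / 32) (VV k ω t)} =
      Pr k (fun V => Small (KK k) (θ₀ ^ 2 / 32) (V 0)) := fun t => by
    rw [← hS k _ (by unfold Small; measurability) t]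
    simp only [Pr, sh, zero_add]
  set T := Finset.Icc 20 N ×ˢ Finset.range 2 with hT
  have sub : {ω | ¬ Good (KK k) θ N (bwd (VV k ω) 0) ∧ ¬ Good (KK k) θ N (fwd (VV k ω) 1)} ⊆
      ((⋃ j ∈ Finset.Icc 1 400, {ω | Small (KK k) (θ₀ ^ 2 / 32) (VV k ω (0 + 1 - (j : ℕ)))}) ∪
      ⋃ j ∈ Finset.Icc 1 400, {ω | Small (KK k) (θ₀ ^ 2 / 32) (VV k ω (1 - 1 + (j : ℕ)))}) ∪
      ⋃ x ∈ T ×ˢ T, {ω | Ev (KK k) θ N x.1.1 (x.1.1 ^ 2 + x.1.2) (pot k ω.2 ω.1) ∧
        Ev (KK k) θ N x.2.1 (x.2.1 ^ 2 + x.2.2) (pot k ω.1 ω.2)} := by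
    rintro ω ⟨a1, a2⟩
    rw [bwd_VV] at a1
    rw [fwd_VV] at a2
    rcases bc _ _ a1 with ⟨j, hj, h⟩ | ⟨x, hx, h⟩
    · rw [← bwd_VV] at h
      exact .inl (.inl (mem_biUnion hj h))
    rcases bc _ _ a2 with ⟨j, hj, h'⟩ | ⟨y, hy, h'⟩
    · rw [← fwd_VV] at h'
      exact .inl (.inr (mem_biUnion hj h'))
    · exact .inr (mem_biUnion (x := (x, y)) (Finset.mk_mem_product hx hy) ⟨h, h'⟩)
  refine (measureReal_mono sub).trans ((measureReal_union_le _ _).trans (add_le_add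
    ((measureReal_union_le _ _).trans ((add_le_add (measureReal_biUnion_finset_le _ _)
      (measureReal_biUnion_finset_le _ _)).trans (le_of_eq ?_)))
    ((measureReal_biUnion_finset_le _ _).trans ?_)))
  · simp only [hq, Finset.sum_const, Nat.card_Icc, nsmul_eq_mul]
    norm_num
    ring
  · set a : ℕ → ℝ := fun g => mu.real {ω | Ev' (KK k) θ N g (pot k ω.1 ω.2)} with ha
    refine (Finset.sum_le_sum (g := fun x => 18 * (a x.1.1 * a x.2.1)) fun x hx => ?_).trans ?_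
    · obtain ⟨x1, x2⟩ := Finset.mem_product.1 hx
      rw [← mul_assoc]
      exact hI θ (by linarith) (by linarith) N _ _ _ _ (Finset.mem_Icc.1 (Finset.mem_product.1 x1).1).1
        (Finset.mem_Icc.1 (Finset.mem_product.1 x2).1).1
    · have e : ∑ x ∈ T, a x.1 = 2 * ∑ g ∈ Finset.Icc 20 N, a g := by
        rw [hT, Finset.sum_product, Finset.mul_sum]
        simp
      rw [← Finset.mul_sum, Finset.sum_product' (f := fun x y : ℕ × ℕ => a x.1 * a y.1),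
        ← Finset.sum_mul_sum, e]
      have := pow_le_pow_left₀ (Finset.sum_nonneg fun _ _ => measureReal_nonneg) hA 2
      nlinarith

end Crest.Agent.R128
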