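import Crest.Agent.R128.Defs

/-! # Row 128, sub-tasks DD4 and QQ (Cauchy estimates) -/

set_option autoImplicit false

namespace Crest.Agent.R128

open MeasureTheory Set Filter Metric
open scoped Real BigOperators Classical

namespace DD4Aux

lemma mem_ball_of {c R t : ℝ} (hR : 0 < R) (ht : |t - c| ≤ R / 2) : (t : ℂ) ∈ ball (c : ℂ) R := by
  rw [mem_ball, dist_eq_norm, ← Complex.ofReal_sub, Complex.norm_real, Real.norm_eq_abs]
  linarith

lemma half_le {c R t : ℝ} (ht : |t - c| ≤ R / 2) {z : ℂ} (hz : z ∈ sphere (c : ℂ) R) :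
    R / 2 ≤ ‖z - t‖ := by
  rw [mem_sphere, dist_eq_norm] at hz
  have h1 : ‖z - c‖ ≤ ‖z - t‖ + ‖(t : ℂ) - c‖ := norm_sub_le_norm_sub_add_norm_sub _ _ _
  have h2 : ‖(t : ℂ) - c‖ = |t - c| := by
    rw [← Complex.ofReal_sub, Complex.norm_real, Real.norm_eq_abs]
  linarith

lemma ne_of {c R t : ℝ} (hR : 0 < R) (ht : |t - c| ≤ R / 2) {z : ℂ} (hz : z ∈ sphere (c : ℂ) R) :
    z - t ≠ 0 := by
  have := half_le ht hz
  intro h
  rw [h, norm_zero] at this
  linarith

lemma two_pi_I_ne : (2 * π * Complex.I : ℂ) ≠ 0 := by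
  simp [Real.pi_ne_zero, Complex.I_ne_zero]

lemma cauchy {f : ℂ → ℂ} {c R t : ℝ} (hR : 0 < R) (hf : DifferentiableOn ℂ f (closedBall (c : ℂ) R))
    (ht : |t - c| ≤ R / 2) :
    (∮ z in C((c : ℂ), R), (z - t)⁻¹ * f z) = 2 * π * Complex.I * f t := by
  simpa using hf.circleIntegral_sub_inv_smul (mem_ball_of hR ht)

lemma cont_inv {c R t : ℝ} (hR : 0 < R) (ht : |t - c| ≤ R / 2) :
    ContinuousOn (fun z : ℂ => (z - t)⁻¹) (sphere (c : ℂ) R) :=
  ContinuousOn.inv₀ (by fun_prop) (fun _ hz => ne_of hR ht hz)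

lemma cauchy' {f : ℂ → ℂ} {c R t : ℝ} (hR : 0 < R) (hf : DifferentiableOn ℂ f (closedBall (c : ℂ) R))
    (ht : |t - c| ≤ R / 2) :
    (∮ z in C((c : ℂ), R), (z - t)⁻¹ * (z - t)⁻¹ * f z) = 2 * π * Complex.I * deriv f t := by
  have hn : closedBall (c : ℂ) R ∈ nhds (t : ℂ) :=
    mem_of_superset (isOpen_ball.mem_nhds (mem_ball_of hR ht)) ball_subset_closedBall
  have hg := (Complex.differentiableOn_dslope hn).mpr hf
  have h1 := cauchy hR hg ht
  rw [dslope_same] at h1
  have hfc : ContinuousOn f (sphere (c : ℂ) R) := hf.continuousOn.mono sphere_subset_closedBall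
  have hi := cont_inv hR ht
  have h0 : (∮ z in C((c : ℂ), R), f t * ((z - t)⁻¹ * (z - t)⁻¹)) = 0 := by
    rw [circleIntegral.integral_const_mul]
    have := circleIntegral.integral_sub_zpow_of_ne (n := -2) (by norm_num) (c : ℂ) (t : ℂ) R
    have e : (fun z : ℂ => (z - t)⁻¹ * (z - t)⁻¹) = fun z : ℂ => (z - t) ^ (-2 : ℤ) := by
      funext z
      rw [zpow_neg, ← mul_inv, ← sq]
      rfl
    rw [e, this, mul_zero]
  rw [← h1, ← sub_zero (∮ z in C((c : ℂ), R), (z - t)⁻¹ * (z - t)⁻¹ * f z), ← h0,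
    ← circleIntegral.integral_sub (((hi.fun_mul hi).fun_mul hfc).circleIntegrable hR.le)
      ((continuousOn_const.fun_mul (hi.fun_mul hi)).circleIntegrable hR.le)]
  refine circleIntegral.integral_congr hR.le fun z hz => ?_
  have hne := ne_of hR ht hz
  have hne' : z ≠ t := sub_ne_zero.mp hne
  simp only [dslope_of_ne _ hne', slope, vsub_eq_sub, smul_eq_mul]
  ring

end DD4Aux

open DD4Aux

theorem dd4_proof : DD4 := by
  intro f g c R B hR hf hB hg t ht htc
  have hfc : ContinuousOn f (sphere (c : ℂ) R) := hf.continuousOn.mono sphere_subset_closedBall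
  let v : Fin 5 → ℂ := fun i => t i
  have hv : Set.InjOn v (Finset.univ : Finset (Fin 5)) := fun i _ j _ h =>
    ht.injective (Complex.ofReal_injective h)
  have key : ∀ z ∈ sphere (c : ℂ) R,
      ∑ i, Lagrange.nodalWeight Finset.univ v i * ((z - v i)⁻¹ * f z) = (∏ i, (z - v i))⁻¹ * f z := by
    intro z hz
    have hne : ∀ i, z - v i ≠ 0 := fun i => ne_of hR (htc i) hz
    have h := Lagrange.eval_interpolate_not_at_node (s := Finset.univ) (v := v) (1 : Fin 5 → ℂ)
      (x := z) (fun i _ => sub_ne_zero.mp (hne i))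
    rw [Lagrange.interpolate_one hv Finset.univ_nonempty, Lagrange.eval_nodal] at h
    simp only [Polynomial.eval_one, Pi.one_apply, mul_one] at h
    have hp : ∏ i, (z - v i) ≠ 0 := Finset.prod_ne_zero_iff.mpr fun i _ => hne i
    have h2 : ∑ i, Lagrange.nodalWeight Finset.univ v i * (z - v i)⁻¹ = (∏ i, (z - v i))⁻¹ :=
      eq_inv_of_mul_eq_one_right h.symm
    rw [← h2, Finset.sum_mul]
    exact Finset.sum_congr rfl fun i _ => by ring
  have e1 : ((dd g t : ℝ) : ℂ) = (2 * π * Complex.I : ℂ)⁻¹ •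
      ∮ z in C((c : ℂ), R), (∏ i, (z - v i))⁻¹ * f z := by
    rw [← circleIntegral.integral_congr hR.le key, circleIntegral.integral_fun_sum (fun i _ =>
      (continuousOn_const.fun_mul ((cont_inv hR (htc i)).fun_mul hfc)).circleIntegrable hR.le)]
    simp only [circleIntegral.integral_const_mul, v, cauchy hR hf (htc _), smul_eq_mul,
      Finset.mul_sum, dd]
    push_cast
    refine Finset.sum_congr rfl fun i _ => ?_
    rw [hg _ (htc i), Lagrange.nodalWeight, Finset.prod_inv_distrib]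
    have := two_pi_I_ne
    field_simp
  have hB0 : 0 ≤ B := (norm_nonneg _).trans (hB c (mem_closedBall_self hR.le))
  have e2 := circleIntegral.norm_two_pi_i_inv_smul_integral_le_of_norm_le_const
    (f := fun z => (∏ i, (z - v i))⁻¹ * f z) (c := (c : ℂ)) (C := ((R / 2) ^ 5)⁻¹ * B) hR.le (by
      intro z hz
      rw [norm_mul, norm_inv, norm_prod]
      have h1 : (R / 2) ^ 5 ≤ ∏ i, ‖z - v i‖ := by
        calc (R / 2) ^ 5 = ∏ _i : Fin 5, (R / 2) := by
              rw [Finset.prod_const, Finset.card_univ, Fintype.card_fin]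
          _ ≤ _ := Finset.prod_le_prod (fun _ _ => by positivity) fun i _ => half_le (htc i) hz
      exact mul_le_mul (inv_anti₀ (by positivity) h1) (hB z (sphere_subset_closedBall hz))
        (norm_nonneg _) (by positivity))
  rw [← e1, Complex.norm_real, Real.norm_eq_abs] at e2
  refine e2.trans (le_of_eq ?_)
  field_simp
  ring

theorem qq_proof : QQ := by
  intro f c R B hR hf hB t h h0 h1 h2
  have hfc : ContinuousOn f (sphere (c : ℂ) R) := hf.continuousOn.mono sphere_subset_closedBall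
  have i0 := cont_inv hR h0
  have i1 := cont_inv hR h1
  have i2 := cont_inv hR h2
  have e1 : 4 * f ((t + h : ℝ) : ℂ) - f ((t + 2 * h : ℝ) : ℂ) - 3 * f t - 2 * h * deriv f t =
      (2 * π * Complex.I : ℂ)⁻¹ • ∮ z in C((c : ℂ), R),
        (-4 * h ^ 3 * ((z - t)⁻¹ * (z - t)⁻¹ * (z - (t + h : ℝ))⁻¹ * (z - (t + 2 * h : ℝ))⁻¹) * f z) := by
    have key : EqOn (fun z : ℂ => 4 * ((z - (t + h : ℝ))⁻¹ * f z) - (z - (t + 2 * h : ℝ))⁻¹ * f z -
        3 * ((z - t)⁻¹ * f z) - 2 * h * ((z - t)⁻¹ * (z - t)⁻¹ * f z))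
        (fun z : ℂ => -4 * h ^ 3 * ((z - t)⁻¹ * (z - t)⁻¹ * (z - (t + h : ℝ))⁻¹ *
          (z - (t + 2 * h : ℝ))⁻¹) * f z) (sphere (c : ℂ) R) := by
      intro z hz
      have n0 := ne_of hR h0 hz
      have n1 := ne_of hR h1 hz
      have n2 := ne_of hR h2 hz
      simp only
      have a1 : z - (t + h : ℝ) = (z - t) - h := by push_cast; ring
      have a2 : z - (t + 2 * h : ℝ) = (z - t) - 2 * h := by push_cast; ring
      rw [a1] at n1 ⊢
      rw [a2] at n2 ⊢
      generalize z - t = x at *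
      have n3 : x - h * 2 ≠ 0 := by rwa [mul_comm]
      field_simp
      ring
    have c1 := (continuousOn_const (c := (4 : ℂ))).fun_mul (i1.fun_mul hfc)
    have c2 := i2.fun_mul hfc
    have c3 := (continuousOn_const (c := (3 : ℂ))).fun_mul (i0.fun_mul hfc)
    have c4 := (continuousOn_const (c := (2 * h : ℂ))).fun_mul ((i0.fun_mul i0).fun_mul hfc)
    rw [← circleIntegral.integral_congr hR.le key,
      circleIntegral.integral_sub (((c1.fun_sub c2).fun_sub c3).circleIntegrable hR.le)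
        (c4.circleIntegrable hR.le),
      circleIntegral.integral_sub ((c1.fun_sub c2).circleIntegrable hR.le) (c3.circleIntegrable hR.le),
      circleIntegral.integral_sub (c1.circleIntegrable hR.le) (c2.circleIntegrable hR.le)]
    rw [circleIntegral.integral_const_mul, circleIntegral.integral_const_mul,
      circleIntegral.integral_const_mul, cauchy hR hf h0, cauchy hR hf h1, cauchy hR hf h2,
      cauchy' hR hf h0, smul_eq_mul]
    have := two_pi_I_ne
    field_simp
  have hB0 : 0 ≤ B := (norm_nonneg _).trans (hB c (mem_closedBall_self hR.le))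
  rw [e1]
  refine (circleIntegral.norm_two_pi_i_inv_smul_integral_le_of_norm_le_const
    (C := 4 * |h| ^ 3 * ((R / 2)⁻¹ * (R / 2)⁻¹ * (R / 2)⁻¹ * (R / 2)⁻¹) * B) hR.le ?_).trans
    (le_of_eq ?_)
  · intro z hz
    have b0 := inv_anti₀ (by positivity) (half_le h0 hz)
    have b1 := inv_anti₀ (by positivity) (half_le h1 hz)
    have b2 := inv_anti₀ (by positivity) (half_le h2 hz)
    have hz' := hB z (sphere_subset_closedBall hz)
    simp only [norm_mul, norm_inv, norm_neg, norm_pow, Complex.norm_real, Real.norm_eq_abs,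
      Complex.norm_ofNat]
    gcongr
  · field_simp
    ring

end Crest.Agent.R128
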