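import Crest.Agent.R128.SB

/-! Row 128, task DET. -/

set_option autoImplicit false

namespace Crest.Agent.R128

open Set Filter
open scoped BigOperators Classical
open SBAux

theorem det_proof (hSB1 : SB1) (hSBB : SBB) (hGROM : GROM) : DET := by
  intro θ₀ h0 h1
  have hc : 0 < θ₀ ^ 2 / 32 := by positivity
  have hc1 : θ₀ ^ 2 / 32 ≤ θ₀ / 8 := by nlinarith
  filter_upwards [hSB1, hSBB, hGROM θ₀ h0 h1, ev_const_le_log (Real.log 2 / (θ₀ ^ 2 / 32)),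
    eventually_gt_atTop (1 : ℝ), ev_const_le_rpow 2 (θ₀ - θ₀ ^ 2 / 32) (by linarith)]
    with 𝕂 hs1 hsb hgr hl hK h2 θ t0 t1 V hV N hG
  rw [div_le_iff₀ hc] at hl
  have hL : 0 < Real.log 𝕂 := Real.log_pos hK
  have hK0 : 0 < 𝕂 := by linarith
  have tθ0 : 0 ≤ θ := by linarith
  have tθ1 : θ ≤ 1 / 100 := by linarith
  have hG' := hG
  unfold Good at hG'
  push Not at hG'
  obtain ⟨i, hi, hlt⟩ := hG'
  have hi1 : 1 ≤ i := by
    rcases Nat.eq_zero_or_pos i with rfl | h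
    · simp at hlt
    · exact h
  have sbb : ∀ n : ℕ, n ≤ N → (∀ j : ℕ, j < n → ¬ Good 𝕂 θ N (fwd V ((j : ℤ) + 1))) →
      n * ((1 - 2 * (θ₀ ^ 2 / 32)) * Real.log 𝕂) - 2 * Real.log 𝕂 *
        cnt (fun j => D0 𝕂 θ (θ₀ ^ 2 / 32) N (sh V j)) n ≤ Real.log (Mx (fwd V 1) n) := by
    intro n hn hb
    have a1 := hsb θ (θ₀ ^ 2 / 32) tθ0 tθ1 hc.le (by linarith) V hV N n (by omega)
    have a2 : (cnt (fun j => ¬ Good 𝕂 θ N (bwd V (j - 1)) ∨ Small 𝕂 (θ₀ ^ 2 / 32) (V j)) n : ℝ) ≤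
        cnt (fun j => D0 𝕂 θ (θ₀ ^ 2 / 32) N (sh V j)) n := by
      refine cnt_mono fun j hj hP => ?_
      unfold D0
      rw [bwd_sh, fwd_sh, sh_apply_zero, zero_add, neg_add_eq_sub]
      rcases hP with hP | hP
      · exact Or.inl ⟨hP, hb j hj⟩
      · exact Or.inr hP
    have a3 := mul_le_mul_of_nonneg_left a2 hL.le
    have a4 : (n : ℝ) * Real.log 2 ≤ n * (Real.log 𝕂 * (θ₀ ^ 2 / 32)) :=
      mul_le_mul_of_nonneg_left hl (Nat.cast_nonneg n)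
    linarith
  by_cases hall : ∀ j : ℕ, j < i → ¬ Good 𝕂 θ N (fwd V ((j : ℤ) + 1))
  · left
    refine ⟨i, hi1, hi, ?_⟩
    have a1 := sbb i hi hall
    have h3 := Real.log_lt_log (Mx_pos _ _) hlt
    rw [Real.log_rpow hK0] at h3
    generalize (cnt (fun j => D0 𝕂 θ (θ₀ ^ 2 / 32) N (sh V j)) i : ℝ) = C at *
    generalize Real.log 𝕂 = L at *
    have hi0 : (0 : ℝ) ≤ i := Nat.cast_nonneg i
    have h6 : (i : ℝ) * L * (4 * (θ₀ ^ 2 / 32)) ≤ i * L * θ :=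
      mul_le_mul_of_nonneg_left (by linarith) (by positivity)
    have h7 : L * (θ₀ ^ 2 / 32 * i) ≤ L * C := by nlinarith
    exact le_of_mul_le_mul_left h7 hL
  · push Not at hall
    have hex : ∃ j : ℕ, j < i ∧ Good 𝕂 θ N (fwd V ((j : ℤ) + 1)) := hall
    obtain ⟨hLi, hLG⟩ := Nat.find_spec hex
    have hmin : ∀ j : ℕ, j < Nat.find hex → ¬ Good 𝕂 θ N (fwd V ((j : ℤ) + 1)) :=
      fun j hj hg => Nat.find_min hex hj ⟨by omega, hg⟩
    generalize Nat.find hex = L at *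
    have hL1 : 1 ≤ L := by
      rcases Nat.eq_zero_or_pos L with rfl | h
      · exact absurd (by simpa using hLG) hG
      · exact h
    by_cases hd : θ₀ ^ 2 / 32 * L ≤ cnt (fun j => D0 𝕂 θ (θ₀ ^ 2 / 32) N (sh V j)) L
    · exact Or.inl ⟨L, hL1, by omega, hd⟩
    right
    refine ⟨L, hL1, by omega, ?_, fun h8 => ?_⟩
    · by_contra hs
      unfold Small at hs
      push Not at hs
      apply hmin (L - 1) (by omega)
      have e : ((L - 1 : ℕ) : ℤ) + 1 = L := by omega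
      rw [e]
      intro n hn
      rcases n with _ | n
      · simp
      have b1 := hs1 θ tθ0 tθ1 V hV N n L (by omega) hLG
      have b2 := hLG n (by omega)
      have b3 : 𝕂 ^ (1 - θ) ≤ |V L| - 1 := by
        have c1 : 𝕂 ^ (1 - θ) ≤ 𝕂 ^ (1 - θ₀) :=
          Real.rpow_le_rpow_of_exponent_le hK.le (by linarith)
        have c2 : 1 ≤ 𝕂 ^ (1 - θ₀) := Real.one_le_rpow hK.le (by linarith)
        have c3 : 𝕂 ^ (1 - θ₀ ^ 2 / 32) = 𝕂 ^ (1 - θ₀) * 𝕂 ^ (θ₀ - θ₀ ^ 2 / 32) := by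
          rw [← Real.rpow_add hK0]; congr 1; ring
        have c4 : 𝕂 ^ (1 - θ₀) * 2 ≤ 𝕂 ^ (1 - θ₀) * 𝕂 ^ (θ₀ - θ₀ ^ 2 / 32) :=
          mul_le_mul_of_nonneg_left h2 (by linarith)
        linarith
      have b4 : 𝕂 ^ ((1 - θ) * ((n + 1 : ℕ) : ℝ)) = 𝕂 ^ (1 - θ) * 𝕂 ^ ((1 - θ) * n) := by
        rw [← Real.rpow_add hK0]; congr 1; push_cast; ring
      rw [b4]
      refine le_trans ?_ b1
      exact mul_le_mul b3 b2 (by positivity) (le_trans (by positivity) b3)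
    · refine hgr θ t0 t1 V hV N L i hLi hi h8 hLG hlt ?_
      have a1 := sbb L (by omega) hmin
      push Not at hd
      rw [← Real.log_le_log_iff (by positivity) (Mx_pos _ _), Real.log_rpow hK0]
      have := mul_le_mul_of_nonneg_left hd.le hL.le
      nlinarith

end Crest.Agent.R128
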