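import Crest.Agent.R128.Alt

/-! # Row 128: the degenerate case (task DG) -/

set_option autoImplicit false

namespace Crest.Agent.R128

open MeasureTheory Set Filter
open scoped Real BigOperators Classical Topology

theorem dg_frac {r₁ r₂ X Y : ℝ} (h1 : r₁ ≠ 0) (h2 : r₂ ≠ 0) (hX : X ≠ 0) (hY : Y ≠ 0) :
    1 / (r₁ ^ 2 * X) + 1 / (r₂ ^ 2 * Y) =
      -((r₁ ^ 2 * (X + Y) + (r₂ ^ 2 - r₁ ^ 2) * Y) / (r₁ ^ 2 * r₂ ^ 2 * (-(X * Y)))) := by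
  field_simp
  ring

theorem dg_sq {r₁ r₂ l : ℝ} (h1 : |r₁ - 1| ≤ 1 / 100) (h2 : |r₂ - 1| ≤ 1 / 100)
    (h : |r₂ - r₁| ≤ l / 16) : |r₂ ^ 2 - r₁ ^ 2| ≤ l / 7 ∧ 0.98 ≤ r₁ ^ 2 ∧ r₁ ^ 2 ≤ 1.03 ∧
      0.96 ≤ r₁ ^ 2 * r₂ ^ 2 ∧ r₁ ^ 2 * r₂ ^ 2 ≤ 1.07 := by
  have h0 := abs_nonneg (r₂ - r₁)
  rw [abs_le] at h1 h2
  have a1 : 0.98 ≤ r₁ ^ 2 := by nlinarith
  have a2 : r₁ ^ 2 ≤ 1.03 := by nlinarith
  have a3 : 0.98 ≤ r₂ ^ 2 := by nlinarith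
  have a4 : r₂ ^ 2 ≤ 1.03 := by nlinarith
  refine ⟨?_, a1, a2, by nlinarith, by nlinarith⟩
  rw [show r₂ ^ 2 - r₁ ^ 2 = (r₂ - r₁) * (r₂ + r₁) by ring, abs_mul,
    abs_of_pos (by linarith : 0 < r₂ + r₁)]
  nlinarith

theorem dg_odd {r₁ r₂ l X Y s : ℝ} (hs : s = 1 ∨ s = -1) (h1 : |r₁ - 1| ≤ 1 / 100)
    (h2 : |r₂ - 1| ≤ 1 / 100) (h : |r₂ - r₁| ≤ l / 16) (hl : 0 < l) (x1 : 0.013 ≤ -(s * X))
    (x2 : -(s * X) ≤ 0.017) (y1 : 0.013 ≤ s * Y) (y2 : s * Y ≤ 0.017) (hxy : l ≤ X + Y) :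
    1 / (r₁ ^ 2 * X) + 1 / (r₂ ^ 2 * Y) ≤ -300 * l := by
  obtain ⟨q1, q2, q3, q4, q5⟩ := dg_sq h1 h2 h
  have e : -(X * Y) = -(s * X) * (s * Y) := by rcases hs with rfl | rfl <;> ring
  have hY : |Y| ≤ 0.017 := by
    rcases hs with rfl | rfl <;> rw [abs_le] <;> constructor <;> linarith
  have hX0 : X ≠ 0 := by rintro rfl; norm_num at x1
  have hY0 : Y ≠ 0 := by rintro rfl; norm_num at y1
  have hr1 : r₁ ≠ 0 := by rintro rfl; norm_num at q2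
  have hr2 : r₂ ≠ 0 := by rintro rfl; norm_num at q4
  have p1 : 0 < -(X * Y) := by rw [e]; exact mul_pos (by linarith) (by linarith)
  have p2 : -(X * Y) ≤ 0.0003 := by rw [e]; nlinarith
  have p3 : |(r₂ ^ 2 - r₁ ^ 2) * Y| ≤ l / 7 * 0.017 := by
    rw [abs_mul]
    exact mul_le_mul q1 hY (abs_nonneg _) (by linarith)
  have p4 : 0.97 * l ≤ r₁ ^ 2 * (X + Y) + (r₂ ^ 2 - r₁ ^ 2) * Y := by
    have := (abs_le.1 p3).1
    nlinarith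
  have p5 : r₁ ^ 2 * r₂ ^ 2 * (-(X * Y)) ≤ 0.001 := by nlinarith
  rw [dg_frac hr1 hr2 hX0 hY0, neg_le, le_div_iff₀ (mul_pos (by linarith) p1)]
  nlinarith

theorem dg_even {r₁ r₂ l X Y s : ℝ} (hs : s = 1 ∨ s = -1) (h1 : |r₁ - 1| ≤ 1 / 100)
    (h2 : |r₂ - 1| ≤ 1 / 100) (h : |r₂ - r₁| ≤ l / 16) (hl : 0 < l) (x1 : 0.9 ≤ s * X)
    (y1 : 0.9 ≤ -(s * Y)) (y2 : -(s * Y) ≤ 1.1) (hxy : X + Y ≤ 7 * l) :
    -100 * l ≤ 1 / (r₁ ^ 2 * X) + 1 / (r₂ ^ 2 * Y) := by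
  obtain ⟨q1, q2, q3, q4, q5⟩ := dg_sq h1 h2 h
  have e : -(X * Y) = (s * X) * (-(s * Y)) := by rcases hs with rfl | rfl <;> ring
  have hY : |Y| ≤ 1.1 := by
    rcases hs with rfl | rfl <;> rw [abs_le] <;> constructor <;> linarith
  have hX0 : X ≠ 0 := by rintro rfl; norm_num at x1
  have hY0 : Y ≠ 0 := by rintro rfl; norm_num at y1
  have hr1 : r₁ ≠ 0 := by rintro rfl; norm_num at q2
  have hr2 : r₂ ≠ 0 := by rintro rfl; norm_num at q4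
  have p2 : 0.8 ≤ -(X * Y) := by rw [e]; nlinarith
  have p3 : |(r₂ ^ 2 - r₁ ^ 2) * Y| ≤ l / 7 * 1.1 := by
    rw [abs_mul]
    exact mul_le_mul q1 hY (abs_nonneg _) (by linarith)
  have p4 : r₁ ^ 2 * (X + Y) + (r₂ ^ 2 - r₁ ^ 2) * Y ≤ 8 * l := by
    have := (abs_le.1 p3).2
    nlinarith
  have p5 : 0.7 ≤ r₁ ^ 2 * r₂ ^ 2 * (-(X * Y)) := by nlinarith
  rw [dg_frac hr1 hr2 hX0 hY0, le_neg, div_le_iff₀ (by linarith)]
  nlinarith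

theorem dg_sin {y y' : ℝ} (hy : y ∈ Icc (-0.003 : ℝ) 0.003) (hy' : y' ∈ Icc (-0.003 : ℝ) 0.003) :
    |Real.sin (2 * π * y') - Real.sin (2 * π * y) - 6.25 * (y' - y)| ≤ 0.05 * |y' - y| := by
  refine al_slope (f := fun y => Real.sin (2 * π * y)) (f' := fun y => 2 * π * Real.cos (2 * π * y))
    (fun x => ?_) (fun x hx => ?_) hy hy'
  · exact (((hasDerivAt_id' x).const_mul (2 * π)).sin).congr_deriv (by ring)
  · have h1 : |x| ≤ 0.003 := abs_le.2 hx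
    have h2 := al_cos_ge (θ := x) (by linarith)
    have h3 := Real.cos_le_one (2 * π * x)
    have h4 := Real.pi_gt_d2
    have h5 := Real.pi_lt_d2
    rw [abs_le]
    constructor <;> nlinarith

theorem dg_cos4 (z : ℝ) : Real.cos (2 * π * (1 / 4 + z)) = -Real.sin (2 * π * z) := by
  rw [show 2 * π * (1 / 4 + z) = 2 * π * z + π / 2 by ring, Real.cos_add_pi_div_two]

theorem dg_core {f₁ g₁ f₂ g₂ e₁ e₂ H : ℝ → ℝ} {N₁ N₂ α ℓ κ γ : ℝ} {m : ℤ}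
    (hf₁ : ∀ p, HasDerivAt f₁ (g₁ p) p) (hf₂ : ∀ p, HasDerivAt f₂ (g₂ p) p) (hN₂ : 0 < N₂)
    (hN : N₂ ≤ N₁) (hl1 : 256 ≤ ℓ * N₂) (hl2 : ℓ * N₂ ≤ 512) (hκ0 : 0 < κ) (hκ : κ ≤ 1 / 10 ^ 10)
    (hγ : γ ≤ κ) (hg₂ : ∀ p ∈ Icc α (α + ℓ), |g₂ p - N₂| ≤ 1 / 10 ^ 12 * N₂)
    (he₁ : ∀ p ∈ Icc α (α + ℓ), 1.5 * κ ≤ e₁ p ∧ e₁ p ≤ 2.5 * κ)
    (he₂ : ∀ p ∈ Icc α (α + ℓ), 1.5 * κ ≤ e₂ p ∧ e₂ p ≤ 2.5 * κ)
    (hδ : ∀ p ∈ Icc α (α + ℓ), |f₂ p - f₁ p + 1 / 2 + m| ≤ 1 / 10 ^ 4)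
    (hq : ∀ t h, t ∈ Icc α (α + ℓ) → t + h ∈ Icc α (α + ℓ) → t + 2 * h ∈ Icc α (α + ℓ) →
      |h| = ℓ / 4 → |4 * (f₂ (t + h) - f₁ (t + h)) - (f₂ (t + 2 * h) - f₁ (t + 2 * h)) -
        3 * (f₂ t - f₁ t) - 2 * h * (g₂ t - g₁ t)| ≤ 8 * κ)
    (hH : ∀ p, H p = 1 / ((g₁ p / N₂) ^ 2 * (Real.cos (2 * π * f₁ p) + e₁ p)) +
      1 / ((g₂ p / N₂) ^ 2 * (Real.cos (2 * π * f₂ p) + e₂ p))) :
    AltSys H α ℓ N₁ γ := by
  have hN₁ : 0 < N₁ := by linarith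
  have hℓ : 0 < ℓ := by
    by_contra hc
    push Not at hc
    nlinarith
  set δ : ℝ → ℝ := fun p => f₂ p - f₁ p + 1 / 2 + m with hδdef
  have hdδ : ∀ p, HasDerivAt δ (g₂ p - g₁ p) p := fun p =>
    (((hf₂ p).sub (hf₁ p)).add_const (1 / 2)).add_const (m : ℝ)
  have hcδ : Continuous δ := continuous_iff_continuousAt.2 fun p => (hdδ p).continuousAt
  obtain ⟨t₀, ht₀, hmax⟩ := (isCompact_Icc (a := α) (b := α + ℓ)).exists_isMaxOn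
    ⟨α, le_rfl, by linarith⟩ (f := fun p => |δ p|) hcδ.abs.continuousOn
  set md := |δ t₀| with hmd
  have hmd0 : 0 ≤ md := abs_nonneg _
  have hmd1 : md ≤ 1 / 10 ^ 4 := hδ t₀ ht₀
  have hle : ∀ p ∈ Icc α (α + ℓ), |δ p| ≤ md := fun p hp => hmax hp
  set l := md + κ with hl
  have hl0 : 0 < l := by linarith
  have hD : ∀ t ∈ Icc α (α + ℓ), |g₂ t - g₁ t| * ℓ ≤ 16 * l := by
    intro t ht
    have key : ∀ h, t + h ∈ Icc α (α + ℓ) → t + 2 * h ∈ Icc α (α + ℓ) → |h| = ℓ / 4 →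
        |g₂ t - g₁ t| * ℓ ≤ 16 * l := by
      intro h h1 h2 h3
      have a0 := abs_le.1 (hq t h ht h1 h2 h3)
      have a1 := abs_le.1 (hle _ ht)
      have a2 := abs_le.1 (hle _ h1)
      have a3 := abs_le.1 (hle _ h2)
      simp only [hδdef] at a1 a2 a3
      have a4 : |2 * h * (g₂ t - g₁ t)| ≤ 8 * l :=
        abs_le.2 ⟨by linarith [a0.2, a1.2, a2.1, a3.2], by linarith [a0.1, a1.1, a2.2, a3.1]⟩
      rw [abs_mul, abs_mul, h3, abs_two] at a4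
      linarith
    rcases le_total t (α + ℓ / 2) with h | h
    · exact key (ℓ / 4) ⟨by linarith [ht.1], by linarith⟩ ⟨by linarith [ht.1], by linarith⟩
        (abs_of_pos (by linarith))
    · exact key (-(ℓ / 4)) ⟨by linarith, by linarith [ht.2]⟩ ⟨by linarith, by linarith [ht.2]⟩
        (by rw [abs_neg, abs_of_pos (by linarith)])
  have hD' : ∀ t ∈ Icc α (α + ℓ), |g₂ t - g₁ t| ≤ l / 16 * N₂ := by
    intro t ht
    have h1 := hD t ht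
    have h2 := abs_nonneg (g₂ t - g₁ t)
    nlinarith
  have hg₁ : ∀ p ∈ Icc α (α + ℓ), |g₁ p - N₂| ≤ 1 / 1000 * N₂ := by
    intro p hp
    have h1 := abs_le.1 (hD' p hp)
    have h2 := abs_le.1 (hg₂ p hp)
    have h3 : l / 16 * N₂ ≤ 1 / 10000 * N₂ := mul_le_mul_of_nonneg_right (by linarith) hN₂.le
    exact abs_le.2 ⟨by linarith [h1.2, h2.1], by linarith [h1.1, h2.2]⟩
  obtain ⟨β, hβ1, hβ2, hβ3⟩ : ∃ β, α ≤ β ∧ β + ℓ / 64 ≤ α + ℓ ∧ t₀ ∈ Icc β (β + ℓ / 64) := by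
    rcases le_total t₀ (α + ℓ / 2) with h | h
    · exact ⟨t₀, ht₀.1, by linarith, le_rfl, by linarith⟩
    · exact ⟨t₀ - ℓ / 64, by linarith, by linarith [ht₀.2], by linarith, by linarith⟩
  have hsub : ∀ p ∈ Icc β (β + ℓ / 64), p ∈ Icc α (α + ℓ) := fun p hp =>
    ⟨hβ1.trans hp.1, hp.2.trans hβ2⟩
  have hδ' : ∀ p ∈ Icc β (β + ℓ / 64), |δ p - δ t₀| ≤ l / 4 := by
    intro p hp
    have h1 := al_slope hdδ (c := 0) (e := 16 * l / ℓ)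
      (fun x hx => by rw [sub_zero, le_div_iff₀ hℓ]; exact hD x hx) ht₀ (hsub p hp)
    rw [zero_mul, sub_zero] at h1
    have h2 : |p - t₀| ≤ ℓ / 64 := abs_le.2 ⟨by linarith [hp.1, hβ3.2], by linarith [hp.2, hβ3.1]⟩
    refine h1.trans ?_
    calc 16 * l / ℓ * |p - t₀| ≤ 16 * l / ℓ * (ℓ / 64) := by gcongr
      _ = l / 4 := by field_simp; ring
  obtain ⟨ι, hι, hs⟩ : ∃ ι : ℕ, ι ≤ 1 ∧ (-1) ^ ι * δ t₀ = md := by
    rcases le_total 0 (δ t₀) with h | h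
    · exact ⟨0, by norm_num, by rw [hmd, abs_of_nonneg h]; ring⟩
    · exact ⟨1, le_rfl, by rw [hmd, abs_of_nonpos h]; ring⟩
  have hι' : (0 : ℝ) ≤ ι ∧ (ι : ℝ) ≤ 1 := ⟨Nat.cast_nonneg _, by exact_mod_cast hι⟩
  have s₁ : ∀ x ∈ Icc α (α + ℓ), ∀ y ∈ Icc α (α + ℓ),
      |f₁ y - f₁ x - N₂ * (y - x)| ≤ 1 / 1000 * |N₂ * (y - x)| := fun x hx y hy => by
    have := al_slope hf₁ hg₁ hx hy
    rw [abs_mul, abs_of_pos hN₂]
    linarith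
  have s₁' : ∀ x ∈ Icc α (α + ℓ), ∀ y ∈ Icc α (α + ℓ), x ≤ y →
      0.999 * (N₂ * (y - x)) ≤ f₁ y - f₁ x ∧ f₁ y - f₁ x ≤ 1.001 * (N₂ * (y - x)) := by
    intro x hx y hy hxy
    have h1 := s₁ x hx y hy
    rw [abs_of_nonneg (mul_nonneg hN₂.le (sub_nonneg.2 hxy)), abs_le] at h1
    constructor <;> linarith [h1.1, h1.2]
  set n₀ : ℤ := ⌈f₁ β + 0.1⌉ with hn₀
  have n1 : f₁ β + 0.1 ≤ n₀ := Int.le_ceil _
  have n2 : (n₀ : ℝ) < f₁ β + 1.1 := (Int.ceil_lt_add_one _).trans_le (by linarith)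
  let τ : Fin 5 → ℝ := ![0, 0.2524, 0.5, 1.2524, 1.5]
  have hτ : ∀ i, 0 ≤ τ i ∧ τ i ≤ 1.5 := by
    intro i; fin_cases i <;> simp [τ] <;> norm_num
  have hτ' : ∀ i j, i < j → τ i + 0.24 ≤ τ j := by
    intro i j hij; fin_cases i <;> fin_cases j <;> simp [τ] at hij ⊢ <;> norm_num
  have hβ : β ∈ Icc β (β + ℓ / 64) := ⟨le_rfl, by linarith⟩
  have hβ' : β + ℓ / 64 ∈ Icc β (β + ℓ / 64) := ⟨by linarith, le_rfl⟩
  have hP : ∀ i : Fin 5, ∃ p ∈ Icc β (β + ℓ / 64), f₁ p = n₀ + ι / 2 + τ i := by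
    intro i
    have h1 := (s₁' β (hsub _ hβ) _ (hsub _ hβ') hβ'.1).1
    refine al_ivt hf₁ hβ'.1 (by linarith [(hτ i).1, hι'.1]) ?_
    have : N₂ * (β + ℓ / 64 - β) = ℓ * N₂ / 64 := by ring
    linarith [(hτ i).2, hι'.2]
  choose P hPJ hPf using hP
  have hpos : ∀ i, 0.09 ≤ N₂ * (P i - β) ∧ N₂ * (P i - β) ≤ 3.2 := by
    intro i
    have h1 := s₁' β (hsub _ hβ) _ (hsub _ (hPJ i)) (hPJ i).1
    rw [hPf] at h1
    constructor <;> linarith [(hτ i).1, (hτ i).2, h1.1, h1.2, hι'.1, hι'.2]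
  have hgap : ∀ i j, i < j → 0.2 ≤ N₂ * (P j - P i) := by
    intro i j hij
    have h0 := hτ' i j hij
    rcases le_total (P i) (P j) with h | h
    · have h1 := (s₁' _ (hsub _ (hPJ i)) _ (hsub _ (hPJ j)) h).2
      rw [hPf, hPf] at h1
      linarith
    · have h1 := (s₁' _ (hsub _ (hPJ j)) _ (hsub _ (hPJ i)) h).1
      rw [hPf, hPf] at h1
      have := mul_nonneg hN₂.le (sub_nonneg.2 h)
      linarith
  have hin : ∀ i p, |N₂ * (p - P i)| ≤ 0.01 → p ∈ Ico β (β + ℓ / 64) := by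
    intro i p hp
    rw [abs_le] at hp
    have h1 := hpos i
    constructor
    · have : 0 ≤ N₂ * (p - β) := by linarith [h1.1, hp.1]
      have := nonneg_of_mul_nonneg_right this hN₂
      linarith
    · have : 0 < N₂ * (β + ℓ / 64 - p) := by nlinarith [h1.2, hp.2]
      have := (pos_iff_pos_of_mul_pos this).1 hN₂
      linarith
  have hc0 : c0 = 1 / 10 ^ 13 := rfl
  have hcN : N₂ * (c0 / N₁) ≤ 1 / 10 ^ 13 := by
    rw [hc0, mul_div_assoc', div_le_iff₀ hN₁]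
    linarith
  have hw : N₂ * (1 / 10 ^ 4 / N₂) = 1 / 10 ^ 4 := by field_simp
  refine al_intervals (q := -200 * l) (w := 1 / 10 ^ 4 / N₂) P ?_ ?_ ?_ ?_
  · rw [le_div_iff₀ hN₂, hc0]
    nlinarith
  · intro i
    refine ⟨(hsub _ (hPJ i)).1, (hin i _ (abs_le.2 ⟨?_, ?_⟩)).2.trans_le hβ2⟩ <;> nlinarith
  · intro i j hij
    have h1 := hgap i j hij
    have h2 : 2 * c0 / N₁ = 2 * (c0 / N₁) := by ring
    have : N₂ * (P i + 1 / 10 ^ 4 / N₂ + 2 * c0 / N₁) ≤ N₂ * P j := by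
      rw [h2]
      nlinarith
    exact le_of_mul_le_mul_left this hN₂
  intro i p h1 h2
  have t3 : |N₂ * (p - P i)| ≤ 1.1 / 10 ^ 4 := abs_le.2 ⟨by nlinarith, by nlinarith⟩
  have hJ' := Ico_subset_Icc_self (hin i p (by linarith))
  have hJ := hsub p hJ'
  obtain ⟨x, hx, hx'⟩ : ∃ x, f₁ p = n₀ + ι / 2 + τ i + x ∧ |x| ≤ 1.2 / 10 ^ 4 := by
    refine ⟨f₁ p - f₁ (P i), by rw [hPf]; ring, ?_⟩
    have h3 := abs_le.1 ((s₁ _ (hsub _ (hPJ i)) p hJ).trans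
      (mul_le_mul_of_nonneg_left t3 (by norm_num)))
    rw [abs_le] at t3 ⊢
    constructor <;> linarith [h3.1, h3.2, t3.1, t3.2]
  have hf2 : f₂ p = f₁ p + δ p - 1 / 2 - m := by simp only [hδdef]; ring
  have hr₁ : |g₁ p / N₂ - 1| ≤ 1 / 100 := by
    rw [div_sub_one hN₂.ne', abs_div, abs_of_pos hN₂, div_le_iff₀ hN₂]
    linarith [hg₁ p hJ]
  have hr₂ : |g₂ p / N₂ - 1| ≤ 1 / 100 := by
    rw [div_sub_one hN₂.ne', abs_div, abs_of_pos hN₂, div_le_iff₀ hN₂]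
    linarith [hg₂ p hJ]
  have hr : |g₂ p / N₂ - g₁ p / N₂| ≤ l / 16 := by
    rw [← sub_div, abs_div, abs_of_pos hN₂, div_le_iff₀ hN₂]
    exact hD' p hJ
  have hd1 := hle p hJ
  have hd2 := abs_le.1 (hδ' p hJ')
  have hd3 := abs_le.1 hd1
  have hx2 := abs_le.1 hx'
  obtain ⟨a1, a2⟩ := he₁ p hJ
  obtain ⟨b1, b2⟩ := he₂ p hJ
  have heven : ∀ j : ℕ, τ i = j / 2 → -100 * l ≤ H p := by
    intro j hj
    have c1 : Real.cos (2 * π * f₁ p) = (-1) ^ (ι + j) * Real.cos (2 * π * x) := by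
      rw [← al_cos n₀, hx, hj]; congr 2; push_cast; ring
    have c2 : Real.cos (2 * π * f₂ p) = -((-1) ^ (ι + j) * Real.cos (2 * π * (x + δ p))) := by
      rw [← neg_mul, ← mul_neg_one, ← pow_succ, ← al_cos (n₀ - m - 1), hf2, hx, hj]
      congr 2; push_cast; ring
    have d1 := al_cos_ge (θ := x) (by linarith)
    have d2' : |x + δ p| ≤ 2.2 / 10 ^ 4 := (abs_add_le _ _).trans (by linarith)
    have d2 := al_cos_ge (θ := x + δ p) (by linarith)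
    have d3 := Real.cos_le_one (2 * π * (x + δ p))
    have d4 := Real.abs_cos_sub_cos_le (2 * π * x) (2 * π * (x + δ p))
    rw [show 2 * π * x - 2 * π * (x + δ p) = -(2 * π * δ p) by ring, abs_neg, abs_mul,
      abs_of_pos (by positivity : 0 < 2 * π)] at d4
    have d5 : 2 * π * |δ p| ≤ 7 * md := by nlinarith [Real.pi_lt_d2, abs_nonneg (δ p)]
    have d6 := abs_le.1 (d4.trans d5)
    rw [hH, c1, c2]
    have hs' := neg_one_pow_eq_or ℝ (ι + j)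
    refine dg_even hs' hr₁ hr₂ hr hl0 ?_ ?_ ?_ ?_ <;> rcases hs' with e | e <;> rw [e] <;>
      linarith [d6.1, d6.2]
  have hodd : ∀ j : ℤ, τ i = j + 0.2524 → H p ≤ -300 * l := by
    intro j hj
    have c1 : Real.cos (2 * π * f₁ p) = -((-1) ^ ι * Real.sin (2 * π * (0.0024 + x))) := by
      rw [← mul_neg, ← dg_cos4, ← al_cos (n₀ + j), hx, hj]; congr 2; push_cast; ring
    have c2 : Real.cos (2 * π * f₂ p) = (-1) ^ ι * Real.sin (2 * π * (0.0024 + x + δ p)) := by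
      have : (-1 : ℝ) ^ ι * Real.sin (2 * π * (0.0024 + x + δ p)) =
          (-1) ^ (ι + 1) * -Real.sin (2 * π * (0.0024 + x + δ p)) := by ring
      rw [this, ← dg_cos4, ← al_cos (n₀ + j - m - 1), hf2, hx, hj]; congr 2; push_cast; ring
    have z0 : (0 : ℝ) ∈ Icc (-0.003 : ℝ) 0.003 := ⟨by norm_num, by norm_num⟩
    have z1 : 0.0024 + x ∈ Icc (-0.003 : ℝ) 0.003 := ⟨by linarith [hx2.1], by linarith [hx2.2]⟩
    have z2 : 0.0024 + x + δ p ∈ Icc (-0.003 : ℝ) 0.003 :=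
      ⟨by linarith [hx2.1, hd3.1], by linarith [hx2.2, hd3.2]⟩
    have d1 := dg_sin z0 z1
    have d2 := dg_sin z0 z2
    have d3 := dg_sin z1 z2
    rw [mul_zero, Real.sin_zero, sub_zero, sub_zero,
      abs_of_pos (a := 0.0024 + x) (by linarith [hx2.1]), abs_le] at d1
    rw [mul_zero, Real.sin_zero, sub_zero, sub_zero,
      abs_of_pos (a := 0.0024 + x + δ p) (by linarith [hx2.1, hd3.1]), abs_le] at d2
    rw [add_sub_cancel_left] at d3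
    have d4 := abs_le.1 (d3.trans (mul_le_mul_of_nonneg_left hd1 (by norm_num)))
    rw [hH, c1, c2]
    have hs' := neg_one_pow_eq_or ℝ ι
    refine dg_odd hs' hr₁ hr₂ hr hl0 ?_ ?_ ?_ ?_ ?_ <;> rcases hs' with e | e <;> rw [e] at hs ⊢ <;>
      linarith [d1.1, d1.2, d2.1, d2.2, d4.1, d4.2, hx2.1, hx2.2, hd3.1, hd3.2, hd2.1, hd2.2]
  have hγ' : γ ≤ 100 * l := by linarith
  fin_cases i
  · have := heven 0 (by simp [τ])
    norm_num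
    linarith
  · have := hodd 0 (by simp [τ])
    norm_num
    linarith
  · have := heven 1 (by simp [τ]; norm_num)
    norm_num
    linarith
  · have := hodd 1 (by simp [τ]; norm_num)
    norm_num
    linarith
  · have := heven 3 (by simp [τ]; norm_num)
    norm_num
    linarith

theorem dg_proof : DG := by
  filter_upwards [al_ev] with k hk
  obtain ⟨hη, -, hr', hK, hq⟩ := hk
  intro a₁ A₁ u₁ I₁ a₂ A₂ u₂ I₂ p₀ N₁ N₂ α ℓ S₁ S₂ hN hl1 hl2 hα1 hα2 hA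
  obtain ⟨hN', σ₁, σ₂, m, hσ₁, hσ₂, hb₁, hb₂, hm⟩ := hA
  have hN₁ := S₁.pos
  have hN₂ := S₂.pos
  have hℓ : 0 < ℓ := by
    by_contra hc
    push Not at hc
    nlinarith
  have hrange : ∀ p ∈ Icc α (α + ℓ), |p - p₀| ≤ KK k ^ (0.7 : ℝ) / N₁ ∧
      |p - p₀| ≤ KK k ^ (0.7 : ℝ) / N₂ := by
    intro p hp
    have h1 : |p - p₀| ≤ ℓ := abs_le.2 ⟨by linarith [hp.1], by linarith [hp.2]⟩
    constructor
    · refine h1.trans ?_
      rw [le_div_iff₀ hN₁]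
      nlinarith
    · refine h1.trans ?_
      rw [le_div_iff₀ hN₂]
      linarith
  have hK0 : 0 < 2 * π * k := by linarith
  have he : ∀ v : ℝ, |v| ≤ 1 / 2 → 1.5 * (1 / (2 * π * k)) ≤ (2 - v) / (2 * π * k) ∧
      (2 - v) / (2 * π * k) ≤ 2.5 * (1 / (2 * π * k)) := by
    intro v hv
    rw [abs_le] at hv
    rw [mul_one_div, mul_one_div]
    constructor <;> gcongr <;> linarith
  refine dg_core (f₁ := fun p => σ₁ * a₁ p) (g₁ := fun p => σ₁ * A₁ p)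
    (f₂ := fun p => σ₂ * a₂ p) (g₂ := fun p => σ₂ * A₂ p)
    (e₁ := fun p => (2 - u₁ p) / (2 * π * k)) (e₂ := fun p => (2 - u₂ p) / (2 * π * k))
    (κ := 1 / (2 * π * k)) (m := m)
    (fun p => (S₁.der p).const_mul σ₁) (fun p => (S₂.der p).const_mul σ₂) hN₂ hN hl1 hl2
    (by positivity) (one_div_le_one_div_of_le (by norm_num) hK)
    (one_div_le_one_div_of_le hK0 (by unfold KK; linarith))
    (fun p hp => (S₂.near' hσ₂ hb₂ hη (hrange p hp).2).1)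
    (fun p hp => he _ (S₁.near' hσ₁ hb₁ hη (hrange p hp).1).2)
    (fun p hp => he _ (S₂.near' hσ₂ hb₂ hη (hrange p hp).2).2) hm ?_ ?_
  · intro t h h1 h2 h3 h4
    have q1 := S₁.quad t h (hrange _ h1).1 (hrange _ h2).1 (hrange _ h3).1
    have q2 := S₂.quad t h (hrange _ h1).2 (hrange _ h2).2 (hrange _ h3).2
    rw [h4, ← mul_pow] at q1 q2
    have hp : 0 ≤ KK k ^ (-1.9 : ℝ) := Real.rpow_nonneg (by unfold KK; linarith) _
    have r1 : (N₁ * (ℓ / 4)) ^ 3 ≤ 256 ^ 3 := by gcongr; nlinarith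
    have r2 : (N₂ * (ℓ / 4)) ^ 3 ≤ 128 ^ 3 := by gcongr; nlinarith
    have r3 : KK k ^ (-1.9 : ℝ) ≤ 1 / 10 ^ 7 * (1 / (2 * π * k)) := by
      rw [mul_one_div, le_div_iff₀ hK0]; linarith
    have r4 := abs_le.1 (q1.trans (mul_le_mul r1 r3 hp (by norm_num)))
    have r5 := abs_le.1 (q2.trans (mul_le_mul r2 r3 hp (by norm_num)))
    have r6 : 0 < 1 / (2 * π * k) := by positivity
    rw [abs_le]
    rcases hσ₁ with rfl | rfl <;> rcases hσ₂ with rfl | rfl <;> constructor <;>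
      linarith [r4.1, r4.2, r5.1, r5.2]
  · intro p
    rw [mul_add, al_hh hK0 hN₂ a₁ A₁ u₁ p σ₁ hσ₁, al_hh hK0 hN₂ a₂ A₂ u₂ p σ₂ hσ₂]

end Crest.Agent.R128
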