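import Mathlib
import Crest.Prelude.Def_StandardMap

/-!
# Row 128 (S0172): positive Lyapunov exponent of the standard map.  Definitions and sub-tasks.

Orbit `x_{j+1} = F(x_j) - x_{j-1}`, `F x = 2x + k sin 2πx`, potential `W = F' = 2 + K cos 2πx`,
`K = 2πk`, `𝕂 = KK k = K + 3`.  Jacobi (Schrödinger) recurrence `ψ_{j+1} = W_j ψ_j - ψ_{j-1}`.
One-sided objects (`U : ℕ → ℝ`, only `U 1, U 2, …` matter): `eta U = (0,1,…)`, `zeta U = (1,0,…)`,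
`ne U j = max |η_j| |η_{j+1}|`, `Mx U j` = max-entry norm of the transfer matrix over sites `1..j`,
`rr U m = -ζ_m/η_m` (the solution `sol U 1 (rr U m) = ζ + rr·η` vanishes at `m`).
Elementary facts (Wronskian, one-step bounds, `rr` steps, prepend, reversal, derivatives,
continuity/measurability, periodicity) are PROVED in `R128/Basic.lean`; import it.

Each task `X` is a `Prop`; prove `theorem x_proof (hyps…) : X` in `Crest/Agent/R128/<X>.lean`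
(import `Crest.Agent.R128.Basic` only; hypotheses = the Props named in the docstring).
"For large `𝕂`" = `∀ᶠ 𝕂 in atTop`; powers of `𝕂` are real powers (`Real.rpow`).
-/

set_option autoImplicit false

namespace Crest.Agent.R128

open MeasureTheory Set Filter
open scoped Real BigOperators Classical

noncomputable section

/-! ## Dynamics -/

def Fm (k x : ℝ) : ℝ := 2 * x + k * Real.sin (2 * π * x)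
def Wm (k x : ℝ) : ℝ := 2 + 2 * π * k * Real.cos (2 * π * x)
def KK (k : ℝ) : ℝ := 2 * π * k + 3

/-- one-sided orbit with `ξ 0 = b`, `ξ 1 = p`. -/
def xi (k b p : ℝ) : ℕ → ℝ
  | 0 => b
  | 1 => p
  | (j + 2) => Fm k (xi k b p (j + 1)) - xi k b p j

def pot (k b p : ℝ) (j : ℕ) : ℝ := Wm k (xi k b p j)

def FC (k : ℝ) (x : ℂ) : ℂ := 2 * x + k * Complex.sin (2 * π * x)
def WC (k : ℝ) (x : ℂ) : ℂ := 2 + 2 * π * k * Complex.cos (2 * π * x)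

/-- complexified orbit (complex second initial value). -/
def xiC (k b : ℝ) (w : ℂ) : ℕ → ℂ
  | 0 => b
  | 1 => w
  | (j + 2) => FC k (xiC k b w (j + 1)) - xiC k b w j

def potC (k b : ℝ) (w : ℂ) (j : ℕ) : ℂ := WC k (xiC k b w j)

/-- two-sided orbit of `ω = (x₀, x₁)`. -/
def orb (k : ℝ) (ω : ℝ × ℝ) : ℤ → ℝ
  | Int.ofNat n => xi k ω.1 ω.2 n
  | Int.negSucc n => xi k ω.2 ω.1 (n + 2)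

def VV (k : ℝ) (ω : ℝ × ℝ) (j : ℤ) : ℝ := Wm k (orb k ω j)

/-- the shift `(x₀, x₁) ↦ (x₁, x₂)`. -/
def sig (k : ℝ) (ω : ℝ × ℝ) : ℝ × ℝ := (ω.2, Fm k ω.2 - ω.1)

/-- Lebesgue measure on the unit square. -/
def mu : Measure (ℝ × ℝ) := volume.restrict (Ico (0 : ℝ) 1 ×ˢ Ico (0 : ℝ) 1)

/-- probability of an event about the potential sequence. -/
def Pr (k : ℝ) (Q : (ℤ → ℝ) → Prop) : ℝ := mu.real {ω | Q (VV k ω)}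

/-! ## Jacobi recurrence -/

def sol {R : Type*} [CommRing R] (U : ℕ → R) (a b : R) : ℕ → R
  | 0 => a
  | 1 => b
  | (j + 2) => U (j + 1) * sol U a b (j + 1) - sol U a b j

def eta {R : Type*} [CommRing R] (U : ℕ → R) : ℕ → R := sol U 0 1
def zeta {R : Type*} [CommRing R] (U : ℕ → R) : ℕ → R := sol U 1 0
def rr {R : Type*} [Field R] (U : ℕ → R) (m : ℕ) : R := -zeta U m / eta U m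

def nn (f : ℕ → ℝ) (j : ℕ) : ℝ := max |f j| |f (j + 1)|
def ne (U : ℕ → ℝ) (j : ℕ) : ℝ := nn (eta U) j
def Mx (U : ℕ → ℝ) (j : ℕ) : ℝ := max (nn (eta U) j) (nn (zeta U) j)

def Bd (𝕂 : ℝ) (U : ℕ → ℝ) : Prop := ∀ j, |U j| ≤ 𝕂 - 1
def BdZ (𝕂 : ℝ) (V : ℤ → ℝ) : Prop := ∀ j, |V j| ≤ 𝕂 - 1

/-- `fwd V t` reads `V t, V (t+1), …` as `U 1, U 2, …`. -/
def fwd (V : ℤ → ℝ) (t : ℤ) (j : ℕ) : ℝ := V (t - 1 + j)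
/-- `bwd V t` reads `V t, V (t-1), …` as `U 1, U 2, …`. -/
def bwd (V : ℤ → ℝ) (t : ℤ) (j : ℕ) : ℝ := V (t + 1 - j)
def sh (V : ℤ → ℝ) (t : ℤ) (j : ℤ) : ℝ := V (j + t)

def Good (𝕂 θ : ℝ) (N : ℕ) (U : ℕ → ℝ) : Prop := ∀ i : ℕ, i ≤ N → 𝕂 ^ ((1 - θ) * i) ≤ Mx U i
def Small (𝕂 θ₁ v : ℝ) : Prop := |v| < 𝕂 ^ (1 - θ₁)

/-- number of `j ∈ [1, i]` with `P j`. -/
def cnt (P : ℤ → Prop) (i : ℕ) : ℕ := ((Finset.range i).filter (fun j : ℕ => P ((j : ℤ) + 1))).card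
def Dense (P : ℤ → Prop) (c : ℝ) (N : ℕ) : Prop := ∃ i : ℕ, 1 ≤ i ∧ i ≤ N ∧ c * i ≤ cnt P i

/-- site `0` is a D-time: doubly bad at the cut `-1 | 0`, or `V 0` small. -/
def D0 (𝕂 θ θ₁ : ℝ) (N : ℕ) (V : ℤ → ℝ) : Prop :=
  (¬ Good 𝕂 θ N (bwd V (-1)) ∧ ¬ Good 𝕂 θ N (fwd V 0)) ∨ Small 𝕂 θ₁ (V 0)

/-- the next site is forward bad, or `V 0` small. -/
def D1 (𝕂 θ θ₁ : ℝ) (N : ℕ) (V : ℤ → ℝ) : Prop :=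
  ¬ Good 𝕂 θ N (fwd V 1) ∨ Small 𝕂 θ₁ (V 0)

def Loc (𝕂 δ : ℝ) (S : ℕ) (U : ℕ → ℝ) (r : ℝ) : Prop :=
  nn (sol U 1 r) S < 𝕂 ^ (-((1 - δ) * S))

/-- a solution with value `1` at site `0`, almost maximally decaying at distance `S` on both sides. -/
def Rev (𝕂 δ : ℝ) (S : ℕ) (V : ℤ → ℝ) : Prop :=
  ∃ r : ℝ, Loc 𝕂 δ S (fwd V 1) r ∧ Loc 𝕂 δ S (bwd V (-1)) (V 0 - r)

/-! ## Part 1: deterministic one-sided linear algebra -/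

/-- **PS** (no hyps). `n_l := ne U l`. For `l ≤ j` pick `m_l ∈ {l, l+1}` with `|η m_l| = n_l`
(`m_j = m`). `rr_step` (Basic): `|rr m_{l+1} - rr m_l| ≤ 𝕂/(n_l n_{l+1}) ≤ 4𝕂^(1-(1-θ)(2l+1))`; sum the
geometric series: `|rr m - rr m_l| ≤ 8 𝕂^(1-(1-θ)(2l+1))`.  `sol U 1 r = sol U 1 r' + (r-r')η`
(`sol_one_eq`), `nn (sol U 1 (rr m_l)) l = 1/n_l` (`nn_dir`), `n_l ≤ 𝕂^l` (`ne_le_pow`). -/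
def PS : Prop := ∀ᶠ 𝕂 : ℝ in atTop, ∀ θ : ℝ, 0 ≤ θ → θ ≤ 1 / 100 → ∀ U : ℕ → ℝ, Bd 𝕂 U →
  ∀ j m : ℕ, (m = j ∨ m = j + 1) → |eta U m| = ne U j →
  (∀ l : ℕ, l ≤ j → 𝕂 ^ ((1 - θ) * l) / 2 ≤ ne U l) →
  ∀ l : ℕ, l ≤ j → nn (sol U 1 (rr U m)) l ≤ 10 * 𝕂 ^ (θ - (1 - 2 * θ) * l)

/-- **ZS** (from PS, θ = 1/100). `ζ = ψ - r η` with `ψ = sol U 1 r`, `r = rr U m = ψ 1`,
`|r| ≤ nn ψ 1 ≤ 10𝕂^(-0.97)`, `nn ψ j ≤ 10 𝕂^(0.01-0.98 j) ≤ ne/8`. -/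
def ZS : Prop := ∀ᶠ 𝕂 : ℝ in atTop, ∀ U : ℕ → ℝ, Bd 𝕂 U → ∀ j : ℕ, 1 ≤ j →
  (∀ l : ℕ, l ≤ j → 𝕂 ^ ((0.99 : ℝ) * l) / 2 ≤ ne U l) → nn (zeta U) j ≤ ne U j / 4

/-- **MG** (from PS). Induction on `l`; `l = 0, 1` direct (`η = 0,1,U 1`, `ζ = 1,0,-1`).
Step `l ≥ 1`: `ψ = sol U 1 (rr m_l)`, `|rr m_l| = |ψ 1| ≤ 1/2` by PS at level `l`,
`nn ψ (l+1) ≤ 𝕂 nn ψ l = 𝕂/n_l ≤ Mx (l+1)/2`; `ζ = ψ - rη` gives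
`nn ζ (l+1) ≤ Mx/2 + ne/2`, so `Mx ≤ ne`. -/
def MG : Prop := ∀ᶠ 𝕂 : ℝ in atTop, ∀ θ : ℝ, 0 ≤ θ → θ ≤ 1 / 100 → ∀ U : ℕ → ℝ, Bd 𝕂 U →
  ∀ N : ℕ, Good 𝕂 θ N U → ∀ l : ℕ, l ≤ N → Mx U l = ne U l

/-- **ST** (from PS, θ = 1/100). Variation of constants: `Δ = η' - η`, `f_l = (U' l - U l) η'_l`,
`Δ_i = ∑_{l ∈ [1,i)} f_l (ψ_l η_i - η_l ψ_i)` (induction; `ψ = sol U 1 (rr U m_j)`, Wronskian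
`ψ_l η_{l+1} - ψ_{l+1} η_l = 1`).  `|η_l|,|η'_l| ≤ 𝕂^(l-1)` for `l ≥ 1`, `|f_l| ≤ 13 𝕂^(l/2)`,
`|ψ_l| ≤ 10𝕂^(0.01-0.98 l)`; for `i ∈ {j, j+1}`: `|η_i| ≤ n_j`, `|ψ_i| ≤ 10𝕂^(0.01-0.98j)`, and
`𝕂^(1.5 l - 0.99 - 0.98 j) ≤ 𝕂^(-0.47 l) 𝕂^(0.99 j)` for `l ≤ j`. Geometric sums are small. -/
def ST : Prop := ∀ᶠ 𝕂 : ℝ in atTop, ∀ U U' : ℕ → ℝ, Bd 𝕂 U → Bd 𝕂 U' → ∀ j : ℕ,
  (∀ l : ℕ, 1 ≤ l → l ≤ j → |U' l - U l| ≤ 13 * 𝕂 ^ (1 - (l : ℝ) / 2)) →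
  (∀ l : ℕ, l ≤ j → 𝕂 ^ ((0.99 : ℝ) * l) ≤ ne U l) →
  nn (fun i => eta U' i - eta U i) j ≤ ne U j / 10

/-- **SB1** (from MG): prepending one site. `prepend_eta` (Basic):
`eta (fwd V a) (j+1) = zeta (fwd V (a+1)) j + V a * eta (fwd V (a+1)) j`; MG gives
`nn ζ i ≤ Mx = ne`. -/
def SB1 : Prop := ∀ᶠ 𝕂 : ℝ in atTop, ∀ θ : ℝ, 0 ≤ θ → θ ≤ 1 / 100 → ∀ V : ℤ → ℝ, BdZ 𝕂 V →
  ∀ (N i : ℕ) (a : ℤ), i ≤ N → Good 𝕂 θ N (fwd V (a + 1)) →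
  (|V a| - 1) * Mx (fwd V (a + 1)) i ≤ Mx (fwd V a) (i + 1)

/-- **SBF** (from SB1). Generalise to intervals `[a, i]` (prepend sites one at a time, downward):
a site `j` with `Good (fwd V (j+1))` and not small multiplies `Mx` by `≥ 𝕂^(1-θ₁) - 1 ≥ 𝕂^(1-θ₁)/2`;
any other site by `≥ 1/𝕂` (`Mx_prepend_ge`, Basic). `D1 … (sh V j)` unfolds by `fwd_sh`. -/
def SBF : Prop := ∀ᶠ 𝕂 : ℝ in atTop, ∀ θ θ₁ : ℝ, 0 ≤ θ → θ ≤ 1 / 100 → 0 ≤ θ₁ → θ₁ ≤ 1 / 100 →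
  ∀ V : ℤ → ℝ, BdZ 𝕂 V → ∀ N i : ℕ, i ≤ N + 1 →
  i * ((1 - θ₁) * Real.log 𝕂 - Real.log 2)
      - 2 * Real.log 𝕂 * cnt (fun j => D1 𝕂 θ θ₁ N (sh V j)) i ≤ Real.log (Mx (fwd V 1) i)

/-- **SBB** (from SB1; mirror of SBF). Append sites on the right: `Mx (fwd V 1) j = Mx (bwd V j) j`
(`Mx_symm`), and `bwd V j = fwd (fun t => V (-t)) (-j)` (`bwd_eq_fwd`), so SB1 / `Mx_prepend_ge`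
for the reflected sequence give the one-step bounds. Induction on `i`. -/
def SBB : Prop := ∀ᶠ 𝕂 : ℝ in atTop, ∀ θ θ₁ : ℝ, 0 ≤ θ → θ ≤ 1 / 100 → 0 ≤ θ₁ → θ₁ ≤ 1 / 100 →
  ∀ V : ℤ → ℝ, BdZ 𝕂 V → ∀ N i : ℕ, i ≤ N + 1 →
  i * ((1 - θ₁) * Real.log 𝕂 - Real.log 2)
      - 2 * Real.log 𝕂 * cnt (fun j => ¬ Good 𝕂 θ N (bwd V (j - 1)) ∨ Small 𝕂 θ₁ (V j)) i
    ≤ Real.log (Mx (fwd V 1) i)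

/-- **DET2** (from SBF). `c₁ = θ₀²/32`, `log 2 ≤ c₁ log 𝕂`. A bad `i ≤ N+1` has `i ≥ 1` (`Mx U 0 = 1`)
and `(1-θ₀/2) i > (1-2c₁) i - 2 cnt`, so `cnt ≥ θ₀ i/8`. -/
def DET2 : Prop := ∀ θ₀ : ℝ, 0 < θ₀ → θ₀ ≤ 1 / 1000 → ∀ᶠ 𝕂 : ℝ in atTop,
  ∀ θ : ℝ, 0 ≤ θ → θ ≤ 1 / 100 → ∀ V : ℤ → ℝ, BdZ 𝕂 V → ∀ N : ℕ,
  ¬ Good 𝕂 (θ₀ / 2) (N + 1) (fwd V 1) →
  Dense (fun j => D1 𝕂 θ (θ₀ ^ 2 / 32) N (sh V j)) (θ₀ / 8) (N + 1)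

/-- **GROM** (from PS, MG): Gromov product at a cut gives a localized solution.
`U¹ = fwd V 1` (index `l` = site `l`), `U⁺ = fwd V (L+1)`, `j = i - L ≥ 1`, `s = ⌊θ₀L/4⌋₊ ≥ 2`,
`c₁ = θ₀²/32`, `M_L = Mx U¹ L`. MG: `ne U⁺ l = Mx U⁺ l`.  `j ≥ s`: `M_L ≤ 𝕂^j Mx U¹ i`
(`Mx_le_succ`), so `(1-θ/2)L < j + (1-θ)(L+j)`.  `r = rr U⁺ m_j`, `ψ = sol U⁺ 1 r`; PS at `l = s-1`
gives `Loc` forward (`10 < 𝕂^θ₀`), `|r| ≤ 1`.  Let `Ψ = sol U¹ a b` be the solution with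
`Ψ L = 1, Ψ (L+1) = r` (exists: `exists_sol`; then `Ψ (L+l) = ψ l`, `sol_shift`, and
`Ψ (L-l) = sol (bwd V (L-1)) 1 (V L - r) l` for `l ≤ L`, `sol_back`).  Wronskians of `Ψ` with `η¹, ζ¹`
at index `i` (one of `Ψ i, Ψ (i+1)` is `0`, the other has size `1/ne U⁺ j`) give
`nn Ψ 0 ≤ Mx U¹ i / ne U⁺ j < 𝕂^((1-θ)L)`.  Let `φ = η¹/M_L` or `ζ¹/M_L` (the column with the
maximal entry, at index `m ∈ {L, L+1}`, `|φ m| = 1`, `nn φ 0 = 1/M_L`); Wronskian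
`|W(Ψ,φ)| ≤ nn Ψ 0/M_L ≤ 𝕂^(-θL/2) ≤ 𝕂^(-2s)`; `β = Ψ m/φ m`, `|β| ≤ 1`,
`nn (Ψ - βφ) L ≤ |W|`; going back `s` steps costs `𝕂^s` (`nn_le_succ`), `nn φ (L-s) ≤ 𝕂^(L-s)/M_L
≤ 𝕂^(-s+θ₀ s)` (as `L ≤ 8s/θ₀`).  Total `< 2𝕂^(-(1-θ₀)s) ≤ 𝕂^(-(1-7θ₀)(s-1))`. -/
def GROM : Prop := ∀ θ₀ : ℝ, 0 < θ₀ → θ₀ ≤ 1 / 1000 → ∀ᶠ 𝕂 : ℝ in atTop,
  ∀ θ : ℝ, θ₀ ≤ θ → θ ≤ 2 * θ₀ → ∀ V : ℤ → ℝ, BdZ 𝕂 V → ∀ N L i : ℕ, L < i → i ≤ N →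
  8 ≤ θ₀ * L → Good 𝕂 θ N (fwd V (L + 1)) → Mx (fwd V 1) i < 𝕂 ^ ((1 - θ) * i) →
  𝕂 ^ ((1 - θ₀ ^ 2 / 8) * L) ≤ Mx (fwd V 1) L →
  Rev 𝕂 (7 * θ₀) (⌊θ₀ * L / 4⌋₊ - 1) (sh V L)

/-- **DET** (from SB1, SBB, GROM). `c₁ = θ₀²/32`, `log 2 ≤ c₁ log 𝕂`.  Take a bad `i` (`1 ≤ i ≤ N`,
`Mx (fwd V 1) i < 𝕂^((1-θ)i)`).  If all sites `1..i` are forward bad, every site counted in SBB is a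
D-time, and SBB gives `cnt ≥ c₁ i`.  Else let `L+1 ≤ i` be the first forward good site (`L ≥ 1`).
`V L` is small (otherwise SB1 and `𝕂^(1-c₁) - 1 ≥ 𝕂^(1-θ)` make site `L` good).  If not dense at
`L`, SBB at `L` gives `Mx (fwd V 1) L ≥ 𝕂^((1-4c₁)L)`; apply GROM. -/
def DET : Prop := ∀ θ₀ : ℝ, 0 < θ₀ → θ₀ ≤ 1 / 1000 → ∀ᶠ 𝕂 : ℝ in atTop,
  ∀ θ : ℝ, θ₀ ≤ θ → θ ≤ 2 * θ₀ → ∀ V : ℤ → ℝ, BdZ 𝕂 V → ∀ N : ℕ,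
  ¬ Good 𝕂 θ N (fwd V 1) →
  Dense (fun j => D0 𝕂 θ (θ₀ ^ 2 / 32) N (sh V j)) (θ₀ ^ 2 / 32) N ∨
  ∃ L : ℕ, 1 ≤ L ∧ L ≤ N ∧ Small 𝕂 (θ₀ ^ 2 / 32) (V L) ∧
    (8 ≤ θ₀ * L → Rev 𝕂 (7 * θ₀) (⌊θ₀ * L / 4⌋₊ - 1) (sh V L))

/-! ## Part 2: measure-theoretic tools -/

/-- **RS** (rising sun, no hyps). Strong induction on `T - a` for the version counting `t ∈ [a, T)`
against `∑_{j ∈ [a,T)} d j`: if `a` is not marked pass to `a+1`; if marked with length `i`, the at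
most `i` points of `[a, a+i)` are paid by `∑_{[a,a+i)} d`, pass to `a+i`. -/
def RS : Prop := ∀ d : ℕ → ℝ, (∀ j, 0 ≤ d j) → ∀ c : ℝ, 0 < c → ∀ T : ℕ,
  c * (((Finset.range T).filter (fun t => ∃ i : ℕ, 1 ≤ i ∧ t + i ≤ T ∧
      c * i ≤ ∑ j ∈ Finset.Ico t (t + i), d j)).card : ℝ) ≤ ∑ j ∈ Finset.range T, d j

/-- **SHIFT** (no hyps). `VV k (sig k ω) = sh (VV k ω) 1` (`VV_sig`), `VV` is `ℤ²`-periodic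
(`VV_add_int`). For a measurable periodic `E`: `mu (sig⁻¹ E) = ∫_y ∫_{x∈[0,1)} 1_E (y, F y - x)
= ∫_y ∫_{z∈[0,1)} 1_E (y, z)` (reflection + periodicity in `z`, e.g. via `AddCircle` or
`Function.Periodic.intervalIntegral_add_eq`), Fubini with swap. Then induction on `t` both ways
(`sh (sh V s) t = sh V (t+s)`; `measurable_sh`). -/
def SHIFT : Prop := ∀ (k : ℝ) (Q : (ℤ → ℝ) → Prop), MeasurableSet {V | Q V} → ∀ t : ℤ,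
  Pr k (fun V => Q (sh V t)) = Pr k Q

/-- **MAX** (from RS, SHIFT). For each `ω` and `T`, RS with `d j = 1[Q (sh V (j+1))]` on
`range (T+N)` gives `c ∑_{t<T} 1[Dense at sh V t] ≤ ∑_{j<T+N} d j`; integrate, SHIFT:
`c T P(Dense) ≤ (T+N) P(Q)`; `T → ∞`. -/
def MAX : Prop := ∀ (k : ℝ) (Q : (ℤ → ℝ) → Prop), MeasurableSet {V | Q V} → ∀ c : ℝ, 0 < c →
  ∀ N : ℕ, Pr k (fun V => Dense (fun j => Q (sh V j)) c N) ≤ Pr k Q / c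

/-- **QB** (no hyps). `VV k ω 0 = Wm k ω.1`; small forces `|cos 2πx| ≤ κ := (𝕂^(1-θ₁)+2)/(2πk) → 0`,
so `x ∈ [0,1)` is within `κ/4` of `1/4` or `3/4` (Jordan `Real.mul_le_sin` / `Real.mul_abs_le_abs_sin`). -/
def QB : Prop := ∀ θ₁ : ℝ, 0 < θ₁ → ∀ ε : ℝ, 0 < ε → ∀ᶠ k : ℝ in atTop,
  Pr k (fun V => Small (KK k) θ₁ (V 0)) ≤ ε

def fibSum {E : Type} [NormedAddCommGroup E] [NormedSpace ℝ E] (f : E → E) (S : Set E) (z : E) :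
    ENNReal :=
  ∑' x : {x // x ∈ S ∧ f x = z}, ENNReal.ofReal (1 / |(fderiv ℝ f x.1).det|)

/-- **AREA** (no hyps): area formula with multiplicity. Inverse function theorem
(`HasStrictFDerivAt.toOpenPartialHomeomorph` / `ContDiffAt.toOpenPartialHomeomorph`) gives open
neighbourhoods of injectivity; countable subcover, `disjointed` ⇒ measurable pieces `S_n` with
`InjOn f S_n`.  On a piece the fibre sum is `Function.extend (restrict f) φ 0`, measurable by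
`measurableEmbedding_of_fderivWithin`/`MeasurableEmbedding.measurable_extend`, and its integral is
`μ S_n` by `lintegral_image_eq_lintegral_abs_det_fderiv_mul`. -/
def AREA : Prop := ∀ (E : Type) [NormedAddCommGroup E] [NormedSpace ℝ E] [FiniteDimensional ℝ E]
  [MeasurableSpace E] [BorelSpace E] (μ : Measure E) [μ.IsAddHaarMeasure] (f : E → E),
  ContDiff ℝ 1 f → ∀ S : Set E, MeasurableSet S → (∀ x ∈ S, (fderiv ℝ f x).det ≠ 0) →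
  Measurable (fibSum f S) ∧ ∫⁻ z, fibSum f S z ∂μ = μ S

/-! ## Part 3: independence of the forward and backward first crossings -/

/-- **TUBE** (from PS, θ = 1/100): Dirichlet shadowing. `U = pot k b p`, `ψ = sol U 1 (rr U m)`,
`d = b' - b`, `ρ_j = 𝕂^(-0.8 j)`, `N_l(x) = F(ξ_l + x) - F ξ_l - U_l x` (`|N_l x| ≤ π𝕂 x²`,
Lipschitz `2π𝕂ρ_l` on `|x| ≤ ρ_l`; `|F''| ≤ 2πK`).  Fixed point on `{δ | ∀ 1≤j<m, |δ_j| ≤ ρ_j}`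
(rescale `δ_j = ρ_j y_j`, `y` in the closed unit ball of `Fin _ → ℝ`; `ContractingWith`) of
`δ_j ↦ d ψ_j - ∑_{l∈[1,m)} η_{min j l} ψ_{max j l} N_l(δ_l)`.  `|ψ_j| ≤ 10𝕂^(-0.97 j)` (`j ≥ 1`),
`|η_j| ≤ 𝕂^(j-1)`.  `g_j = η_min ψ_max` has `g_{j+1}+g_{j-1}-U_j g_j = -[j=l]`, `g_0 = g_m = 0`, so
`δ_0 = d`, `δ_m = 0`, `ξ_j + δ_j` is an orbit on `[0,m]`; `p' = p + δ_1`. -/
def TUBE : Prop := ∀ᶠ k : ℝ in atTop, ∀ b p b' : ℝ, |b' - b| ≤ 1 → ∀ L m : ℕ, 2 ≤ L →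
  (m = L ∨ m = L + 1) → |eta (pot k b p) m| = ne (pot k b p) L →
  (∀ l : ℕ, l ≤ L → KK k ^ ((0.99 : ℝ) * l) ≤ ne (pot k b p) l) →
  ∃ p' : ℝ, xi k b' p' m = xi k b p m ∧
    ∀ j : ℕ, 1 ≤ j → j ≤ m → |xi k b' p' j - xi k b p j| ≤ KK k ^ (-(0.8 : ℝ) * j)

/-- first crossing of the threshold `𝕂^((1-θ) j)` in the group `(g², (g+1)²]`; Dirichlet end `m`. -/
def Ev (𝕂 θ : ℝ) (N g m : ℕ) (U : ℕ → ℝ) : Prop :=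
  (m = g ^ 2 ∨ m = g ^ 2 + 1) ∧ |eta U m| = ne U (g ^ 2) ∧
  ∃ w : ℕ, g ^ 2 < w ∧ w ≤ (g + 1) ^ 2 ∧ w ≤ N ∧
    (∀ j : ℕ, j < w → 𝕂 ^ ((1 - θ) * j) ≤ ne U j) ∧ ne U w < 𝕂 ^ ((1 - θ) * w)

/-- relaxed version of `Ev`. -/
def Ev' (𝕂 θ : ℝ) (N g : ℕ) (U : ℕ → ℝ) : Prop :=
  (∀ j : ℕ, j ≤ g ^ 2 → 𝕂 ^ ((1 - θ) * j) / 2 ≤ ne U j) ∧
  ∃ w : ℕ, g ^ 2 < w ∧ w ≤ (g + 1) ^ 2 ∧ w ≤ N ∧ ne U w ≤ 2 * 𝕂 ^ ((1 - θ) * w)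

/-- **TRANS** (from TUBE, ST). TUBE with `L = g²`.  Beyond `m` the difference `δ_j` obeys
`nn δ (j+1) ≤ 𝕂 nn δ j` (`Fm_lip`), so `|δ_{m+s}| ≤ 𝕂^(s - 0.8(m-1)) ≤ 𝕂^(-(m+s)/2)` for
`s ≤ 2g+1`.  `|δU_j| ≤ 7𝕂|δ_j|` (`Wm_lip`).  `ne U w ≥ ne U (w-1)/𝕂 ≥ 𝕂^(0.99 w)` as `w > 400`,
`θ ≤ 1/500`.  ST at each `j ≤ w`. -/
def TRANS : Prop := ∀ᶠ k : ℝ in atTop, ∀ θ : ℝ, 0 ≤ θ → θ ≤ 1 / 500 → ∀ N g m : ℕ, 20 ≤ g →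
  ∀ b p b' : ℝ, |b' - b| ≤ 1 → Ev (KK k) θ N g m (pot k b p) →
  ∃ p' : ℝ, xi k b' p' m = xi k b p m ∧
    (∀ j : ℕ, 1 ≤ j → j ≤ m → |xi k b' p' j - xi k b p j| ≤ KK k ^ (-(j : ℝ) / 2)) ∧
    Ev' (KK k) θ N g (pot k b' p') ∧ eta (pot k b' p') m ≠ 0 ∧
    |eta (pot k b' p') m| ≤ 1.1 * |eta (pot k b p) m|

/-- **SEC** (from ST, ZS). `δ_j = ξ'_j - ξ_j` solves the recurrence with secant potentials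
`Û_j = W(x*_j)`, `x*_j` between `ξ_j, ξ'_j` (mean value theorem; `Û_j := U_j` for `j = 0` and
`j ≥ m`), `|Û_j - U_j| ≤ 2π·2πk·|δ_j| ≤ 13 𝕂^(1-j/2)`.  `0 = δ_m = δ_0 ζ̂_m + δ_1 η̂_m`, ST gives
`|η̂_m| ≥ 0.9 n_L`, `n̂_l ∈ [0.9,1.1] n_l`, ZS gives `|ζ̂_m| ≤ 1.1 n_L/4`. -/
def SEC : Prop := ∀ᶠ k : ℝ in atTop, ∀ b p b' p' : ℝ, ∀ L m : ℕ, 1 ≤ L → (m = L ∨ m = L + 1) →
  |eta (pot k b p) m| = ne (pot k b p) L →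
  (∀ l : ℕ, l ≤ L → KK k ^ ((0.99 : ℝ) * l) ≤ ne (pot k b p) l) →
  xi k b' p' m = xi k b p m →
  (∀ j : ℕ, 1 ≤ j → j ≤ m → |xi k b' p' j - xi k b p j| ≤ 2 * KK k ^ (-(j : ℝ) / 2)) →
  |p' - p| ≤ |b' - b| / 2

/-- **INDEP** (from AREA, TRANS, SEC, ZS).  `E` = the event ∩ unit square,
`Φ ω = (xi k ω.2 ω.1 m₁, xi k ω.1 ω.2 m₂)`; `det = η⁻η⁺ - ζ⁻ζ⁺` (`hasFDerivAt_xi`), ZS ⇒
`|det| ≥ (15/16)|η⁻η⁺|`.  For `x', y' ∈ [0,1)` put `S₂ = {q ∈ [-1,2) | Ev' g₂ (pot k x' q), η m₂ ≠ 0}`,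
`f₂ q = xi k x' q m₂`, likewise `S₁, f₁` with `y'`.  TRANS gives `h₊ ω ∈ S₂ ∩ f₂⁻¹ v`,
`h₋ ω ∈ S₁ ∩ f₁⁻¹ u`; `ω ↦ (h₋, h₊)` is injective on a fibre of `Φ|E` (SEC on both sides), so
`fibSum Φ E (u,v) ≤ 2 fibSum f₁ S₁ u * fibSum f₂ S₂ v` (`ENNReal.tsum_comp_le_tsum_of_injective`).
AREA thrice + `lintegral_prod_mul`: `vol E ≤ 2 |S₁(y')| |S₂(x')|`.  Periodicity in `q`
(`pot_add_int`): `|S₂(x')| ≤ 3 |{q ∈ [0,1) | Ev'}|`; integrate in `x'`, `y'` (Fubini). -/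
def INDEP : Prop := ∀ᶠ k : ℝ in atTop, ∀ θ : ℝ, 0 ≤ θ → θ ≤ 1 / 500 → ∀ N g₁ g₂ m₁ m₂ : ℕ,
  20 ≤ g₁ → 20 ≤ g₂ →
  mu.real {ω | Ev (KK k) θ N g₁ m₁ (pot k ω.2 ω.1) ∧ Ev (KK k) θ N g₂ m₂ (pot k ω.1 ω.2)} ≤
    18 * mu.real {ω | Ev' (KK k) θ N g₁ (pot k ω.1 ω.2)} *
      mu.real {ω | Ev' (KK k) θ N g₂ (pot k ω.1 ω.2)}

/-- **AVG** (from MG). Grid `θ_r = θ₀(1 + r/R)`, `r < R := 2N+2`.  Pointwise in `U` (bounded): for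
each `r`, all `g` with `Ev' θ_r g` except the largest satisfy `θ_r ∈ Θ_g :=
{θ | (∀ i ∈ group g, i ≤ N → 𝕂^((1-θ)i)/2 ≤ ne i) ∧ ∃ i ∈ group g, i ≤ N ∧ ne i ≤ 2𝕂^((1-θ)i)}`,
and `diam Θ_g ≤ log 4/(g² log 𝕂)`, so at most `1 + R log 4/(θ₀ g² log 𝕂)` grid points lie in `Θ_g`.
Hence `∑_r ∑_g 1[Ev'] ≤ 2R`, and it vanishes when `Good (θ₀/2) N` (MG, `2 < 𝕂^(θ₀/2)`).
Integrate, pigeonhole in `r`. -/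
def AVG : Prop := ∀ θ₀ : ℝ, 0 < θ₀ → θ₀ ≤ 1 / 1000 → ∀ᶠ k : ℝ in atTop, ∀ N : ℕ,
  ∃ θ : ℝ, θ₀ ≤ θ ∧ θ ≤ 2 * θ₀ ∧
    ∑ g ∈ Finset.Icc 20 N, mu.real {ω | Ev' (KK k) θ N g (pot k ω.1 ω.2)} ≤
      2 * Pr k (fun V => ¬ Good (KK k) (θ₀ / 2) N (fwd V 1))

/-- **DB** (from INDEP, AVG, MG, SHIFT). `fwd (VV k ω) 1 = pot k ω.1 ω.2`,
`bwd (VV k ω) 0 = pot k ω.2 ω.1` (Basic).  For a bad `U` let `w ≤ N` be the first `i` with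
`Mx U i < 𝕂^((1-θ)i)`; MG (horizon `w-1`) gives `ne j ≥` threshold for `j < w`, `ne w ≤ Mx w`.
If `w ≤ 400` some `U j`, `1 ≤ j ≤ 400`, is small (else `|η_{j+1}| ≥ (𝕂^(1-θ₁)-1)|η_j|`,
`𝕂^(1-θ₁) - 1 ≥ 𝕂^(1-θ)`); else `Ev g m` for `g = sqrt (w-1) ∈ [20, N]` and `m ∈ {g², g²+1}`.
Union bound: `800 q + 4·18·(2u)²`. -/
def DB : Prop := ∀ θ₀ : ℝ, 0 < θ₀ → θ₀ ≤ 1 / 1000 → ∀ᶠ k : ℝ in atTop, ∀ N : ℕ,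
  ∃ θ : ℝ, θ₀ ≤ θ ∧ θ ≤ 2 * θ₀ ∧
    Pr k (fun V => ¬ Good (KK k) θ N (bwd V 0) ∧ ¬ Good (KK k) θ N (fwd V 1)) ≤
      800 * Pr k (fun V => Small (KK k) (θ₀ ^ 2 / 32) (V 0)) +
      288 * Pr k (fun V => ¬ Good (KK k) (θ₀ / 2) N (fwd V 1)) ^ 2

/-! ## Part 4: localized solutions are exponentially rare -/

/-- backward Pliss index. -/
def BPl (𝕂 : ℝ) (U : ℕ → ℝ) (z : ℕ) : Prop :=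
  ∀ j : ℕ, j < z → 𝕂 ^ ((0.99 : ℝ) * ((z : ℝ) - j)) * ne U j ≤ ne U z
/-- forward Pliss index (up to `S`). -/
def FPl (𝕂 : ℝ) (U : ℕ → ℝ) (z S : ℕ) : Prop :=
  ∀ j : ℕ, z < j → j ≤ S → 𝕂 ^ ((0.99 : ℝ) * ((j : ℝ) - z)) * ne U z ≤ ne U j

def Rad (𝕂 N : ℝ) (z i : ℕ) : ℝ := 𝕂 ^ ((0.98 : ℝ) * ((z : ℝ) - i + 1)) / (1000 * N)

/-- **CST** (no hyps): complex stability. `N = ne U z`, `ν_j = N 𝕂^(-(z-j)) ≤ n_j` (`ne_le_succ`),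
`n_{j-1} ≤ N 𝕂^(-0.99(z-j+1))`, `σ_j = 100 R N 𝕂^(-0.98(z-j+1)) ≤ σ_i = (R/Rad)/10`.  Induction on
`j ≤ i`, for all `w` in the closed ball: `d_j(w) := max of the two differences ≤ ν_j σ_j`.  Step:
`‖η_j(w)‖ ≤ 1.1 n_{j-1}` on the ball, so `‖ξ_j(w) - ξ_j(p₀)‖ ≤ 1.1 R n_{j-1} ≤ 0.0011`
(`hasDerivAt_xiC`, `Convex.norm_image_sub_le_of_norm_hasDerivWithin_le`); `‖WC(a+h) - W a‖ ≤ 13𝕂‖h‖`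
for real `a`, `‖h‖ ≤ 0.01` (`Complex.norm_exp_sub_one_le`); `d_j ≤ 𝕂 d_{j-1} + ‖δU_j‖‖η_j(w)‖`. -/
def CST : Prop := ∀ᶠ k : ℝ in atTop, ∀ (b p₀ : ℝ) (z : ℕ), BPl (KK k) (pot k b p₀) z →
  ∀ i : ℕ, i ≤ z → ∀ R : ℝ, 0 ≤ R → R ≤ Rad (KK k) (ne (pot k b p₀) z) z i →
  ∀ w : ℂ, ‖w - p₀‖ ≤ R → ∀ j : ℕ, j ≤ i →
    ‖eta (potC k b w) j - (eta (pot k b p₀) j : ℝ)‖ ≤
        R / Rad (KK k) (ne (pot k b p₀) z) z i * ne (pot k b p₀) j / 10 ∧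
    ‖eta (potC k b w) (j + 1) - (eta (pot k b p₀) (j + 1) : ℝ)‖ ≤
        R / Rad (KK k) (ne (pot k b p₀) z) z i * ne (pot k b p₀) j / 10 ∧
    (1 ≤ j → ‖potC k b w j‖ ≤ 2 * KK k)

/-- fourth divided difference. -/
def dd (g : ℝ → ℝ) (t : Fin 5 → ℝ) : ℝ :=
  ∑ i, g (t i) / ∏ j ∈ Finset.univ.erase i, (t i - t j)

/-- **DD4** (no hyps). Cauchy integral formula on the circle `|w - c| = R` for each `f (t i)` and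
`∑_i 1/((w - t i) ∏_{j≠i}(t i - t j)) = 1/∏_i (w - t i)`; `|w - t i| ≥ R/2`;
`circleIntegral.norm_two_pi_i_inv_smul_integral_le_of_norm_le_const`. -/
def DD4 : Prop := ∀ (f : ℂ → ℂ) (g : ℝ → ℝ) (c R B : ℝ), 0 < R →
  DifferentiableOn ℂ f (Metric.closedBall (c : ℂ) R) →
  (∀ w ∈ Metric.closedBall (c : ℂ) R, ‖f w‖ ≤ B) →
  (∀ x : ℝ, |x - c| ≤ R / 2 → f x = (g x : ℂ)) →
  ∀ t : Fin 5 → ℝ, StrictMono t → (∀ i, |t i - c| ≤ R / 2) → |dd g t| ≤ 32 * B / R ^ 4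

/-- **QQ** (no hyps). Cauchy formula for `f` and `deriv f`; kernel identity, `x = w - t`:
`4/(x-h) - 1/(x-2h) - 3/x - 2h/x² = -4h³/(x²(x-h)(x-2h))`. -/
def QQ : Prop := ∀ (f : ℂ → ℂ) (c R B : ℝ), 0 < R →
  DifferentiableOn ℂ f (Metric.closedBall (c : ℂ) R) →
  (∀ w ∈ Metric.closedBall (c : ℂ) R, ‖f w‖ ≤ B) →
  ∀ t h : ℝ, |t - c| ≤ R / 2 → |t + h - c| ≤ R / 2 → |t + 2 * h - c| ≤ R / 2 →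
  ‖4 * f ((t + h : ℝ) : ℂ) - f ((t + 2 * h : ℝ) : ℂ) - 3 * f t - 2 * h * deriv f t‖ ≤
    64 * B * |h| ^ 3 / R ^ 3

/-- what is used about one side at a frontier site: position `a`, speed `A = a'`, ratio `u`,
interior part `I`. -/
structure Side (𝕂 : ℝ) (a A u I : ℝ → ℝ) (p₀ N : ℝ) : Prop where
  pos : 0 < N
  der : ∀ p, HasDerivAt a (A p) p
  base : |A p₀| = N
  near : ∀ p, |p - p₀| ≤ 𝕂 ^ (0.7 : ℝ) / N → |A p - A p₀| ≤ N * 𝕂 ^ (-0.2 : ℝ) ∧ |u p| ≤ 1 / 2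
  quad : ∀ t h : ℝ, |t - p₀| ≤ 𝕂 ^ (0.7 : ℝ) / N → |t + h - p₀| ≤ 𝕂 ^ (0.7 : ℝ) / N →
    |t + 2 * h - p₀| ≤ 𝕂 ^ (0.7 : ℝ) / N →
    |4 * a (t + h) - a (t + 2 * h) - 3 * a t - 2 * h * A t| ≤ N ^ 3 * |h| ^ 3 * 𝕂 ^ (-1.9 : ℝ)
  four : ∀ t : Fin 5 → ℝ, StrictMono t → (∀ i, |t i - p₀| ≤ 𝕂 ^ (0.7 : ℝ) / N) →
    |dd I t| ≤ N ^ 2 * 𝕂 ^ (-2.9 : ℝ)

/-- **FOUR** (from CST, DD4): the field `four` of SIDE.  At `p₀` choose `m_i ∈ {i, i+1}` with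
`|η m_i| = n_i`, forced `m_0 = 1`, `m_{z-1} = z`, `m_z = z+1` (BPl: `n_{z-1} ≥ N/𝕂 > n_{z-2}`,
`n_z > n_{z-1}`); `rr (z+1) = ∑_{i<z} π_i`, `π_i = rr m_{i+1} - rr m_i` (`rr U 1 = 0`), `dd` is linear.
On the closed ball of radius `R = Rad z (i+1) ≥ Rad z z ≥ 2𝕂^0.7/N` CST gives
`‖η m_i‖ ≥ 0.9 n_i`, `‖η m_{i+1}‖ ≥ 0.9 n_{i+1}`, so `π_i` is differentiable and by `rr_succ`,
`rr_succ_succ` (any field) `‖π_i‖ ≤ 3𝕂/(ν_i ν_{i+1}) = 3𝕂^(2s)/N²` (`s = z-i`), and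
`‖π_{z-1}‖ ≤ 1.3𝕂/N²`.  DD4: terms `≤ C N² 𝕂^(-1.92 s)` (`s ≥ 2`) and `C N² 𝕂^(-2.92)`. -/
def FOUR : Prop := ∀ᶠ k : ℝ in atTop, ∀ (b p₀ : ℝ) (z : ℕ), 1 ≤ z → BPl (KK k) (pot k b p₀) z →
  ∀ t : Fin 5 → ℝ, StrictMono t →
  (∀ i, |t i - p₀| ≤ KK k ^ (0.7 : ℝ) / ne (pot k b p₀) z) →
  |dd (fun p => rr (pot k b p) (z + 1)) t| ≤ ne (pot k b p₀) z ^ 2 * KK k ^ (-2.9 : ℝ)

/-- **SIDE** (from CST, QQ, FOUR). `base`: `|η z| ≤ n_{z-1} < n_z`.  `near`: CST with `i = z`,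
`R = 𝕂^0.7/N` (`j = z` and `j = z-1`).  `quad`: QQ for
`f w = xiC (z+1) w - ξ_{z+1}(p₀) - η_{z+1}(p₀)(w - p₀)` on the ball `R = Rad z z`, `B = R N/10`
(the functional kills affine functions). -/
def SIDE : Prop := ∀ᶠ k : ℝ in atTop, ∀ (b p₀ : ℝ) (z : ℕ), 1 ≤ z → BPl (KK k) (pot k b p₀) z →
  Side (KK k) (fun p => xi k b p (z + 1)) (fun p => eta (pot k b p) (z + 1))
    (fun p => eta (pot k b p) z / eta (pot k b p) (z + 1)) (fun p => rr (pot k b p) (z + 1))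
    p₀ (ne (pot k b p₀) z)

/-- **REFL** (no hyps). For `four` use the nodes `c - t (Fin.rev i)`; `dd` is invariant. -/
def REFL : Prop := ∀ (𝕂 : ℝ) (a A u I : ℝ → ℝ) (p₀ N c : ℝ), Side 𝕂 a A u I (c - p₀) N →
  Side 𝕂 (fun p => a (c - p)) (fun p => -A (c - p)) (fun p => u (c - p)) (fun p => I (c - p)) p₀ N

/-- **TAIL** (no hyps). Pick `m_i ∈ {i,i+1}`, `|η m_i| = n_i`, with `m_{z+1} = z+2`, `m_{z+2} = z+3`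
(FPl: `n_{z+1} > n_z`, `n_{z+2} ≥ 𝕂^1.98 n_z > 𝕂 n_z ≥ n_{z+1}`).  First step `1/(n_{z+1}n_{z+2}) ≤
𝕂^(-2.97)/n_z²` (`rr_succ`), later steps `≤ 𝕂^(1-0.99(2(i-z)+1))/n_z²` (`rr_step`), last:
`|r - rr m_S| = |ψ m_S|/n_S ≤ 𝕂^(-(1-δ)S - 0.99(S-z) + z)/n_z²` (`n_z ≤ 𝕂^z`). -/
def TAIL : Prop := ∀ᶠ 𝕂 : ℝ in atTop, ∀ U : ℕ → ℝ, Bd 𝕂 U → ∀ (δ r : ℝ) (S z : ℕ),
  δ ≤ 1 / 100 → 4 ≤ S → 2 * z ≤ S → FPl 𝕂 U z S → Loc 𝕂 δ S U r →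
  eta U (z + 2) ≠ 0 ∧ |r - rr U (z + 2)| ≤ 𝕂 ^ (-2.9 : ℝ) / ne U z ^ 2

def c0 : ℝ := 1 / 10 ^ 13

/-- frontier term `1/(η_{z+1} η_{z+2})`. -/
def hh (k : ℝ) (a A u : ℝ → ℝ) (p : ℝ) : ℝ := 1 / (A p ^ 2 * (Wm k (a p) - u p))

/-- five fat sets on whose neighbourhoods `H - q` alternates in sign with size `≥ γ`. -/
def AltSys (H : ℝ → ℝ) (α ℓ N₁ γ : ℝ) : Prop :=
  ∃ (q s : ℝ) (U : Fin 5 → Set ℝ), (s = 1 ∨ s = -1) ∧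
    (∀ i, MeasurableSet (U i) ∧ U i ⊆ Ico α (α + ℓ) ∧ ENNReal.ofReal (c0 * ℓ) ≤ volume (U i)) ∧
    (∀ i j, i < j → ∀ p ∈ U i, ∀ p' ∈ U j, p + 2 * c0 / N₁ ≤ p') ∧
    ∀ i, ∀ p ∈ U i, ∀ p' : ℝ, |p - p'| < c0 / N₁ → γ ≤ (-1) ^ (i : ℕ) * s * (H p' - q)

/-- the two frontier sites are anti-aligned on `[α, α+ℓ]`. -/
def Anti (a₁ A₁ a₂ A₂ : ℝ → ℝ) (p₀ N₁ N₂ α ℓ : ℝ) : Prop :=
  N₁ ≤ 2 * N₂ ∧ ∃ (σ₁ σ₂ : ℝ) (m : ℤ), (σ₁ = 1 ∨ σ₁ = -1) ∧ (σ₂ = 1 ∨ σ₂ = -1) ∧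
    σ₁ * A₁ p₀ = N₁ ∧ σ₂ * A₂ p₀ = N₂ ∧
    ∀ p ∈ Icc α (α + ℓ), |σ₂ * a₂ p - σ₁ * a₁ p + 1 / 2 + m| ≤ 1 / 10 ^ 4

/-- **SWEEP** (no hyps). Cut `[α,β]` into `n = ⌊(β-α)N/1.4⌋ ≥ (β-α)N/2.8` pieces of length `1.4/N`;
on the middle part `[+0.1/N, +1.3/N]` `a` increases by `≥ 1.18`, IVT gives `p*` with
`ε cos 2πa(p*) = 1`; on `|p - p*| ≤ 0.09/N`, `|a p - a p*| ≤ 0.1`, `cos (0.2π) ≥ 0.8`. -/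
def SWEEP : Prop := ∀ (a A : ℝ → ℝ) (α β N ε : ℝ), 0 < N → (∀ p, HasDerivAt a (A p) p) →
  (∀ p ∈ Icc α β, 0.99 * N ≤ A p ∧ A p ≤ 1.01 * N) → 2.8 ≤ (β - α) * N → (ε = 1 ∨ ε = -1) →
  ENNReal.ofReal ((β - α) / 40) ≤
    volume {p | p ∈ Icc α β ∧ 0.8 ≤ ε * Real.cos (2 * π * a p)}

/-- **ND** (from SWEEP): non-degenerate case.  `ā = σ₁a₁`, `b̄ = σ₂a₂` increasing with slopes in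
`N_i(1 ± η)`, `η = 𝕂^(-0.2)`, on `[α-1/N₂, α+ℓ+1/N₂]` (inside both ranges: `514/N₂ ≤ 𝕂^0.7/N₁`).
IVT: `p_i` with `b̄ p_i = β_i := (j₀+i)/2`, `[β_0 - 1/2, β_4 + 1/2] ⊆ b̄[α, α+ℓ]`; `ε_i = (-1)^(j₀+i)`,
`cos 2πb̄ = ε_i cos 2π(b̄-β_i)`; `q = 0`, `s = (-1)^j₀`.  `H = N₂²∑ 1/(A²(cos 2πa + (2-u)/K))`; where
`ε_i cos 2πa₁ , ε_i cos 2πa₂ ≥ κ > 2.5/K` both terms have sign `ε_i` and the second is `≥ 1/2`.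
If `N₁ ≥ 10N₂`: `U i = {p ∈ p_i ± 0.14/N₂ | ε_i cos 2πa₁ ≥ 0.8}`, SWEEP.  Else `ρ = N₁/N₂ < 10`,
`μ = 10⁻⁹`, `α₀ = ā p_i - β_i - 1/2 - m ∈ [-1/2, 1/2)`.  If `|α₀| + (ρ-1)/4 ≥ 10μ` (say `α₀ ≥ 0`;
`β₁ = (1/4-α₀)/ρ ≥ -1/4`, `1/4 - β₁ ≥ μ`, `μ ≤ 1/(2ρ)`): `U i = {p | N₂(p-p_i) ∈ [β₁+μ/3, β₁+2μ/3]}`;
on its `c0/N₁`-neighbourhood `ā-β_i-1/2-m ∈ [1/4+μ/6, 3/4-μ/6]`, `|b̄-β_i| ≤ 1/4-μ/6`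
(`α₀ < 0`: mirror image, `β₁ = (-1/4-α₀)/ρ`, interval `[β₁-2μ/3, β₁-μ/3]`).  If this fails for some
`i`, `Anti` holds with this `m` (`|δ| ≤ 10μ + 41μ·512`). -/
def ND : Prop := ∀ᶠ k : ℝ in atTop, ∀ (a₁ A₁ u₁ I₁ a₂ A₂ u₂ I₂ : ℝ → ℝ) (p₀ N₁ N₂ α ℓ : ℝ),
  Side (KK k) a₁ A₁ u₁ I₁ p₀ N₁ → Side (KK k) a₂ A₂ u₂ I₂ p₀ N₂ → N₂ ≤ N₁ →
  N₁ ≤ KK k ^ (0.6 : ℝ) * N₂ → 256 ≤ ℓ * N₂ → ℓ * N₂ ≤ 512 → α ≤ p₀ → p₀ ≤ α + ℓ →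
  AltSys (fun p => 2 * π * k * N₂ ^ 2 * (hh k a₁ A₁ u₁ p + hh k a₂ A₂ u₂ p)) α ℓ N₁ (1 / 2) ∨
  Anti a₁ A₁ a₂ A₂ p₀ N₁ N₂ α ℓ

/-- **DG** (no hyps): degenerate case. `K = 2πk`, `ā = σ₁a₁`, `δ = σ₂a₂ - ā + 1/2 + m`,
`m_δ = max_J |δ|` at `t*`, `λ = m_δ + 1/K`.  `quad` for both sides with `h = ±ℓ/4` ⇒
`|δ'| ≤ 16λ/ℓ` on `J = [α, α+ℓ]` (`δ' = σ₂A₂ - σ₁A₁`).  `J' ⊆ J` of length `ℓ/64` with endpoint `t*`: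
`|δ - δ t*| ≤ λ/4`; `ā' ∈ [0.99,1.01]N₂`, `ā` covers `≥ 3.96`.  `s* = sign δ t*`, `y₀ ≡ 1/4` (`s* = 1`)
or `3/4` mod 1; targets `y₀-1/4, y₀+0.0024, y₀+1/4, y₀+1.0024, y₀+5/4` (IVT, `p_i`),
`U i = [p_i, p_i + 10⁻⁴/N₂]`.  `X = cos 2πā + ε₁`, `Y = cos 2π(ā+δ) - ε₂`, `ε_i = (2-u_i)/K ∈
[1.5,2.5]/K`, `H = N₂²[(Y-X)/(A₁²XY) + (1/A₁² - 1/A₂²)/Y]`, `Y-X = -2 sin(2πā+πδ) sin(πδ) - ε₁ - ε₂`,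
`N₂²|1/A₁² - 1/A₂²| ≤ λ`.  Odd `i` (`|cos 2πā| ∈ [0.01,0.02]`, `X, Y` same sign, size in
`[0.005, 0.025]`): `Y - X ≤ -λ`, `H ≤ -400λ`.  Even `i` (`|cos| ≥ 0.7`): `|H| ≤ 22λ`.
`q = -200λ`, `s = 1`, `γ = 100λ ≥ 1/𝕂`. -/
def DG : Prop := ∀ᶠ k : ℝ in atTop, ∀ (a₁ A₁ u₁ I₁ a₂ A₂ u₂ I₂ : ℝ → ℝ) (p₀ N₁ N₂ α ℓ : ℝ),
  Side (KK k) a₁ A₁ u₁ I₁ p₀ N₁ → Side (KK k) a₂ A₂ u₂ I₂ p₀ N₂ → N₂ ≤ N₁ →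
  256 ≤ ℓ * N₂ → ℓ * N₂ ≤ 512 → α ≤ p₀ → p₀ ≤ α + ℓ → Anti a₁ A₁ a₂ A₂ p₀ N₁ N₂ α ℓ →
  AltSys (fun p => 2 * π * k * N₂ ^ 2 * (hh k a₁ A₁ u₁ p + hh k a₂ A₂ u₂ p)) α ℓ N₁ (1 / KK k)

/-- **NC** (from ND, DG). If every `U i` had a point of `E` within `c0/N₁`, get nodes `t i ∈ E`,
strictly increasing, in both ranges, `|t i - t j| ≤ 2ℓ`.  Weights `w_i = 1/∏_{j≠i}(t i - t j)` have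
sign `(-1)^i`, `dd const = 0`, so `γ∑|w_i| ≤ |dd H| ≤ K N₂²(N₁²+N₂²)𝕂^(-2.9) + 4K𝕂^(-2.9)∑|w_i|`,
`∑|w_i| ≥ (2ℓ)⁻⁴ ≥ N₂⁴/1024⁴`: impossible (`γ = 1/2`, `N₁ ≤ 𝕂^0.6 N₂`; or `γ = 1/𝕂`, `N₁ ≤ 2N₂`). -/
def NC : Prop := ∀ᶠ k : ℝ in atTop,
  ∀ (a₁ A₁ u₁ I₁ a₂ A₂ u₂ I₂ : ℝ → ℝ) (p₀ N₁ N₂ α ℓ c : ℝ) (E : Set ℝ),
  Side (KK k) a₁ A₁ u₁ I₁ p₀ N₁ → Side (KK k) a₂ A₂ u₂ I₂ p₀ N₂ → N₂ ≤ N₁ →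
  N₁ ≤ KK k ^ (0.6 : ℝ) * N₂ → 256 ≤ ℓ * N₂ → ℓ * N₂ ≤ 512 → α ≤ p₀ → p₀ ≤ α + ℓ →
  (∀ p ∈ E, |p - p₀| ≤ KK k ^ (0.7 : ℝ) / N₁ →
    |c - I₁ p - I₂ p - hh k a₁ A₁ u₁ p - hh k a₂ A₂ u₂ p| ≤ 4 * KK k ^ (-2.9 : ℝ) / N₂ ^ 2) →
  ∃ U : Set ℝ, MeasurableSet U ∧ U ⊆ Ico α (α + ℓ) ∧ ENNReal.ofReal (c0 * ℓ) ≤ volume U ∧
    ∀ p ∈ U, ∀ p' ∈ E, c0 / N₁ ≤ |p - p'|

def cell (l : ℕ) (i : ℤ) : Set ℝ := Ico ((i : ℝ) / 2 ^ l) (((i : ℝ) + 1) / 2 ^ l)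

def Por (E : Set ℝ) (c : ℝ) (l₁ l : ℕ) (i : ℤ) : Prop :=
  ∃ U : Set ℝ, MeasurableSet U ∧ U ⊆ cell l i ∧ ENNReal.ofReal (c / 2 ^ l) ≤ volume U ∧
    ∀ p ∈ U, ∀ p' ∈ E, 1 / 2 ^ (l + l₁) ≤ |p - p'|

/-- **POR** (no hyps): dyadic mean porosity. `E_{l,n}` = points of `E` with `n` spaced porous levels
in `[l, Lmax]`; claim `vol (E_{l,n} ∩ cell l i) ≤ (1-c)^n / 2^l`, by downward induction on `l`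
(all `n, i`).  If `Por l i`: `E_{l,n+1} ⊆ E_{l+l₁,n}`, and the level-`(l+l₁)` subcells meeting `U`
miss `E` and number `≥ c 2^l₁`.  Otherwise `E_{l,n} ∩ cell l i ⊆ E_{l+1,n}`, two children. -/
def POR : Prop := ∀ (E : Set ℝ) (c : ℝ) (l₁ n Lmax : ℕ), 0 ≤ c → c ≤ 1 → 1 ≤ l₁ →
  E ⊆ Ico 0 1 →
  (∀ p ∈ E, ∃ lv : Fin n → ℕ, (∀ i j, i < j → lv i + l₁ ≤ lv j) ∧
    ∀ i, lv i ≤ Lmax ∧ Por E c l₁ (lv i) ⌊p * 2 ^ lv i⌋) →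
  volume E ≤ ENNReal.ofReal ((1 - c) ^ n)

/-- **MATCH** (no hyps). `A, B` = indices `≤ S/2` of `T₁, T₂` (each `≥ 0.49S + 1/2` many).  The
intervals `[h₁ z ± 0.495)` (`z ∈ A`) and `[h₂ y ± 0.105)` (`y ∈ B` unmatched: `|h₁ z - h₂ y| > 0.6`
for all `z ∈ A`) are pairwise disjoint in `[-0.495, S/2+0.495]`, so unmatched `≤ 0.071S + 2.4`,
matched `≥ 0.419S - 1.9`.  Enumerate matched `y_0 < y_1 < …` (`Finset.orderEmbOfFin`),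
`h₂ y_t ≥ 0.99 t`; use `t = 2, 4, 6, …`. -/
def MATCH : Prop := ∀ (S : ℕ) (h₁ h₂ : ℕ → ℝ) (T₁ T₂ : Finset ℕ),
  T₁ ⊆ Finset.range (S + 1) → T₂ ⊆ Finset.range (S + 1) →
  100 * (Finset.range (S + 1) \ T₁).card ≤ S → 100 * (Finset.range (S + 1) \ T₂).card ≤ S →
  (∀ z ∈ T₁, 0 ≤ h₁ z ∧ h₁ z ≤ z) → (∀ z ∈ T₂, 0 ≤ h₂ z ∧ h₂ z ≤ z) →
  (∀ z ∈ T₁, ∀ z' ∈ T₁, z < z' → h₁ z + 0.99 ≤ h₁ z') →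
  (∀ z ∈ T₂, ∀ z' ∈ T₂, z < z' → h₂ z + 0.99 ≤ h₂ z') →
  ∃ zs ys : Fin (S / 5 - 4) → ℕ,
    (∀ i, zs i ∈ T₁ ∧ ys i ∈ T₂ ∧ 2 * zs i ≤ S ∧ 2 * ys i ≤ S ∧ |h₁ (zs i) - h₂ (ys i)| ≤ 0.6 ∧
      1 ≤ min (h₁ (zs i)) (h₂ (ys i))) ∧
    ∀ i j, i < j → min (h₁ (zs i)) (h₂ (ys i)) + 1.3 ≤ min (h₁ (zs j)) (h₂ (ys j))

/-- **PLISS** (from RS). Wronskian: `1 ≤ 2 nn ψ S · ne U S`, so `ne U S ≥ 𝕂^((1-δ)S)/2`.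
`a_j = log ne U j`, `d_j = log 𝕂 - (a_{j+1} - a_j) ≥ 0`, `∑_{j<S} d_j ≤ δ S log 𝕂 + log 2`.
RS with `c = 0.01 log 𝕂`, `T = S` counts `¬FPl`; with `d (S-1-j)` (`t = S - z`) counts `¬BPl`. -/
def PLISS : Prop := ∀ᶠ 𝕂 : ℝ in atTop, ∀ U : ℕ → ℝ, Bd 𝕂 U → ∀ (δ r : ℝ) (S : ℕ), 0 ≤ δ →
  Loc 𝕂 δ S U r →
  (((Finset.range (S + 1)).filter (fun z => ¬ (BPl 𝕂 U z ∧ FPl 𝕂 U z S))).card : ℝ) ≤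
    200 * δ * S + 1

/-- **CNT** (no hyps). `1 ≤ x^(|Tᶜ|)/x^m` on the counted sets, `∑_T x^(|range n \ T|) = (1+x)^n`
(`Finset.prod_add`/`Finset.sum_pow_mul_eq_add_pow`). -/
def CNT : Prop := ∀ (x : ℝ) (n m : ℕ), 0 < x → x ≤ 1 →
  (((Finset.range n).powerset.filter (fun T => (Finset.range n \ T).card ≤ m)).card : ℝ) ≤
    (1 + x) ^ n / x ^ m

/-- slice of `Rev` at `x₀ = b` with prescribed Pliss sets. -/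
def Epat (k δ : ℝ) (S : ℕ) (b : ℝ) (T₁ T₂ : Finset ℕ) : Set ℝ :=
  {p | p ∈ Ico (0 : ℝ) 1 ∧
    (∃ r : ℝ, Loc (KK k) δ S (pot k b p) r ∧ Loc (KK k) δ S (pot k b (Fm k b - p)) (Wm k b - r)) ∧
    (∀ z ∈ T₁, BPl (KK k) (pot k b p) z ∧ FPl (KK k) (pot k b p) z S) ∧
    ∀ z ∈ T₂, BPl (KK k) (pot k b (Fm k b - p)) z ∧ FPl (KK k) (pot k b (Fm k b - p)) z S}

/-- **HOLE** (from SIDE, REFL, TAIL, NC): one matched pair gives a hole.  SIDE at `(b, p₀, z)` and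
SIDE + REFL (`c = Fm k b`) at `(b, Fm k b - p₀, y)`; apply NC with the faster side first,
`c = Wm k b`.  For `p ∈ Epat` in range: `rr (z+2) = rr (z+1) + 1/(η_{z+1}η_{z+2})` (`rr_succ`),
`η_{z+2} = W η_{z+1} - η_z` so the last term is `hh`; `ne (pot k b p) z ≥ |A p| ≥ 0.9 N`; TAIL on
both sides gives error `≤ 2·𝕂^(-2.9)/(0.81 min²)`. -/
def HOLE : Prop := ∀ᶠ k : ℝ in atTop, ∀ (δ b p₀ α ℓ : ℝ) (S z y : ℕ) (T₁ T₂ : Finset ℕ),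
  δ ≤ 1 / 100 → 4 ≤ S → p₀ ∈ Epat k δ S b T₁ T₂ → z ∈ T₁ → y ∈ T₂ → 1 ≤ z → 1 ≤ y →
  2 * z ≤ S → 2 * y ≤ S →
  max (ne (pot k b p₀) z) (ne (pot k b (Fm k b - p₀)) y) ≤
    KK k ^ (0.6 : ℝ) * min (ne (pot k b p₀) z) (ne (pot k b (Fm k b - p₀)) y) →
  256 ≤ ℓ * min (ne (pot k b p₀) z) (ne (pot k b (Fm k b - p₀)) y) →
  ℓ * min (ne (pot k b p₀) z) (ne (pot k b (Fm k b - p₀)) y) ≤ 512 → α ≤ p₀ → p₀ ≤ α + ℓ →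
  ∃ U : Set ℝ, MeasurableSet U ∧ U ⊆ Ico α (α + ℓ) ∧ ENNReal.ofReal (c0 * ℓ) ≤ volume U ∧
    ∀ p ∈ U, ∀ p' ∈ Epat k δ S b T₁ T₂,
      c0 / max (ne (pot k b p₀) z) (ne (pot k b (Fm k b - p₀)) y) ≤ |p - p'|

/-- **PAT** (from HOLE, MATCH, POR). For `p₀ ∈ Epat`: heights `h z = log (ne z)/log 𝕂` on `T_i`
(`0 ≤ h z` from BPl at `j = 0`, `ne U 0 = 1`; `≤ z` by `ne_le_pow`; gaps by FPl), MATCH; level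
`l = ⌊log₂ (N₂/256)⌋` (`N₂ = min ≥ 𝕂`), `ℓ = 2^(-l)`, `α = ⌊p₀ 2^l⌋/2^l`, `l₁ = ⌊log₂ 𝕂⌋`
(`2^(-l-l₁) ≤ 2ℓ/𝕂 ≤ 1024 𝕂^(-0.4)/N₁ ≤ c0/N₁`; spacing `1.3 log₂𝕂 - 1 ≥ l₁`),
`Lmax = S ⌈log₂ 𝕂⌉`.  (If `S < 25` the exponent is `0`.) -/
def PAT : Prop := ∀ᶠ k : ℝ in atTop, ∀ (δ b : ℝ) (S : ℕ) (T₁ T₂ : Finset ℕ), δ ≤ 1 / 100 →
  T₁ ⊆ Finset.range (S + 1) → T₂ ⊆ Finset.range (S + 1) →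
  100 * (Finset.range (S + 1) \ T₁).card ≤ S → 100 * (Finset.range (S + 1) \ T₂).card ≤ S →
  volume (Epat k δ S b T₁ T₂) ≤ ENNReal.ofReal ((1 - c0) ^ (S / 5 - 4))

/-- **REST** (from PAT, PLISS, CNT). `γ₀ = -log(1-c0)`; pick `x ∈ (0,1]` with `2 log(1+x) ≤ γ₀/20`,
then `δ ≤ 1/40000` with `400 δ log(1/x) ≤ γ₀/20`; `c = γ₀/10`.  For `S ≥ 200`, `m = ⌊200δS+1⌋₊`,
`100 m ≤ S`.  The event is open (`measurableSet_Rev`); Fubini in `b = ω.1`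
(`fwd (VV k ω) 1 = pot k b p`, `bwd (VV k ω) (-1) = pot k b (Fm k b - p)`, `VV k ω 0 = Wm k b`);
each slice is covered by the `Epat` with `T_i` = the Pliss sets (PLISS), at most
`((1+x)^(S+1)/x^m)²` pairs.  `S < 200`: `Pr ≤ 1`. -/
def REST : Prop := ∃ δ : ℝ, 0 < δ ∧ δ ≤ 1 / 1000 ∧ ∃ c : ℝ, 0 < c ∧ ∃ C : ℝ,
  ∀ᶠ k : ℝ in atTop, ∀ S : ℕ, Pr k (Rev (KK k) δ S) ≤ C * Real.exp (-c * S)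

/-! ## Part 5: bootstrap and conclusion -/

/-- **BOOT** (from DET, DET2, MAX, SHIFT, QB, DB, REST). `θ₀ = δ/7`, `c₁ = θ₀²/32`,
`u_N = Pr(¬Good (θ₀/2) N (fwd V 1))`, `q = Pr(Small c₁ (V 0))`, `ε = θ₀ c₁/(24·288)`.
Choose `L₁ ≥ 8/θ₀` with `∑_{L ≥ L₁} C exp(-c(⌊θ₀L/4⌋-1)) ≤ εθ₀/24`, then `k` with
`q(1 + 801/c₁ + L₁) ≤ εθ₀/24`.  Induction `u_N ≤ ε` (`u_0 = 0`): with `θ` from DB,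
DET+MAX+SHIFT: `Pr(¬Good θ N) ≤ (801q + 288u_N²)/c₁ + L₁ q + ∑_L …`;
DET2+MAX: `u_{N+1} ≤ (8/θ₀)(Pr(¬Good θ N) + q)`. -/
def BOOT : Prop := ∃ θ : ℝ, 0 < θ ∧ θ ≤ 1 / 100 ∧ ∀ᶠ k : ℝ in atTop, ∀ N : ℕ,
  Pr k (fun V => ¬ Good (KK k) θ N (fwd V 1)) ≤ 1 / 2

/-- **FINAL** (from BOOT, MG). The decreasing closed sets `G_N = {(b,p) | Good θ N (pot k b p)}` have
`mu G_N ≥ 1/2`, so `G = ⋂ G_N` has positive volume in `ℝ²`; `G` is `ℤ²`-periodic.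
`(standardMapLift k)^[n] (x,y) = (ξ (n+1), ξ (n+1) - ξ n)`, `ξ = xi k (x-y) x`; the derivative in
direction `(1,1)` is `(η (n+1), η (n+1) - η n)`, so `‖fderiv‖ ≥ ne n/2 ≥ 𝕂^(0.99 n)/2` (MG).
`{(x,y) | (x-y,x) ∈ G}` is periodic and not null (linear automorphism), so its part in the unit
square is not null (countably many translates). -/
def FINAL : Prop := ∃ k₀ : ℝ, 0 < k₀ ∧ ∀ k : ℝ, k₀ ≤ k →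
  0 < MeasureTheory.volume ({p : ℝ × ℝ | ∃ c : ℝ, 0 < c ∧
      ∃ᶠ n : ℕ in Filter.atTop, c * n ≤ Real.log
        ‖fderiv ℝ (Crest.AnalysisR.StandardFamily.standardMapLift k)^[n] p‖} ∩
    Set.Ico (0 : ℝ) 1 ×ˢ Set.Ico (0 : ℝ) 1)

end

end Crest.Agent.R128
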