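import Crest.Agent.R128.Basic

/-! Row 128, task FINAL. -/

set_option autoImplicit false

namespace Crest.Agent.R128

open Filter MeasureTheory Set Crest.AnalysisR.StandardFamily

lemma final_iter (k : ℝ) (n : ℕ) : (standardMapLift k)^[n] = fun q : ℝ × ℝ =>
    (xi k (q.1 - q.2) q.1 (n + 1), xi k (q.1 - q.2) q.1 (n + 1) - xi k (q.1 - q.2) q.1 n) := by
  funext q
  induction n with
  | zero => simp [xi]
  | succ n ih =>
    rw [Function.iterate_succ_apply', ih, xi_succ_succ]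
    simp only [standardMapLift, Fm]
    ext <;> simp only <;> ring

lemma final_deriv (k : ℝ) (n : ℕ) (q : ℝ × ℝ) :
    ne (pot k (q.1 - q.2) q.1) n ≤ 2 * ‖fderiv ℝ (standardMapLift k)^[n] q‖ := by
  have hL : HasFDerivAt (fun q : ℝ × ℝ => (q.1 - q.2, q.1))
      ((ContinuousLinearMap.fst ℝ ℝ ℝ - ContinuousLinearMap.snd ℝ ℝ ℝ).prod
        (ContinuousLinearMap.fst ℝ ℝ ℝ)) q :=
    (hasFDerivAt_fst.sub hasFDerivAt_snd).prodMk hasFDerivAt_fst
  have h := fun j => (hasFDerivAt_xi k j (q.1 - q.2, q.1)).comp q hL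
  have hD := (h (n + 1)).prodMk ((h (n + 1)).sub (h n))
  have e : fderiv ℝ (standardMapLift k)^[n] q (1, 1) =
      (eta (pot k (q.1 - q.2) q.1) (n + 1),
        eta (pot k (q.1 - q.2) q.1) (n + 1) - eta (pot k (q.1 - q.2) q.1) n) := by
    rw [final_iter]
    refine (congrArg (fun T : ℝ × ℝ →L[ℝ] ℝ × ℝ => T (1, 1)) hD.fderiv).trans ?_
    simp
  have h1 := (fderiv ℝ (standardMapLift k)^[n] q).le_opNorm (1, 1)
  rw [e, Prod.norm_mk, Prod.norm_mk, norm_one, max_self, mul_one, Real.norm_eq_abs,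
    Real.norm_eq_abs, max_le_iff] at h1
  have h2 := abs_sub (eta (pot k (q.1 - q.2) q.1) (n + 1))
    (eta (pot k (q.1 - q.2) q.1) (n + 1) - eta (pot k (q.1 - q.2) q.1) n)
  rw [sub_sub_cancel] at h2
  have h3 := norm_nonneg (fderiv ℝ (standardMapLift k)^[n] q)
  exact max_le (by linarith [h1.1, h1.2]) (by linarith [h1.1])

theorem final_proof (hB : BOOT) (hM : MG) : FINAL := by
  obtain ⟨θ, hθ0, hθ1, hB⟩ := hB
  obtain ⟨k₀, hk₀⟩ := eventually_atTop.1
    (hB.and ((ev_KK hM).and ((ev_KK (ev_const_le_log 3)).and (ev_KK (eventually_gt_atTop 0)))))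
  refine ⟨max k₀ 1, lt_max_of_lt_right one_pos, fun k hk => ?_⟩
  obtain ⟨h1, h2, h3, h4⟩ := hk₀ k ((le_max_left _ _).trans hk)
  have hk0 : 0 ≤ k := zero_le_one.trans ((le_max_right _ _).trans hk)
  let G : Set (ℝ × ℝ) := {ω | ∀ N, Good (KK k) θ N (pot k ω.1 ω.2)}
  have hG : volume G ≠ 0 := by
    intro h0
    have e1 : mu G = 0 := by rw [mu_apply]; exact measure_mono_null inter_subset_left h0
    have e2 : Gᶜ = ⋃ N, {ω | ¬ Good (KK k) θ N (fwd (VV k ω) 1)} := by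
      ext ω; simp [G, fwd_VV_one]
    have e3 : mu Gᶜ ≤ ENNReal.ofReal (1 / 2) := by
      have hm : Monotone fun N => {ω | ¬ Good (KK k) θ N (fwd (VV k ω) 1)} :=
        fun N N' hN ω hω hg => hω fun i hi => hg i (hi.trans hN)
      rw [e2, hm.measure_iUnion]
      exact iSup_le fun N => (ENNReal.le_ofReal_iff_toReal_le (measure_ne_top _ _)
        (by norm_num)).2 (h1 N)
    have e4 := (measure_univ_le_add_compl (μ := mu) G).trans (add_le_add e1.le e3)
    rw [measure_univ, zero_add, ENNReal.one_le_ofReal] at e4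
    norm_num at e4
  rw [pos_iff_ne_zero]
  intro h0
  let H : Set (ℝ × ℝ) := {q | (q.1 - q.2, q.1) ∈ G} ∩ Ico (0 : ℝ) 1 ×ˢ Ico (0 : ℝ) 1
  have hH : volume H = 0 := by
    refine measure_mono_null (inter_subset_inter_left _ fun q hq => ?_) h0
    refine ⟨1, one_pos, Eventually.frequently ?_⟩
    filter_upwards [eventually_ge_atTop 1] with n hn
    have hn' : (1 : ℝ) ≤ n := by exact_mod_cast hn
    have e1 := hq n n le_rfl
    rw [h2 θ hθ0.le hθ1 _ (bd_pot hk0 _ _) n (hq n) n le_rfl] at e1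
    have e2 := e1.trans (final_deriv k n q)
    have hpos : 0 < ‖fderiv ℝ (standardMapLift k)^[n] q‖ := by
      have := Real.rpow_pos_of_pos h4 ((1 - θ) * n)
      linarith
    have e3 := Real.log_le_log (Real.rpow_pos_of_pos h4 _) e2
    rw [Real.log_rpow h4, Real.log_mul two_ne_zero hpos.ne'] at e3
    have e4 := Real.log_two_lt_d9
    have e5 : (1 - θ) * n * 3 ≤ (1 - θ) * n * Real.log (KK k) :=
      mul_le_mul_of_nonneg_left h3 (mul_nonneg (by linarith) (by linarith))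
    nlinarith
  refine hG (measure_mono_null (t := ⋃ a : ℤ × ℤ,
    (fun q : ℝ × ℝ => (q.1 - q.2 + a.1, q.1 + a.2)) '' H) (fun ω hω => ?_)
    (measure_iUnion_null fun a =>
      addHaar_image_eq_zero_of_differentiableOn_of_addHaar_eq_zero volume (by fun_prop) hH))
  have e : ((Int.fract ω.2 - Int.fract (ω.2 - ω.1) + ((⌊ω.2⌋ - ⌊ω.2 - ω.1⌋ : ℤ) : ℝ),
      Int.fract ω.2 + ((⌊ω.2⌋ : ℤ) : ℝ)) : ℝ × ℝ) = ω := by
    ext <;> simp only [Int.fract] <;> push_cast <;> ring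
  refine mem_iUnion.2 ⟨(⌊ω.2⌋ - ⌊ω.2 - ω.1⌋, ⌊ω.2⌋), (Int.fract ω.2, Int.fract (ω.2 - ω.1)),
    ⟨fun N => ?_, ⟨Int.fract_nonneg _, Int.fract_lt_one _⟩, Int.fract_nonneg _,
      Int.fract_lt_one _⟩, e⟩
  have := hω N
  rw [← e] at this
  simpa only [pot_add_int] using this

end Crest.Agent.R128
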