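import Crest.Agent.R128.Basic

/-! # Row 128, task FOUR -/

set_option autoImplicit false

namespace Crest.Agent.R128

open MeasureTheory Set Filter
open scoped Real BigOperators Classical

noncomputable section

namespace Fo

theorem dd_sum (z : ℕ) (g : ℕ → ℝ → ℝ) (t : Fin 5 → ℝ) :
    dd (fun p => ∑ i ∈ Finset.range z, g i p) t = ∑ i ∈ Finset.range z, dd (g i) t := by
  simp only [dd, Finset.sum_div]
  exact Finset.sum_comm

theorem geom (z : ℕ) : ∑ i ∈ Finset.range z, (1 / 2 : ℝ) ^ (z - i) ≤ 1 := by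
  induction z with
  | zero => simp
  | succ z ih =>
    rw [Finset.sum_range_succ, Nat.add_sub_cancel_left]
    have : ∑ i ∈ Finset.range z, (1 / 2 : ℝ) ^ (z + 1 - i) =
        1 / 2 * ∑ i ∈ Finset.range z, (1 / 2 : ℝ) ^ (z - i) := by
      rw [Finset.mul_sum]
      refine Finset.sum_congr rfl fun i hi => ?_
      rw [show z + 1 - i = (z - i) + 1 by have := Finset.mem_range.1 hi; omega, pow_succ']
    rw [this]
    linarith

theorem lower {a : ℂ} {r n : ℝ} (h : ‖a - r‖ ≤ n / 10) (hr : |r| = n) : 0.9 * n ≤ ‖a‖ := by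
  have := norm_sub_norm_le (r : ℂ) a
  rw [norm_sub_rev, Complex.norm_real, Real.norm_eq_abs, hr] at this
  linarith

theorem term (hD : DD4) {k b p₀ R c n n' : ℝ} (hR : 0 < R) {i m m' : ℕ} (hm : m = i ∨ m = i + 1)
    (hm' : m' = i + 1 ∨ m' = i + 1 + 1) (hn : 0 < n) (hn' : 0 < n')
    (h1 : ∀ w : ℂ, ‖w - p₀‖ ≤ R → 0.9 * n ≤ ‖eta (potC k b w) m‖ ∧
      0.9 * n' ≤ ‖eta (potC k b w) m'‖ ∧ ‖potC k b w (i + 1)‖ ≤ 2 * KK k)
    (hc : 1.3 ≤ c) (hc' : m' = m + 2 → 3 * KK k ≤ c) {t : Fin 5 → ℝ} (ht : StrictMono t)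
    (ht' : ∀ j, |t j - p₀| ≤ R / 2) :
    |dd (fun p => rr (pot k b p) m' - rr (pot k b p) m) t| ≤ 32 * (c / (n * n')) / R ^ 4 := by
  have hne : ∀ w : ℂ, ‖w - p₀‖ ≤ R → eta (potC k b w) m ≠ 0 ∧ eta (potC k b w) m' ≠ 0 := by
    intro w hw
    obtain ⟨a1, a2, -⟩ := h1 w hw
    exact ⟨norm_pos_iff.1 (by linarith), norm_pos_iff.1 (by linarith)⟩
  refine hD (fun w => rr (potC k b w) m' - rr (potC k b w) m) _ p₀ R _ hR ?_ ?_ ?_ t ht ht'
  · intro w hw
    obtain ⟨a1, a2⟩ := hne w (mem_closedBall_iff_norm.1 hw)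
    exact ((((differentiable_zetaC k b m') w).neg.div ((differentiable_etaC k b m') w) a2).sub
      (((differentiable_zetaC k b m) w).neg.div ((differentiable_etaC k b m) w)
        a1)).differentiableWithinAt
  · intro w hw
    obtain ⟨a1, a2⟩ := hne w (mem_closedBall_iff_norm.1 hw)
    obtain ⟨b1, b2, b3⟩ := h1 w (mem_closedBall_iff_norm.1 hw)
    have hp : 0.81 * (n * n') ≤ ‖eta (potC k b w) m‖ * ‖eta (potC k b w) m'‖ := by
      nlinarith [mul_le_mul b1 b2 (by positivity) (norm_nonneg _)]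
    have hnn : 0 < n * n' := mul_pos hn hn'
    have hcase : m' = m ∨ m' = m + 1 ∨ (m' = m + 2 ∧ m = i) := by omega
    rcases hcase with rfl | rfl | ⟨rfl, rfl⟩
    · simp only [sub_self, norm_zero]
      positivity
    · simp only [rr_succ _ _ a1 a2, norm_div, norm_one, norm_mul]
      rw [div_le_div_iff₀ (by linarith) hnn]
      nlinarith
    · simp only [rr_succ_succ _ _ a1 a2, norm_div, norm_mul]
      have := hc' rfl
      have h0 := norm_nonneg (potC k b w (m + 1))
      rw [div_le_div_iff₀ (by linarith) hnn]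
      nlinarith [mul_le_mul_of_nonneg_right b3 hnn.le, mul_le_mul this hp (by positivity) (by linarith),
        mul_nonneg (show 0 ≤ KK k by linarith) hnn.le]
  · intro x _
    simp only [rrC_ofReal]
    push_cast
    rfl

end Fo

open Fo in
theorem four_proof (hC : CST) (hD : DD4) : FOUR := by
  filter_upwards [hC, ev_KK (ev_const_le_rpow (10 ^ 14) 0.01 (by norm_num)),
    eventually_ge_atTop (0 : ℝ)] with k hC hx hk
  intro b p₀ z hz hB t ht ht'
  have hU := bd_pot hk b p₀
  have hK0 : 0 < KK k := by linarith [hU.one_le]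
  have hC' := hC b p₀ z hB
  set U := pot k b p₀ with hUdef
  set N := ne U z with hN
  obtain ⟨x, hxdef⟩ : ∃ x, x = KK k ^ (0.01 : ℝ) := ⟨_, rfl⟩
  rw [← hxdef] at hx
  have hx1 : 1 ≤ x := by linarith
  have hx0 : 0 < x := by linarith
  have hpow : ∀ (a : ℝ) (e : ℕ), a = 0.01 * e → KK k ^ a = x ^ e := fun a e h => by
    rw [h, Real.rpow_mul hK0.le, Real.rpow_natCast, hxdef]
  have hK : KK k = x ^ 100 := by rw [← hpow 1 100 (by norm_num), Real.rpow_one]
  have hN0 : 0 < N := ne_pos U z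
  have hup : ∀ j s : ℕ, j + s = z → 1 ≤ s → x ^ (99 * s) * ne U j ≤ N := by
    intro j s h hs
    have := hB j (by omega)
    rwa [hpow _ (99 * s) (by rw [← h]; push_cast; ring)] at this
  have hlo : ∀ j s : ℕ, j + s = z → N ≤ x ^ (100 * s) * ne U j := by
    intro j s h
    have := ne_add_le hU j s
    rwa [h, hK, ← pow_mul] at this
  let m : ℕ → ℕ := fun i => if |eta U i| ≤ |eta U (i + 1)| then i + 1 else i
  have hm : ∀ i, (m i = i ∨ m i = i + 1) ∧ |eta U (m i)| = ne U i := by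
    intro i
    simp only [m]
    split_ifs with h
    · exact ⟨Or.inr rfl, (max_eq_right h).symm⟩
    · exact ⟨Or.inl rfl, (max_eq_left (not_le.1 h).le).symm⟩
  have hm0 : m 0 = 1 := by simp [m]
  have hmj : ∀ j, ne U j < ne U (j + 1) → m (j + 1) = j + 1 + 1 := by
    intro j h
    refine (hm (j + 1)).1.resolve_left fun e => ?_
    have h1 := (hm (j + 1)).2
    rw [e] at h1
    have h2 : |eta U (j + 1)| ≤ ne U j := abs_succ_le_nn _ j
    linarith
  have hmz : m z = z + 1 := by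
    obtain ⟨y, rfl⟩ : ∃ y, z = y + 1 := ⟨z - 1, by omega⟩
    refine hmj y (lt_of_lt_of_le ?_ (hup y 1 rfl le_rfl))
    exact lt_mul_of_one_lt_left (ne_pos U y) (one_lt_pow₀ (by linarith) (by norm_num))
  have hmz' : ∀ y, y + 1 = z → m y = y + 1 := by
    intro y hy
    rcases y with _ | y
    · exact hm0
    refine hmj y ?_
    have h1 := (hup y 2 hy (by norm_num)).trans (hlo (y + 1) 1 hy)
    have h2 : x ^ (100 * 1) * ne U y < x ^ (99 * 2) * ne U y :=
      mul_lt_mul_of_pos_right (pow_lt_pow_right₀ (by linarith) (by norm_num)) (ne_pos U y)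
    exact lt_of_mul_lt_mul_left (h2.trans_le h1) (by positivity)
  have e : (fun p => rr (pot k b p) (z + 1)) =
      fun p => ∑ i ∈ Finset.range z, (rr (pot k b p) (m (i + 1)) - rr (pot k b p) (m i)) := by
    funext p
    rw [Finset.sum_range_sub (fun i => rr (pot k b p) (m i)), hm0, hmz, rr_one, sub_zero]
  have h29 : KK k ^ (-2.9 : ℝ) = 1 / x ^ 290 := by
    rw [Real.rpow_neg hK0.le, hpow 2.9 290 (by norm_num), one_div]
  rw [e, dd_sum, h29]
  refine (Finset.abs_sum_le_sum_abs _ _).trans ?_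
  refine le_trans ?_ (mul_le_of_le_one_right (by positivity) (geom z))
  rw [Finset.mul_sum]
  refine Finset.sum_le_sum fun i hi => ?_
  obtain ⟨s, hs⟩ : ∃ s, i + (s + 1) = z := ⟨z - i - 1, by have := Finset.mem_range.1 hi; omega⟩
  have hR : Rad (KK k) N z (i + 1) = x ^ (98 * (s + 1)) / (1000 * N) := by
    rw [Rad, hpow _ (98 * (s + 1)) (by rw [← hs]; push_cast; ring)]
  have hR0 : 0 < Rad (KK k) N z (i + 1) := by rw [hR]; positivity
  have hcst : ∀ w : ℂ, ‖w - p₀‖ ≤ Rad (KK k) N z (i + 1) → ∀ j ≤ i + 1,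
      0.9 * ne U j ≤ ‖eta (potC k b w) (m j)‖ := by
    intro w hw j hj
    obtain ⟨a1, a2, -⟩ := hC' (i + 1) (by omega) _ hR0.le le_rfl w hw j hj
    rw [div_self hR0.ne', one_mul] at a1 a2
    refine lower ?_ (hm j).2
    rcases (hm j).1 with h | h <;> rw [h]
    · exact a1
    · exact a2
  have key : ∀ c : ℝ, 1.3 ≤ c → (m (i + 1) = m i + 2 → 3 * KK k ≤ c) →
      |dd (fun p => rr (pot k b p) (m (i + 1)) - rr (pot k b p) (m i)) t| ≤
        32 * (c * x ^ (200 * s + 100) / N ^ 2) / (x ^ (98 * (s + 1)) / (1000 * N)) ^ 4 := by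
    intro c hc hc'
    refine (term hD hR0 (hm i).1 (hm (i + 1)).1 (ne_pos U i) (ne_pos U (i + 1)) (fun w hw =>
      ⟨hcst w hw i (by omega), hcst w hw (i + 1) le_rfl,
        (hC' (i + 1) (by omega) _ hR0.le le_rfl w hw (i + 1) le_rfl).2.2 (by omega)⟩) hc hc' ht
      fun j => (ht' j).trans ?_).trans ?_
    · rw [hR, hpow 0.7 70 (by norm_num), div_div, div_le_div_iff₀ hN0 (by positivity)]
      have h1 : x ^ 71 ≤ x ^ (98 * (s + 1)) := pow_le_pow_right₀ hx1 (by omega)
      have h2 : x ^ 70 * 2000 ≤ x ^ 71 := by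
        rw [pow_succ x 70]
        exact mul_le_mul_of_nonneg_left (by linarith) (by positivity)
      nlinarith
    · rw [hR]
      refine div_le_div_of_nonneg_right (mul_le_mul_of_nonneg_left ?_ (by norm_num)) (by positivity)
      have h1 := hlo i (s + 1) hs
      have h2 := hlo (i + 1) s (by omega)
      have h3 := mul_le_mul h1 h2 hN0.le (hN0.le.trans h1)
      rw [div_le_div_iff₀ (mul_pos (ne_pos U i) (ne_pos U (i + 1))) (by positivity), mul_assoc]
      refine mul_le_mul_of_nonneg_left (le_trans (le_of_eq (sq N)) (h3.trans (le_of_eq ?_)))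
        (by linarith)
      ring
  have simp1 : ∀ c : ℝ,
      32 * (c * x ^ (200 * s + 100) / N ^ 2) / (x ^ (98 * (s + 1)) / (1000 * N)) ^ 4 =
        N ^ 2 * (1 / x ^ 290) * (32 * 10 ^ 12 * c / x ^ (192 * s + 2)) := by
    intro c
    field_simp
    ring
  rw [show z - i = s + 1 by omega]
  rcases Nat.eq_zero_or_pos s with rfl | hs0
  · refine (key 1.3 le_rfl fun h => ?_).trans ?_
    · rw [hmz' i hs, show i + 1 = z from hs, hmz] at h
      omega
    · rw [simp1]
      refine mul_le_mul_of_nonneg_left ?_ (by positivity)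
      rw [div_le_iff₀ (by positivity)]
      norm_num
      nlinarith
  · refine (key (3 * KK k) (by linarith [hU.one_le]) fun _ => le_rfl).trans ?_
    rw [simp1]
    refine mul_le_mul_of_nonneg_left ?_ (by positivity)
    rw [div_le_iff₀ (by positivity), hK, one_div, inv_pow, ← div_eq_inv_mul,
      le_div_iff₀ (by positivity)]
    have h1 : (2 : ℝ) ^ (s + 1) ≤ x ^ (s + 1) := pow_le_pow_left₀ (by norm_num) (by linarith) _
    have h2 : x ^ (101 + (s + 1)) ≤ x ^ (192 * s + 2) := pow_le_pow_right₀ hx1 (by omega)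
    have h3 : 32 * 10 ^ 12 * (3 * x ^ 100) ≤ x ^ 101 := by
      rw [pow_succ x 100]
      nlinarith [pow_pos hx0 100]
    rw [pow_add] at h2
    exact (mul_le_mul h3 h1 (by positivity) (by positivity)).trans h2

end

end Crest.Agent.R128
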