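import Crest.Agent.R128.Basic

/-! Row 128, task GROM: Gromov product at a cut gives a localized solution. -/

set_option autoImplicit false

namespace Crest.Agent.R128

open MeasureTheory Set Filter
open scoped Real BigOperators Classical

namespace GromAux

lemma back_bound {𝕂 : ℝ} {U : ℕ → ℝ} (hU : Bd 𝕂 U) (a b c d : ℝ) (L s m : ℕ)
    (hm : m = L ∨ m = L + 1) (M : ℝ) (hM : |sol U c d m| = M) (hMpos : 0 < M)
    (hΨ : |sol U a b m| ≤ 1) (hs : s ≤ L) (hφ : nn (sol U c d) 0 ≤ 1) :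
    nn (sol U a b) (L - s) ≤ 𝕂 ^ s * (|a * d - b * c| / M) + 𝕂 ^ (L - s) / M := by
  have h1 := hU.one_le
  have hne : sol U c d m ≠ 0 := by
    intro h; rw [h] at hM; simp at hM; linarith
  set β := sol U a b m / sol U c d m with hβ
  have hD : ∀ j, sol U (a - β * c) (b - β * d) j = sol U a b j - β * sol U c d j := by
    intro j; rw [sol_eq, sol_eq U a b, sol_eq U c d]; ring
  have hDm : sol U (a - β * c) (b - β * d) m = 0 := by
    rw [hD, hβ]; field_simp; ring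
  have hW := wronsk U (a - β * c) (b - β * d) c d L
  have hW' : (a - β * c) * d - (b - β * d) * c = a * d - b * c := by ring
  rw [hW'] at hW
  have hnn : nn (sol U (a - β * c) (b - β * d)) L ≤ |a * d - b * c| / M := by
    rw [nn_le_iff]
    rcases hm with rfl | rfl
    · refine ⟨by rw [hDm]; simp; positivity, ?_⟩
      rw [le_div_iff₀ hMpos, ← hW, hDm, ← hM, ← abs_mul]
      simp
    · refine ⟨?_, by rw [hDm]; simp; positivity⟩
      rw [le_div_iff₀ hMpos, ← hW, hDm, ← hM, ← abs_mul]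
      simp
  have hβ1 : |β| ≤ 1 / M := by
    rw [hβ, abs_div, hM]; gcongr
  have hb1 : nn (sol U (a - β * c) (b - β * d)) (L - s) ≤ 𝕂 ^ s * (|a * d - b * c| / M) := by
    have := nn_le_add hU (a - β * c) (b - β * d) (L - s) s
    rw [Nat.sub_add_cancel hs] at this
    refine this.trans ?_
    gcongr
  have hb2 : nn (sol U c d) (L - s) ≤ 𝕂 ^ (L - s) := by
    have := nn_add_le hU c d 0 (L - s)
    rw [zero_add] at this
    refine this.trans ?_
    have h0 : (0 : ℝ) ≤ 𝕂 ^ (L - s) := by positivity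
    nlinarith
  have key : ∀ j, (j = L - s ∨ j = L - s + 1) →
      |sol U a b j| ≤ 𝕂 ^ s * (|a * d - b * c| / M) + 𝕂 ^ (L - s) / M := by
    intro j hj
    have e : sol U a b j = sol U (a - β * c) (b - β * d) j + β * sol U c d j := by
      rw [hD]; ring
    rw [e]
    refine (abs_add_le _ _).trans (add_le_add ((abs_le_nn_of _ hj).trans hb1) ?_)
    rw [abs_mul]
    have := (abs_le_nn_of (sol U c d) hj).trans hb2
    calc |β| * |sol U c d j| ≤ 1 / M * 𝕂 ^ (L - s) := by gcongr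
      _ = _ := by ring
  rw [nn_le_iff]
  exact ⟨key _ (Or.inl rfl), key _ (Or.inr rfl)⟩

/-- initial values of a solution vanishing at one of `i, i+1`. -/
lemma init_bound (U : ℕ → ℝ) (a b : ℝ) (i m : ℕ) (hm : m = i ∨ m = i + 1)
    (h0 : sol U a b m = 0) :
    |a| ≤ nn (sol U a b) i * Mx U i ∧ |b| ≤ nn (sol U a b) i * Mx U i := by
  have w1 := wronsk U a b 0 1 i
  have w2 := wronsk U a b 1 0 i
  have e1 : |eta U i| ≤ Mx U i := (abs_le_nn _ i).trans (ne_le_Mx U i)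
  have e2 : |eta U (i + 1)| ≤ Mx U i := (abs_succ_le_nn _ i).trans (ne_le_Mx U i)
  have z1 : |zeta U i| ≤ Mx U i := (abs_le_nn _ i).trans (nn_zeta_le_Mx U i)
  have z2 : |zeta U (i + 1)| ≤ Mx U i := (abs_succ_le_nn _ i).trans (nn_zeta_le_Mx U i)
  have p1 := abs_le_nn (sol U a b) i
  have p2 := abs_succ_le_nn (sol U a b) i
  have p0 := nn_nonneg (sol U a b) i
  change sol U a b i * eta U (i + 1) - sol U a b (i + 1) * eta U i = _ at w1
  change sol U a b i * zeta U (i + 1) - sol U a b (i + 1) * zeta U i = _ at w2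
  rcases hm with rfl | rfl
  · rw [h0] at w1 w2
    have ea : a = -(sol U a b (m + 1) * eta U m) := by linarith
    have eb : b = sol U a b (m + 1) * zeta U m := by linarith
    constructor
    · calc |a| = |sol U a b (m + 1)| * |eta U m| := by
            conv_lhs => rw [ea]
            rw [abs_neg, abs_mul]
        _ ≤ _ := by gcongr
    · calc |b| = |sol U a b (m + 1)| * |zeta U m| := by
            conv_lhs => rw [eb]
            rw [abs_mul]
        _ ≤ _ := by gcongr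
  · rw [h0] at w1 w2
    have ea : a = sol U a b i * eta U (i + 1) := by linarith
    have eb : b = -(sol U a b i * zeta U (i + 1)) := by linarith
    constructor
    · calc |a| = |sol U a b i| * |eta U (i + 1)| := by
            conv_lhs => rw [ea]
            rw [abs_mul]
        _ ≤ _ := by gcongr
    · calc |b| = |sol U a b i| * |zeta U (i + 1)| := by
            conv_lhs => rw [eb]
            rw [abs_neg, abs_mul]
        _ ≤ _ := by gcongr

lemma exists_col (U : ℕ → ℝ) (L : ℕ) : ∃ (c d : ℝ) (m : ℕ), (m = L ∨ m = L + 1) ∧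
    |sol U c d m| = Mx U L ∧ nn (sol U c d) 0 ≤ 1 ∧
    ∀ a b B : ℝ, |a| ≤ B → |b| ≤ B → |a * d - b * c| ≤ B := by
  rcases le_total (nn (eta U) L) (nn (zeta U) L) with h | h
  · obtain ⟨m, hm, e⟩ := exists_nn (zeta U) L
    refine ⟨1, 0, m, hm, ?_, ?_, ?_⟩
    · change |zeta U m| = _
      rw [e, Mx, max_eq_right h]
    · rw [nn_le_iff]; simp
    · intro a b B _ hb; simpa using hb
  · obtain ⟨m, hm, e⟩ := exists_nn (eta U) L
    refine ⟨0, 1, m, hm, ?_, ?_, ?_⟩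
    · change |eta U m| = _
      rw [e, Mx, max_eq_left h]
    · rw [nn_le_iff]; simp
    · intro a b B ha _; simpa using ha

end GromAux

open GromAux

theorem grom_proof (hPS : PS) (hMG : MG) : GROM := by
  intro θ₀ h0 h1
  have ev1 : ∀ᶠ 𝕂 : ℝ in atTop, 11 ≤ 𝕂 ^ θ₀ :=
    (tendsto_rpow_atTop h0).eventually_ge_atTop 11
  have ev2 : ∀ᶠ 𝕂 : ℝ in atTop, 10 ≤ 𝕂 ^ (0.9 : ℝ) :=
    (tendsto_rpow_atTop (by norm_num)).eventually_ge_atTop 10
  filter_upwards [hPS, hMG, ev1, ev2, eventually_ge_atTop (3 : ℝ)] with 𝕂 hPS hMG ev1 ev2 hK3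
  intro θ hθ1 hθ2 V hV N L i hLi hiN hL8 hgood hMi hML
  have hK1 : (1 : ℝ) < 𝕂 := by linarith
  have hK0 : (0 : ℝ) < 𝕂 := by linarith
  have hθ0 : 0 ≤ θ := by linarith
  have hθ3 : θ ≤ 1 / 100 := by linarith
  obtain ⟨j, rfl⟩ : ∃ j, i = L + j := ⟨i - L, by omega⟩
  have hj1 : 1 ≤ j := by omega
  set s := ⌊θ₀ * L / 4⌋₊ with hs
  have hs_le : (s : ℝ) ≤ θ₀ * L / 4 := Nat.floor_le (by linarith)
  have hs_lt : θ₀ * L / 4 < s + 1 := Nat.lt_floor_add_one _
  have hs2 : 2 ≤ s := Nat.le_floor (by push_cast; linarith)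
  have hs2' : (2 : ℝ) ≤ s := by exact_mod_cast hs2
  have hL0 : (0 : ℝ) ≤ L := Nat.cast_nonneg L
  have hsL : s ≤ L := by
    have : (s : ℝ) ≤ L := by nlinarith
    exact_mod_cast this
  have hL1 : 1 ≤ L := by omega
  set U1 := fwd V 1 with hU1
  set Up := fwd V (L + 1) with hUp
  have bU1 : Bd 𝕂 U1 := hV.fwd 1
  have bUp : Bd 𝕂 Up := hV.fwd _
  have hne : ∀ l : ℕ, l ≤ N → 𝕂 ^ ((1 - θ) * l) ≤ ne Up l := by
    intro l hl
    rw [← hMG θ hθ0 hθ3 Up bUp N hgood l hl]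
    exact hgood l hl
  -- `j ≥ s`
  have hjs : s ≤ j := by
    have a1 := Mx_le_add bU1 L j
    have a2 : 𝕂 ^ ((1 - θ₀ ^ 2 / 8) * L) < 𝕂 ^ ((j : ℝ) + (1 - θ) * ((L + j : ℕ) : ℝ)) := by
      rw [Real.rpow_add hK0, Real.rpow_natCast]
      calc _ ≤ Mx U1 L := hML
        _ ≤ 𝕂 ^ j * Mx U1 (L + j) := a1
        _ < _ := by gcongr
    rw [Real.rpow_lt_rpow_left_iff hK1] at a2
    push_cast at a2
    have hj0 : (0 : ℝ) ≤ j := Nat.cast_nonneg j
    have b1 : θ₀ ^ 2 / 8 * L ≤ θ₀ / 2 * L :=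
      mul_le_mul_of_nonneg_right (by nlinarith) hL0
    have b2 : θ₀ * L ≤ θ * L := by gcongr
    have b3 : 0 ≤ θ * j := by positivity
    have : (s : ℝ) ≤ j := by nlinarith
    exact_mod_cast this
  obtain ⟨m, hm, hmn⟩ := exists_nn (eta Up) j
  change |eta Up m| = ne Up j at hmn
  have hps := hPS θ hθ0 hθ3 Up bUp j m hm hmn (fun l hl => by
    have := hne l (by omega)
    have h2 : 0 < 𝕂 ^ ((1 - θ) * l) := by positivity
    linarith)
  set r := rr Up m with hr
  have hr1 : |r| ≤ 1 := by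
    have a1 := hps 1 hj1
    have a2 : |sol Up 1 r 1| ≤ nn (sol Up 1 r) 1 := abs_le_nn _ 1
    have a3 : 𝕂 ^ (θ - (1 - 2 * θ) * ((1 : ℕ) : ℝ)) ≤ 𝕂 ^ (-(0.9 : ℝ)) := by
      apply Real.rpow_le_rpow_of_exponent_le hK1.le
      push_cast; linarith
    have a4 : 10 * 𝕂 ^ (-(0.9 : ℝ)) ≤ 1 := by
      rw [Real.rpow_neg hK0.le, ← div_eq_mul_inv, div_le_one (by positivity)]
      exact ev2
    have a5 : sol Up 1 r 1 = r := rfl
    rw [a5] at a2
    exact a2.trans (a1.trans ((mul_le_mul_of_nonneg_left a3 (by norm_num)).trans a4))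
  have hS1 : ((s - 1 : ℕ) : ℝ) = s - 1 := by
    rw [Nat.cast_sub (by omega)]; simp
  refine ⟨r, ?_, ?_⟩
  · rw [fwd_sh, add_comm 1 (L : ℤ)]
    change nn (sol Up 1 r) (s - 1) < _
    have a1 := hps (s - 1) (by omega)
    refine a1.trans_lt ?_
    rw [hS1]
    have a2 : 𝕂 ^ θ₀ * 𝕂 ^ (θ - (1 - 2 * θ) * (s - 1)) ≤ 𝕂 ^ (-((1 - 7 * θ₀) * (s - 1))) := by
      rw [← Real.rpow_add hK0]
      apply Real.rpow_le_rpow_of_exponent_le hK1.le
      have : θ * (s - 1) ≤ 2 * θ₀ * (s - 1) := by gcongr; linarith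
      nlinarith
    have a3 : 0 < 𝕂 ^ (θ - (1 - 2 * θ) * (s - 1)) := by positivity
    nlinarith
  · rw [bwd_sh, sh_apply_zero]
    obtain ⟨a, b, ha, hb⟩ := exists_sol U1 L 1 r
    have hshift : ∀ l, sol U1 a b (L + l) = sol Up 1 r l := by
      intro l
      rw [hU1, sol_shift, ← hU1, ha, hb, add_comm 1 (L : ℤ)]
    have hback : ∀ l, l ≤ L →
        sol U1 a b (L - l) = sol (bwd V (-1 + L)) 1 (V L - r) l := by
      intro l hl
      rw [hU1, sol_back V 1 a b L l hL1 hl, ← hU1, ha, hb]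
      congr 1
      · congr 1; ring
      · simp
    have hz : sol U1 a b (L + m) = 0 := by
      rw [hshift]; exact sol_rr Up m (eta_ne_zero_of hmn)
    have hnn : nn (sol U1 a b) (L + j) = 1 / ne Up j := by
      rw [← nn_dir Up hm hmn]
      unfold nn
      rw [hshift, add_assoc, hshift]
    have hinit := init_bound U1 a b (L + j) (L + m) (by omega) hz
    rw [hnn] at hinit
    have hB : 1 / ne Up j * Mx U1 (L + j) ≤ 𝕂 ^ ((1 - θ) * L) := by
      have c1 := hne j (by omega)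
      have c2 : 0 < 𝕂 ^ ((1 - θ) * j) := by positivity
      calc 1 / ne Up j * Mx U1 (L + j) ≤ 1 / 𝕂 ^ ((1 - θ) * j) * 𝕂 ^ ((1 - θ) * ((L + j : ℕ) : ℝ)) := by
            have := (Mx_pos U1 (L + j)).le
            gcongr
        _ = _ := by
            push_cast
            rw [mul_add, Real.rpow_add hK0]; field_simp
    obtain ⟨c, d, m', hm', hcol, hφ, hW⟩ := exists_col U1 L
    have hW1 := hW a b _ (hinit.1.trans hB) (hinit.2.trans hB)
    have hΨ : |sol U1 a b m'| ≤ 1 := by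
      rcases hm' with rfl | rfl
      · rw [ha]; simp
      · rw [hb]; exact hr1
    have hMpos := Mx_pos U1 L
    have main := back_bound bU1 a b c d L s m' hm' (Mx U1 L) hcol hMpos hΨ hsL hφ
    have hP : 0 < 𝕂 ^ ((1 - θ₀ ^ 2 / 8) * L) := by positivity
    have hsq : θ₀ ^ 2 / 8 * L ≤ θ₀ * s := by nlinarith
    have t1 : 𝕂 ^ s * (|a * d - b * c| / Mx U1 L) ≤ 𝕂 ^ (-((1 - θ₀) * s)) := by
      calc 𝕂 ^ s * (|a * d - b * c| / Mx U1 L)
          ≤ 𝕂 ^ s * (𝕂 ^ ((1 - θ) * L) / 𝕂 ^ ((1 - θ₀ ^ 2 / 8) * L)) := by gcongr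
        _ = 𝕂 ^ ((s : ℝ) + ((1 - θ) * L - (1 - θ₀ ^ 2 / 8) * L)) := by
            rw [Real.rpow_add hK0, Real.rpow_sub hK0, Real.rpow_natCast]
        _ ≤ _ := by
            apply Real.rpow_le_rpow_of_exponent_le hK1.le
            have b1 : θ₀ ^ 2 / 8 * L ≤ θ₀ / 2 * L :=
              mul_le_mul_of_nonneg_right (by nlinarith) hL0
            have b2 : θ₀ * L ≤ θ * L := by gcongr
            have b3 : 0 ≤ θ₀ * s := by positivity
            nlinarith
    have t2 : 𝕂 ^ (L - s) / Mx U1 L ≤ 𝕂 ^ (-((1 - θ₀) * s)) := by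
      calc 𝕂 ^ (L - s) / Mx U1 L ≤ 𝕂 ^ (L - s) / 𝕂 ^ ((1 - θ₀ ^ 2 / 8) * L) := by gcongr
        _ = 𝕂 ^ (((L - s : ℕ) : ℝ) - (1 - θ₀ ^ 2 / 8) * L) := by
            rw [Real.rpow_sub hK0, Real.rpow_natCast]
        _ ≤ _ := by
            apply Real.rpow_le_rpow_of_exponent_le hK1.le
            rw [Nat.cast_sub hsL]
            nlinarith
    have t3 : 𝕂 * 𝕂 ^ (-((1 - θ₀) * s)) ≤ 𝕂 ^ (-((1 - 7 * θ₀) * (s - 1))) := by
      rw [← Real.rpow_one_add' hK0.le (by nlinarith)]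
      apply Real.rpow_le_rpow_of_exponent_le hK1.le
      nlinarith
    have t4 : 0 < 𝕂 ^ (-((1 - θ₀) * s)) := by positivity
    have e : nn (sol (bwd V (-1 + L)) 1 (V L - r)) (s - 1) = nn (sol U1 a b) (L - s) := by
      unfold nn
      rw [← hback (s - 1) (by omega), ← hback (s - 1 + 1) (by omega), max_comm]
      congr 3 <;> omega
    unfold Loc
    rw [e, hS1]
    nlinarith

end Crest.Agent.R128
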