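import Crest.Agent.R128.Defs

/-! Row 128: small facts used by AVG, DB, PAT (self-contained). -/

set_option autoImplicit false

namespace Crest.Agent.R128.H6

open MeasureTheory Set Filter
open scoped Real BigOperators Classical

instance : IsFiniteMeasure mu := ⟨by
  rw [mu, Measure.restrict_apply_univ, Measure.volume_eq_prod, Measure.prod_prod]
  simp⟩

theorem tendsto_KK : Tendsto KK atTop atTop :=
  tendsto_atTop_add_const_right _ _ (tendsto_id.const_mul_atTop (by positivity))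

theorem bd_pot {k : ℝ} (hk : 0 ≤ k) (b p : ℝ) : Bd (KK k) (pot k b p) := fun j => by
  have h1 := Real.abs_cos_le_one (2 * π * xi k b p j)
  have h2 : 0 ≤ 2 * π * k := by positivity
  refine (abs_add_le _ _).trans ?_
  rw [abs_mul, abs_of_nonneg h2, abs_two, KK]
  nlinarith

theorem cont_xi (k : ℝ) (j : ℕ) : Continuous fun ω : ℝ × ℝ => xi k ω.1 ω.2 j := by
  induction j using Nat.twoStepInduction with
  | zero => exact continuous_fst
  | one => exact continuous_snd
  | more j h1 h2 => simp only [xi, Fm]; fun_prop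

theorem cont_sol (k a b : ℝ) (j : ℕ) : Continuous fun ω : ℝ × ℝ => sol (pot k ω.1 ω.2) a b j := by
  induction j using Nat.twoStepInduction with
  | zero => exact continuous_const
  | one => exact continuous_const
  | more j h1 h2 =>
    have := cont_xi k (j + 1)
    simp only [sol, pot, Wm]
    fun_prop

theorem cont_ne (k : ℝ) (j : ℕ) : Continuous fun ω : ℝ × ℝ => ne (pot k ω.1 ω.2) j :=
  (cont_sol k 0 1 j).abs.max (cont_sol k 0 1 (j + 1)).abs

theorem cont_Mx (k : ℝ) (j : ℕ) : Continuous fun ω : ℝ × ℝ => Mx (pot k ω.1 ω.2) j :=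
  (cont_ne k j).max ((cont_sol k 1 0 j).abs.max (cont_sol k 1 0 (j + 1)).abs)

theorem fwd_VV (k : ℝ) (ω : ℝ × ℝ) : fwd (VV k ω) 1 = pot k ω.1 ω.2 := by
  funext j
  simp only [fwd, sub_self, zero_add]
  rfl

theorem bwd_VV (k : ℝ) (ω : ℝ × ℝ) : bwd (VV k ω) 0 = pot k ω.2 ω.1 := by
  funext j
  rcases j with _ | _ | j
  · rfl
  · rfl
  · rw [bwd, show (0 : ℤ) + 1 - ((j + 1 + 1 : ℕ) : ℤ) = Int.negSucc j by rw [Int.negSucc_eq]; push_cast; ring]
    rfl

theorem ne_zero' (U : ℕ → ℝ) : ne U 0 = 1 := by simp [ne, nn, eta, sol]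

theorem Mx_zero (U : ℕ → ℝ) : Mx U 0 = 1 := by simp [Mx, nn, eta, zeta, sol]

theorem ne_le_pow {𝕂 : ℝ} {U : ℕ → ℝ} (h1 : 1 ≤ 𝕂) (hU : Bd 𝕂 U) (j : ℕ) : ne U j ≤ 𝕂 ^ j := by
  induction j with
  | zero => simp [ne_zero']
  | succ j ih =>
    have a1 : |eta U j| ≤ 𝕂 ^ j := (le_max_left _ _).trans ih
    have a2 : |eta U (j + 1)| ≤ 𝕂 ^ j := (le_max_right _ _).trans ih
    refine max_le (a2.trans (pow_le_pow_right₀ h1 j.le_succ)) ?_
    refine (abs_sub _ _).trans ?_
    have := mul_le_mul (hU (j + 1)) a2 (abs_nonneg _) (by linarith)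
    rw [abs_mul, pow_succ]
    exact (add_le_add this a1).trans (le_of_eq (by ring))

theorem sum_meas_le {ι : Type} (T : Finset ι) (A : ι → Set (ℝ × ℝ)) (B : Set (ℝ × ℝ)) (c : ℝ)
    (hA : ∀ i, MeasurableSet (A i)) (hB : MeasurableSet B)
    (h1 : ∀ ω, ((T.filter fun i => ω ∈ A i).card : ℝ) ≤ c) (h2 : ∀ ω, ω ∉ B → ∀ i ∈ T, ω ∉ A i) :
    ∑ i ∈ T, mu.real (A i) ≤ c * mu.real B := by
  simp only [← integral_indicator_one (hA _), ← integral_indicator_one hB]
  have int : ∀ s : Set (ℝ × ℝ), MeasurableSet s → Integrable (s.indicator (1 : ℝ × ℝ → ℝ)) mu :=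
    fun s hs => (integrable_const 1).indicator hs
  rw [← integral_finsetSum _ fun i _ => int _ (hA i), ← integral_const_mul]
  refine integral_mono (integrable_finsetSum _ fun i _ => int _ (hA i)) ((int _ hB).const_mul c)
    fun ω => ?_
  by_cases h : ω ∈ B
  · simpa [indicator, h] using h1 ω
  · simp only [indicator_of_notMem h, mul_zero]
    exact (Finset.sum_eq_zero fun i hi => indicator_of_notMem (h2 ω h i hi) _).le

end Crest.Agent.R128.H6
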