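import Crest.Agent.R128.Basic

/-! # Row 128, task HOLE -/

set_option autoImplicit false

namespace Crest.Agent.R128

open Filter

namespace Hole

lemma one_side {k : ℝ} (hk : 0 ≤ k) (h2 : 10 ≤ KK k ^ (0.2 : ℝ))
    (hT : ∀ U : ℕ → ℝ, Bd (KK k) U → ∀ (δ r : ℝ) (S z : ℕ),
      δ ≤ 1 / 100 → 4 ≤ S → 2 * z ≤ S → FPl (KK k) U z S → Loc (KK k) δ S U r →
      eta U (z + 2) ≠ 0 ∧ |r - rr U (z + 2)| ≤ KK k ^ (-2.9 : ℝ) / ne U z ^ 2)
    {b q₀ q δ r N M : ℝ} {S z : ℕ} {a u I : ℝ → ℝ}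
    (hS : Side (KK k) a (fun p => eta (pot k b p) (z + 1)) u I q₀ N) (hM : 0 < M) (hMN : M ≤ N)
    (hq : |q - q₀| ≤ KK k ^ (0.7 : ℝ) / N) (hδ : δ ≤ 1 / 100) (h4 : 4 ≤ S) (hz : 2 * z ≤ S)
    (hF : FPl (KK k) (pot k b q) z S) (hL : Loc (KK k) δ S (pot k b q) r) :
    |r - rr (pot k b q) (z + 1) - 1 / (eta (pot k b q) (z + 1) ^ 2 *
      (Wm k (xi k b q (z + 1)) - eta (pot k b q) z / eta (pot k b q) (z + 1)))| ≤
      2 * KK k ^ (-2.9 : ℝ) / M ^ 2 := by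
  have bU : Bd (KK k) (pot k b q) := bd_pot hk b q
  have h0 : 0 < KK k := by linarith [bU.one_le]
  obtain ⟨t1, t2⟩ := hT _ bU δ r S z hδ h4 hz hF hL
  have hN := hS.pos
  have n1 := (hS.near q hq).1
  have e' : N * KK k ^ (-0.2 : ℝ) ≤ N / 10 := by
    rw [Real.rpow_neg h0.le, div_eq_mul_inv]
    gcongr
  have d2 : 0.9 * N ≤ |eta (pot k b q) (z + 1)| := by
    have := abs_sub_abs_le_abs_sub (eta (pot k b q₀) (z + 1)) (eta (pot k b q) (z + 1))
    rw [abs_sub_comm] at this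
    have hb : |eta (pot k b q₀) (z + 1)| = N := hS.base
    linarith [n1.trans e']
  have hne : eta (pot k b q) (z + 1) ≠ 0 := by
    intro h; rw [h, abs_zero] at d2; linarith
  have e1 := rr_succ (pot k b q) (z + 1) hne t1
  have e2 : eta (pot k b q) (z + 1) ^ 2 *
      (Wm k (xi k b q (z + 1)) - eta (pot k b q) z / eta (pot k b q) (z + 1)) =
      eta (pot k b q) (z + 1) * eta (pot k b q) (z + 1 + 1) := by
    rw [show z + 1 + 1 = z + 2 from rfl, eta_succ_succ]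
    field_simp
    rfl
  rw [e2, ← e1, show r - rr (pot k b q) (z + 1) - (rr (pot k b q) (z + 1 + 1) - rr (pot k b q) (z + 1)) =
    r - rr (pot k b q) (z + 2) by ring]
  refine t2.trans ?_
  have d3 : 0.9 * M ≤ ne (pot k b q) z := by
    have : |eta (pot k b q) (z + 1)| ≤ ne (pot k b q) z := abs_succ_le_nn _ _
    linarith
  have p1 := Real.rpow_pos_of_pos h0 (-2.9 : ℝ)
  rw [div_le_div_iff₀ (pow_pos (ne_pos _ _) 2) (by positivity)]
  have : (0.9 * M) ^ 2 ≤ ne (pot k b q) z ^ 2 := by gcongr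
  nlinarith [sq_nonneg M]

end Hole

theorem hole_proof (hS : SIDE) (hR : REFL) (hT : TAIL) (hN : NC) : HOLE := by
  filter_upwards [hS, hN, ev_KK hT, ev_KK (ev_const_le_rpow 10 0.2 (by norm_num)),
    eventually_ge_atTop (0 : ℝ)] with k hS hN hT h2 hk δ b p₀ α ℓ S z y T₁ T₂ hδ h4 hp₀ hzT hyT hz1 hy1 hzS hyS
    hmm hl1 hl2 hα1 hα2
  obtain ⟨-, -, hp1, hp2⟩ := hp₀
  have s1 := hS b p₀ z hz1 (hp1 z hzT).1
  have s2' := hS b (Fm k b - p₀) y hy1 (hp2 y hyT).1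
  have s2 := hR _ _ _ _ _ _ _ _ s2'
  set N₁ := ne (pot k b p₀) z with hN₁
  set N₂ := ne (pot k b (Fm k b - p₀)) y with hN₂
  have h0 : 0 < KK k := by linarith [(bd_pot hk b p₀).one_le]
  have p7 := Real.rpow_pos_of_pos h0 (0.7 : ℝ)
  have hm : 0 < min N₁ N₂ := lt_min s1.pos s2.pos
  have key : ∀ p ∈ Epat k δ S b T₁ T₂, |p - p₀| ≤ KK k ^ (0.7 : ℝ) / max N₁ N₂ →
      |Wm k b - rr (pot k b p) (z + 1) - rr (pot k b (Fm k b - p)) (y + 1) -
        hh k (fun p => xi k b p (z + 1)) (fun p => eta (pot k b p) (z + 1))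
          (fun p => eta (pot k b p) z / eta (pot k b p) (z + 1)) p -
        hh k (fun p => xi k b (Fm k b - p) (y + 1)) (fun p => -eta (pot k b (Fm k b - p)) (y + 1))
          (fun p => eta (pot k b (Fm k b - p)) y / eta (pot k b (Fm k b - p)) (y + 1)) p| ≤
        4 * KK k ^ (-2.9 : ℝ) / min N₁ N₂ ^ 2 := by
    rintro p ⟨-, ⟨r, hr1, hr2⟩, hq1, hq2⟩ hp
    have a1 := Hole.one_side hk h2 hT s1 hm (min_le_left _ _)
      (hp.trans (by have := s1.pos; gcongr; exact le_max_left _ _)) hδ h4 hzS (hq1 z hzT).2 hr1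
    have a2 := Hole.one_side hk h2 hT s2' hm (min_le_right _ _) (q := Fm k b - p)
      (by
        rw [show Fm k b - p - (Fm k b - p₀) = -(p - p₀) by ring, abs_neg]
        exact hp.trans (by have := s2.pos; gcongr; exact le_max_right _ _)) hδ h4 hyS (hq2 y hyT).2 hr2
    have := abs_add_le _ _ |>.trans (add_le_add a1 a2)
    simp only [hh, neg_sq]
    refine le_of_eq_of_le ?_ (this.trans (le_of_eq (by ring)))
    congr 1
    ring
  rcases le_total N₂ N₁ with h | h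
  · rw [max_eq_left h, min_eq_right h] at *
    exact hN _ _ _ _ _ _ _ _ p₀ N₁ N₂ α ℓ (Wm k b) _ s1 s2 h hmm hl1 hl2 hα1 hα2 key
  · rw [max_eq_right h, min_eq_left h] at *
    refine hN _ _ _ _ _ _ _ _ p₀ N₂ N₁ α ℓ (Wm k b) _ s2 s1 h hmm hl1 hl2 hα1 hα2 (fun p hp hp' => ?_)
    convert key p hp hp' using 2
    ring

end Crest.Agent.R128
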