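import Crest.Agent.R128.Defs

/-! # Row 128, task INDEP -/

set_option autoImplicit false

namespace Crest.Agent.R128

open MeasureTheory Set Filter
open scoped Real BigOperators Classical

noncomputable section

namespace Ind

theorem hasDerivAt_Fm (k x : ℝ) : HasDerivAt (Fm k) (Wm k x) x := by
  have h1 : HasDerivAt (fun x : ℝ => 2 * π * x) (2 * π) x := by
    simpa using (hasDerivAt_id x).const_mul (2 * π)
  have h2 := ((hasDerivAt_id x).const_mul 2).add (h1.sin.const_mul k)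
  refine HasDerivAt.congr_deriv (f := Fm k) h2 ?_
  simp only [Wm]
  ring

theorem hasFDerivAt_xi {E : Type} [NormedAddCommGroup E] [NormedSpace ℝ E] (k : ℝ) {b p : E → ℝ}
    {b' p' : E →L[ℝ] ℝ} {x : E} (hb : HasFDerivAt b b' x) (hp : HasFDerivAt p p' x) (j : ℕ) :
    HasFDerivAt (fun ω => xi k (b ω) (p ω) j)
      (zeta (pot k (b x) (p x)) j • b' + eta (pot k (b x) (p x)) j • p') x := by
  induction j using Nat.twoStepInduction with
  | zero => simpa [xi, zeta, eta, sol] using hb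
  | one => simpa [xi, zeta, eta, sol] using hp
  | more j h0 h1 =>
    have h := ((hasDerivAt_Fm k _).comp_hasFDerivAt x h1).sub h0
    refine HasFDerivAt.congr_fderiv (f := fun ω => xi k (b ω) (p ω) (j + 2)) h ?_
    ext v
    simp only [zeta, eta, sol, pot, add_apply, sub_apply, smul_apply, smul_eq_mul]
    ring

theorem contDiff_xi {E : Type} [NormedAddCommGroup E] [NormedSpace ℝ E] (k : ℝ) {b p : E → ℝ}
    (hb : ContDiff ℝ 1 b) (hp : ContDiff ℝ 1 p) (j : ℕ) :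
    ContDiff ℝ 1 (fun ω => xi k (b ω) (p ω) j) := by
  induction j using Nat.twoStepInduction with
  | zero => exact hb
  | one => exact hp
  | more j h0 h1 =>
    simp only [xi, Fm]
    fun_prop

theorem meas_xi {X : Type} [MeasurableSpace X] (k : ℝ) {b p : X → ℝ}
    (hb : Measurable b) (hp : Measurable p) (j : ℕ) :
    Measurable (fun ω => xi k (b ω) (p ω) j) := by
  induction j using Nat.twoStepInduction with
  | zero => exact hb
  | one => exact hp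
  | more j h0 h1 =>
    simp only [xi, Fm]
    fun_prop

theorem meas_pot {X : Type} [MeasurableSpace X] (k : ℝ) {b p : X → ℝ}
    (hb : Measurable b) (hp : Measurable p) (j : ℕ) :
    Measurable (fun ω => pot k (b ω) (p ω) j) := by
  have := meas_xi k hb hp j
  simp only [pot, Wm]
  fun_prop

theorem meas_eta {X : Type} [MeasurableSpace X] {U : X → ℕ → ℝ}
    (hU : ∀ j, Measurable (fun ω => U ω j)) (j : ℕ) : Measurable (fun ω => eta (U ω) j) := by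
  unfold eta
  induction j using Nat.twoStepInduction with
  | zero => exact measurable_const
  | one => exact measurable_const
  | more j h0 h1 => exact ((hU (j + 1)).mul h1).sub h0

theorem meas_ne {X : Type} [MeasurableSpace X] {U : X → ℕ → ℝ}
    (hU : ∀ j, Measurable (fun ω => U ω j)) (j : ℕ) : Measurable (fun ω => ne (U ω) j) :=
  (meas_eta hU j).abs.max (meas_eta hU (j + 1)).abs

theorem meas_Ev {X : Type} [MeasurableSpace X] {U : X → ℕ → ℝ}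
    (hU : ∀ j, Measurable (fun ω => U ω j)) (𝕂 θ : ℝ) (N g m : ℕ) :
    Measurable (fun ω => Ev 𝕂 θ N g m (U ω)) :=
  measurable_const.and (((meas_eta hU m).abs.eq (meas_ne hU _)).and
    (Measurable.exists fun w => measurable_const.and (measurable_const.and (measurable_const.and
      ((Measurable.forall fun j => measurable_const.imp (measurable_const.le' (meas_ne hU j))).and
        ((meas_ne hU w).lt measurable_const))))))

theorem meas_Ev' {X : Type} [MeasurableSpace X] {U : X → ℕ → ℝ}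
    (hU : ∀ j, Measurable (fun ω => U ω j)) (𝕂 θ : ℝ) (N g : ℕ) :
    Measurable (fun ω => Ev' 𝕂 θ N g (U ω)) :=
  (Measurable.forall fun j => measurable_const.imp (measurable_const.le' (meas_ne hU j))).and
    (Measurable.exists fun w => measurable_const.and (measurable_const.and (measurable_const.and
      ((meas_ne hU w).le' measurable_const))))

theorem xi_add_int (k b p : ℝ) (n : ℤ) (j : ℕ) : ∃ c : ℤ, xi k b (p + n) j = xi k b p j + c := by
  induction j using Nat.twoStepInduction with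
  | zero => exact ⟨0, by simp [xi]⟩
  | one => exact ⟨n, rfl⟩
  | more j h0 h1 =>
    obtain ⟨c0, h0⟩ := h0
    obtain ⟨c1, h1⟩ := h1
    refine ⟨2 * c1 - c0, ?_⟩
    simp only [xi, h0, h1, Fm]
    rw [show 2 * π * (xi k b p (j + 1) + c1) = 2 * π * xi k b p (j + 1) + c1 * (2 * π) by ring,
      Real.sin_add_int_mul_two_pi]
    push_cast
    ring

theorem pot_add_int (k b p : ℝ) (n : ℤ) : pot k b (p + n) = pot k b p := by
  funext j
  obtain ⟨c, h⟩ := xi_add_int k b p n j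
  simp only [pot, Wm, h]
  rw [show 2 * π * (xi k b p j + c) = 2 * π * xi k b p j + c * (2 * π) by ring,
    Real.cos_add_int_mul_two_pi]

theorem bd_pot {k : ℝ} (hk : 0 ≤ k) (b p : ℝ) : Bd (KK k) (pot k b p) := by
  intro j
  have h1 := Real.abs_cos_le_one (2 * π * xi k b p j)
  have h2 : 0 ≤ 2 * π * k := by positivity
  simp only [pot, Wm, KK]
  refine (abs_add_le _ _).trans ?_
  rw [abs_mul, abs_of_nonneg h2, abs_two]
  nlinarith

theorem vol_three {P : ℝ → Prop} (hP : ∀ (q : ℝ) (n : ℤ), P (q + n) ↔ P q) :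
    volume {q | q ∈ Ico (-1 : ℝ) 2 ∧ P q} ≤ 3 * volume {q | P q ∧ q ∈ Ico (0 : ℝ) 1} := by
  set A := {q | P q ∧ q ∈ Ico (0 : ℝ) 1} with hA
  have hsub : {q | q ∈ Ico (-1 : ℝ) 2 ∧ P q} ⊆
      ((fun q => q + 1) ⁻¹' A ∪ A) ∪ (fun q => q + (-1)) ⁻¹' A := by
    rintro q ⟨⟨h1, h2⟩, h3⟩
    by_cases a : q < 0
    · refine Or.inl (Or.inl ⟨?_, by linarith, by linarith⟩)
      exact_mod_cast (hP q 1).2 h3
    by_cases b : q < 1
    · exact Or.inl (Or.inr ⟨h3, not_lt.1 a, b⟩)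
    · refine Or.inr ⟨?_, by linarith, by linarith⟩
      exact_mod_cast (hP q (-1)).2 h3
  refine (measure_mono hsub).trans ((measure_union_le _ _).trans ?_)
  refine (add_le_add_left (measure_union_le _ _) _).trans (le_of_eq ?_)
  rw [measure_preimage_add_right, measure_preimage_add_right]
  ring

theorem det_prod (a b c d : ℝ) :
    ((a • ContinuousLinearMap.snd ℝ ℝ ℝ + b • ContinuousLinearMap.fst ℝ ℝ ℝ).prod
      (c • ContinuousLinearMap.fst ℝ ℝ ℝ + d • ContinuousLinearMap.snd ℝ ℝ ℝ)).det =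
      b * d - a * c := by
  rw [ContinuousLinearMap.det, ← LinearMap.det_toMatrix (Module.Basis.finTwoProd ℝ),
    Matrix.det_fin_two]
  simp [LinearMap.toMatrix_apply, Module.Basis.finTwoProd]

theorem det_xi (k b q : ℝ) (m : ℕ) :
    (fderiv ℝ (fun q => xi k b q m) q).det = eta (pot k b q) m := by
  have h := hasFDerivAt_xi k (hasFDerivAt_const b q) (hasFDerivAt_id q) m
  rw [show (fun q => xi k b q m) = fun ω => xi k b (id ω) m from rfl, h.fderiv, smul_zero, zero_add,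
    ContinuousLinearMap.det]
  simp

theorem det_Phi (k : ℝ) (m₁ m₂ : ℕ) (ω : ℝ × ℝ) :
    (fderiv ℝ (fun ω : ℝ × ℝ => (xi k ω.2 ω.1 m₁, xi k ω.1 ω.2 m₂)) ω).det =
      eta (pot k ω.2 ω.1) m₁ * eta (pot k ω.1 ω.2) m₂ -
        zeta (pot k ω.2 ω.1) m₁ * zeta (pot k ω.1 ω.2) m₂ := by
  have h := (hasFDerivAt_xi k (hasFDerivAt_snd (p := ω)) hasFDerivAt_fst m₁).prodMk
    (hasFDerivAt_xi k (hasFDerivAt_fst (p := ω)) hasFDerivAt_snd m₂)
  rw [h.fderiv, det_prod]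

theorem Ev.lower {𝕂 θ : ℝ} (h1 : 1 ≤ 𝕂) (hθ : θ ≤ 1 / 500) {N g m : ℕ} {U : ℕ → ℝ}
    (h : Ev 𝕂 θ N g m U) (l : ℕ) (hl : l ≤ g ^ 2) : 𝕂 ^ ((0.99 : ℝ) * l) ≤ ne U l := by
  obtain ⟨-, -, w, hw, -, -, h2, -⟩ := h
  refine le_trans (Real.rpow_le_rpow_of_exponent_le h1 ?_) (h2 l (by omega))
  have : (0 : ℝ) ≤ l := Nat.cast_nonneg l
  nlinarith

theorem Ev.zeta_le {𝕂 θ : ℝ} (h1 : 1 ≤ 𝕂) (hθ : θ ≤ 1 / 500) {N g m : ℕ} (hg : 20 ≤ g) {U : ℕ → ℝ}
    (hZ : ∀ j : ℕ, 1 ≤ j → (∀ l : ℕ, l ≤ j → 𝕂 ^ ((0.99 : ℝ) * l) / 2 ≤ ne U l) →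
      nn (zeta U) j ≤ ne U j / 4)
    (h : Ev 𝕂 θ N g m U) : 0 < |eta U m| ∧ |zeta U m| ≤ |eta U m| / 4 := by
  have h0 : ∀ l : ℕ, 0 < 𝕂 ^ ((0.99 : ℝ) * l) := fun l => Real.rpow_pos_of_pos (by linarith) _
  have h2 := hZ (g ^ 2) (Nat.one_le_pow _ _ (by omega)) fun l hl => by
    have := Ev.lower h1 hθ h l hl
    linarith [h0 l]
  rw [h.2.1]
  refine ⟨(h0 _).trans_le (Ev.lower h1 hθ h _ le_rfl), le_trans ?_ h2⟩
  rcases h.1 with rfl | rfl
  · exact le_max_left _ _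
  · exact le_max_right _ _

theorem det_ineq {a b c d a' b' : ℝ} (ha : 0 < |a|) (hb : 0 < |b|) (hc : |c| ≤ |a| / 4)
    (hd : |d| ≤ |b| / 4) (ha' : a' ≠ 0) (hb' : b' ≠ 0) (h1 : |a'| ≤ 1.1 * |a|)
    (h2 : |b'| ≤ 1.1 * |b|) :
    a * b - c * d ≠ 0 ∧ 1 / |a * b - c * d| ≤ 2 * (1 / |a'| * (1 / |b'|)) := by
  have h3 : |c * d| ≤ |a| * |b| / 16 := by
    rw [abs_mul]
    nlinarith [mul_le_mul hc hd (abs_nonneg d) (by positivity)]
  have h4 : 15 / 16 * (|a| * |b|) ≤ |a * b - c * d| := by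
    have := abs_sub_abs_le_abs_sub (a * b) (c * d)
    rw [abs_mul a b] at this
    linarith
  have h5 : 0 < |a| * |b| := mul_pos ha hb
  have h6 : 0 < |a * b - c * d| := by linarith
  refine ⟨abs_pos.1 h6, ?_⟩
  have ha'' := abs_pos.2 ha'
  have hb'' := abs_pos.2 hb'
  rw [one_div_mul_one_div, mul_one_div, div_le_div_iff₀ h6 (mul_pos ha'' hb'')]
  nlinarith [mul_le_mul h1 h2 hb''.le (by positivity)]

theorem mu_eq {Q : ℝ × ℝ → Prop} (hQ : Measurable Q) :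
    mu {ω | Q ω} = ∫⁻ x in Ico (0 : ℝ) 1, volume {q | Q (x, q) ∧ q ∈ Ico (0 : ℝ) 1} := by
  rw [mu, Measure.volume_eq_prod, ← Measure.prod_restrict, Measure.prod_apply hQ.setOf]
  refine lintegral_congr fun x => ?_
  rw [Measure.restrict_apply (measurable_prodMk_left hQ.setOf)]
  rfl

end Ind

open Ind in
theorem indep_proof (hA : AREA) (hT : TRANS) (hS : SEC) (hZ : ZS) : INDEP := by
  have hK : Tendsto KK atTop atTop :=
    tendsto_atTop_add_const_right _ _ (tendsto_id.const_mul_atTop (by positivity))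
  filter_upwards [hT, hS, hK.eventually hZ, eventually_ge_atTop (0 : ℝ)] with k hT hS hZ hk
  intro θ hθ0 hθ N g₁ g₂ m₁ m₂ hg₁ hg₂
  have h1 : 1 ≤ KK k := by
    have : 0 ≤ 2 * π * k := by positivity
    unfold KK
    linarith
  let Φ : ℝ × ℝ → ℝ × ℝ := fun ω => (xi k ω.2 ω.1 m₁, xi k ω.1 ω.2 m₂)
  let E : Set (ℝ × ℝ) :=
    {ω | Ev (KK k) θ N g₁ m₁ (pot k ω.2 ω.1) ∧ Ev (KK k) θ N g₂ m₂ (pot k ω.1 ω.2)} ∩
      Ico (0 : ℝ) 1 ×ˢ Ico (0 : ℝ) 1
  have hmE0 : MeasurableSet {ω : ℝ × ℝ | Ev (KK k) θ N g₁ m₁ (pot k ω.2 ω.1) ∧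
      Ev (KK k) θ N g₂ m₂ (pot k ω.1 ω.2)} :=
    ((meas_Ev (meas_pot k measurable_snd measurable_fst) _ _ _ _ _).and
      (meas_Ev (meas_pot k measurable_fst measurable_snd) _ _ _ _ _)).setOf
  have hmE : MeasurableSet E := hmE0.inter (measurableSet_Ico.prod measurableSet_Ico)
  let S : ℕ → ℕ → ℝ → Set ℝ := fun g m b =>
    {q | q ∈ Ico (-1 : ℝ) 2 ∧ Ev' (KK k) θ N g (pot k b q) ∧ eta (pot k b q) m ≠ 0}
  have hmS : ∀ g m b, MeasurableSet (S g m b) := fun g m b =>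
    (measurableSet_Ico.mem.and ((meas_Ev' (meas_pot k measurable_const measurable_id) _ _ _ _).and
      ((meas_eta (meas_pot k measurable_const measurable_id) m).eq measurable_const).not)).setOf
  let A : ℕ → ℝ → ENNReal := fun g b =>
    volume {q | Ev' (KK k) θ N g (pot k b q) ∧ q ∈ Ico (0 : ℝ) 1}
  have hSA : ∀ g m b, volume (S g m b) ≤ 3 * A g b := fun g m b => by
    refine le_trans (measure_mono fun q hq => ?_)
      (vol_three (P := fun q => Ev' (KK k) θ N g (pot k b q)) fun q n => by rw [pot_add_int])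
    exact ⟨hq.1, hq.2.1⟩
  have hAS := fun g m b => hA ℝ volume (fun q => xi k b q m)
    (contDiff_xi k contDiff_const contDiff_id m) (S g m b) (hmS g m b)
    (fun q hq => by rw [det_xi]; exact hq.2.2)
  -- the transfer maps
  have tr : ∀ g m : ℕ, 20 ≤ g → ∀ b' ∈ Ico (0 : ℝ) 1, ∀ b ∈ Ico (0 : ℝ) 1, ∀ p ∈ Ico (0 : ℝ) 1,
      Ev (KK k) θ N g m (pot k b p) → ∃ p' : ℝ, (p' ∈ S g m b' ∧ xi k b' p' m = xi k b p m) ∧
        (∀ j : ℕ, 1 ≤ j → j ≤ m → |xi k b' p' j - xi k b p j| ≤ KK k ^ (-(j : ℝ) / 2)) ∧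
        |eta (pot k b' p') m| ≤ 1.1 * |eta (pot k b p) m| := by
    intro g m hg b' hb' b hb p hp hE
    obtain ⟨p', e1, e2, e3, e4, e5⟩ := hT θ hθ0 hθ N g m hg b p b'
      (abs_le.2 ⟨by linarith [hb.2, hb'.1], by linarith [hb.1, hb'.2]⟩) hE
    have hm : 1 ≤ m := by
      have := Nat.one_le_pow 2 g (by omega)
      rcases hE.1 with h | h <;> omega
    have h2 := (e2 1 le_rfl hm).trans
      (Real.rpow_le_one_of_one_le_of_nonpos h1 (by norm_num))
    simp only [xi] at h2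
    have h3 := abs_le.1 h2
    exact ⟨p', ⟨⟨⟨by linarith [hp.1], by linarith [hp.2]⟩, e3, e4⟩, e1⟩, e2, e5⟩
  have sec : ∀ g m : ℕ, 20 ≤ g → ∀ b p b₁ p₁ b' p' : ℝ, Ev (KK k) θ N g m (pot k b p) →
      xi k b₁ p₁ m = xi k b p m →
      (∀ j : ℕ, 1 ≤ j → j ≤ m → |xi k b' p' j - xi k b p j| ≤ KK k ^ (-(j : ℝ) / 2)) →
      (∀ j : ℕ, 1 ≤ j → j ≤ m → |xi k b' p' j - xi k b₁ p₁ j| ≤ KK k ^ (-(j : ℝ) / 2)) →
      |p₁ - p| ≤ |b₁ - b| / 2 := by
    intro g m hg b p b₁ p₁ b' p' hE e a1 a2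
    refine hS b p b₁ p₁ (g ^ 2) m (Nat.one_le_pow _ _ (by omega)) hE.1 hE.2.1
      (Ev.lower h1 hθ hE) e fun j hj hjm => ?_
    have := abs_sub_le (xi k b₁ p₁ j) (xi k b' p' j) (xi k b p j)
    rw [abs_sub_comm (xi k b₁ p₁ j) (xi k b' p' j)] at this
    linarith [a1 j hj hjm, a2 j hj hjm]
  have zl : ∀ g m : ℕ, 20 ≤ g → ∀ b p : ℝ, Ev (KK k) θ N g m (pot k b p) →
      0 < |eta (pot k b p) m| ∧ |zeta (pot k b p) m| ≤ |eta (pot k b p) m| / 4 :=
    fun g m hg b p hE => Ev.zeta_le h1 hθ hg (hZ _ (bd_pot hk b p)) hE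
  have hdet : ∀ ω ∈ E, (fderiv ℝ Φ ω).det ≠ 0 := by
    intro ω hω
    obtain ⟨a1, a2⟩ := zl _ _ hg₁ _ _ hω.1.1
    obtain ⟨b1, b2⟩ := zl _ _ hg₂ _ _ hω.1.2
    rw [det_Phi]
    exact (det_ineq a1 b1 a2 b2 (abs_pos.1 a1) (abs_pos.1 b1) (by linarith) (by linarith)).1
  have hAE := hA (ℝ × ℝ) volume Φ
    ((contDiff_xi k contDiff_snd contDiff_fst m₁).prodMk
      (contDiff_xi k contDiff_fst contDiff_snd m₂)) E hmE hdet
  have main : ∀ x' ∈ Ico (0 : ℝ) 1, ∀ y' ∈ Ico (0 : ℝ) 1,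
      volume E ≤ 18 * A g₁ y' * A g₂ x' := by
    intro x' hx' y' hy'
    have fib : ∀ z : ℝ × ℝ, fibSum Φ E z ≤
        2 * (fibSum (fun q => xi k y' q m₁) (S g₁ m₁ y') z.1 *
          fibSum (fun q => xi k x' q m₂) (S g₂ m₂ x') z.2) := by
      intro z
      choose h₁ a1 a2 a3 using fun ω : {ω // ω ∈ E ∧ Φ ω = z} =>
        tr g₁ m₁ hg₁ y' hy' ω.1.2 ω.2.1.2.2 ω.1.1 ω.2.1.2.1 ω.2.1.1.1
      choose h₂ b1 b2 b3 using fun ω : {ω // ω ∈ E ∧ Φ ω = z} =>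
        tr g₂ m₂ hg₂ x' hx' ω.1.1 ω.2.1.2.1 ω.1.2 ω.2.1.2.2 ω.2.1.1.2
      have z1 : ∀ ω : {ω // ω ∈ E ∧ Φ ω = z}, xi k ω.1.2 ω.1.1 m₁ = z.1 :=
        fun ω => congrArg Prod.fst ω.2.2
      have z2 : ∀ ω : {ω // ω ∈ E ∧ Φ ω = z}, xi k ω.1.1 ω.1.2 m₂ = z.2 :=
        fun ω => congrArg Prod.snd ω.2.2
      let H : {ω // ω ∈ E ∧ Φ ω = z} →
          {q // q ∈ S g₁ m₁ y' ∧ xi k y' q m₁ = z.1} × {q // q ∈ S g₂ m₂ x' ∧ xi k x' q m₂ = z.2} :=
        fun ω => (⟨h₁ ω, (a1 ω).1, (a1 ω).2.trans (z1 ω)⟩, ⟨h₂ ω, (b1 ω).1, (b1 ω).2.trans (z2 ω)⟩)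
      have hH : Function.Injective H := by
        intro ω ω' e
        have e1 : h₁ ω = h₁ ω' := congrArg (fun t => t.1.1) e
        have e2 : h₂ ω = h₂ ω' := congrArg (fun t => t.2.1) e
        have s1 := sec g₁ m₁ hg₁ _ _ _ _ y' (h₁ ω) ω.2.1.1.1 ((z1 ω').trans (z1 ω).symm) (a2 ω)
          (e1 ▸ a2 ω')
        have s2 := sec g₂ m₂ hg₂ _ _ _ _ x' (h₂ ω) ω.2.1.1.2 ((z2 ω').trans (z2 ω).symm) (b2 ω)
          (e2 ▸ b2 ω')
        have t1 : |ω'.1.1 - ω.1.1| = 0 := by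
          linarith [abs_nonneg (ω'.1.1 - ω.1.1), abs_nonneg (ω'.1.2 - ω.1.2)]
        have t2 : |ω'.1.2 - ω.1.2| = 0 := by
          linarith [abs_nonneg (ω'.1.1 - ω.1.1), abs_nonneg (ω'.1.2 - ω.1.2)]
        exact Subtype.ext (Prod.ext (sub_eq_zero.1 (abs_eq_zero.1 t1)).symm
          (sub_eq_zero.1 (abs_eq_zero.1 t2)).symm)
      let G : {q // q ∈ S g₁ m₁ y' ∧ xi k y' q m₁ = z.1} ×
          {q // q ∈ S g₂ m₂ x' ∧ xi k x' q m₂ = z.2} → ENNReal := fun t =>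
        ENNReal.ofReal (1 / |(fderiv ℝ (fun q => xi k y' q m₁) t.1.1).det|) *
          ENNReal.ofReal (1 / |(fderiv ℝ (fun q => xi k x' q m₂) t.2.1).det|)
      have e1 : ∑' t, G t = fibSum (fun q => xi k y' q m₁) (S g₁ m₁ y') z.1 *
          fibSum (fun q => xi k x' q m₂) (S g₂ m₂ x') z.2 := by
        rw [ENNReal.tsum_prod', fibSum, fibSum, ← ENNReal.tsum_mul_right]
        refine tsum_congr fun a => ?_
        simp only [G]
        exact ENNReal.tsum_mul_left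
      rw [← e1]
      refine le_trans ?_ (mul_le_mul_right (ENNReal.tsum_comp_le_tsum_of_injective hH G) 2)
      rw [← ENNReal.tsum_mul_left]
      refine ENNReal.tsum_le_tsum fun ω => ?_
      obtain ⟨c1, c2⟩ := zl _ _ hg₁ _ _ ω.2.1.1.1
      obtain ⟨d1, d2⟩ := zl _ _ hg₂ _ _ ω.2.1.1.2
      have := (det_ineq c1 d1 c2 d2 (a1 ω).1.2.2 (b1 ω).1.2.2 (a3 ω) (b3 ω)).2
      simp only [G, H, Φ, det_xi, det_Phi]
      rw [← ENNReal.ofReal_mul (by positivity), ← ENNReal.ofReal_ofNat 2,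
        ← ENNReal.ofReal_mul (by norm_num)]
      exact ENNReal.ofReal_le_ofReal this
    rw [← hAE.2]
    refine (lintegral_mono fib).trans ?_
    rw [lintegral_const_mul' _ _ (by norm_num), Measure.volume_eq_prod,
      lintegral_prod_mul (hAS _ _ _).1.aemeasurable (hAS _ _ _).1.aemeasurable, (hAS _ _ _).2,
      (hAS _ _ _).2]
    refine (mul_le_mul_right (mul_le_mul' (hSA _ _ _) (hSA _ _ _)) 2).trans (le_of_eq ?_)
    ring
  have hμ : ∀ g, mu {ω | Ev' (KK k) θ N g (pot k ω.1 ω.2)} = ∫⁻ x in Ico (0 : ℝ) 1, A g x :=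
    fun g => mu_eq (meas_Ev' (meas_pot k measurable_fst measurable_snd) _ _ _ _)
  have hfin : ∀ s, mu s ≠ ⊤ := fun s => by
    refine ne_top_of_le_ne_top ?_ (measure_mono (subset_univ s))
    simp [mu, Measure.volume_eq_prod]
  have hA1 : ∀ g b, A g b ≠ ⊤ := fun g b =>
    ne_top_of_le_ne_top (by simp) (measure_mono (t := Ico (0 : ℝ) 1) fun q hq => hq.2)
  have avg : ∀ (c : ENNReal) (g : ℕ), c ≠ ⊤ → (∀ x ∈ Ico (0 : ℝ) 1, volume E ≤ c * A g x) →
      volume E ≤ c * mu {ω | Ev' (KK k) θ N g (pot k ω.1 ω.2)} := by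
    intro c g hc h
    rw [hμ, ← lintegral_const_mul' _ _ hc]
    refine le_trans (le_of_eq ?_) (setLIntegral_mono' measurableSet_Ico h)
    simp
  have fin : volume E ≤ 18 * mu {ω | Ev' (KK k) θ N g₂ (pot k ω.1 ω.2)} *
      mu {ω | Ev' (KK k) θ N g₁ (pot k ω.1 ω.2)} := by
    refine avg _ g₁ (ENNReal.mul_ne_top (by norm_num) (hfin _)) fun y' hy' => ?_
    rw [mul_right_comm]
    exact avg _ g₂ (ENNReal.mul_ne_top (by norm_num) (hA1 _ _)) fun x' hx' => main x' hx' y' hy'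
  rw [Measure.real, Measure.real, Measure.real, mu, Measure.restrict_apply hmE0, ← mu,
    mul_right_comm]
  refine (ENNReal.toReal_mono (ENNReal.mul_ne_top (ENNReal.mul_ne_top (by norm_num) (hfin _))
    (hfin _)) fin).trans (le_of_eq ?_)
  simp

end

end Crest.Agent.R128
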