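import Crest.Agent.R128.Defs

/-! Row 128, task MATCH. -/

set_option autoImplicit false

namespace Crest.Agent.R128

open MeasureTheory Set Filter
open scoped Real BigOperators Classical

noncomputable section

namespace MatchAux

theorem pack {ι : Type} (T : Finset ι) (c r : ι → ℝ) (a b : ℝ) (hab : a ≤ b) (hr : ∀ i ∈ T, 0 ≤ r i)
    (hin : ∀ i ∈ T, a ≤ c i - r i ∧ c i + r i ≤ b)
    (hd : ∀ i ∈ T, ∀ j ∈ T, i ≠ j → r i + r j ≤ |c i - c j|) : ∑ i ∈ T, 2 * r i ≤ b - a := by
  have h1 := measureReal_biUnion_finset (μ := (volume : Measure ℝ)) (s := T)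
    (f := fun i => Ico (c i - r i) (c i + r i)) (fun i hi j hj hij => by
      have := hd i hi j hj hij
      refine Set.disjoint_left.2 fun x hx hx' => ?_
      rcases abs_cases (c i - c j) with h | h <;> linarith [hx.1, hx.2, hx'.1, hx'.2])
    (fun i _ => measurableSet_Ico) (fun i _ => measure_Ico_lt_top.ne)
  have h2 : (volume : Measure ℝ).real (⋃ i ∈ T, Ico (c i - r i) (c i + r i)) ≤
      (volume : Measure ℝ).real (Ico a b) :=
    measureReal_mono (iUnion₂_subset fun i hi => Ico_subset_Ico (hin i hi).1 (hin i hi).2)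
      measure_Ico_lt_top.ne
  rw [h1, Real.volume_real_Ico_of_le hab] at h2
  refine le_trans (le_of_eq (Finset.sum_congr rfl fun i hi => ?_)) h2
  rw [Real.volume_real_Ico_of_le (by linarith [hr i hi])]; ring

theorem card_half (S : ℕ) (T : Finset ℕ) (h : 100 * (Finset.range (S + 1) \ T).card ≤ S) :
    49 * S + 50 ≤ 100 * (T.filter fun z => 2 * z ≤ S).card := by
  have h1 : Finset.range (S / 2 + 1) ⊆ (T.filter fun z => 2 * z ≤ S) ∪ (Finset.range (S + 1) \ T) := by
    intro z hz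
    rw [Finset.mem_range] at hz
    by_cases hT : z ∈ T
    · exact Finset.mem_union_left _ (Finset.mem_filter.2 ⟨hT, by omega⟩)
    · exact Finset.mem_union_right _ (Finset.mem_sdiff.2 ⟨Finset.mem_range.2 (by omega), hT⟩)
  have h2 := (Finset.card_le_card h1).trans (Finset.card_union_le _ _)
  rw [Finset.card_range] at h2
  omega

theorem sep {T : Finset ℕ} {h : ℕ → ℝ} (hs : ∀ z ∈ T, ∀ z' ∈ T, z < z' → h z + 0.99 ≤ h z')
    {z z' : ℕ} (hz : z ∈ T) (hz' : z' ∈ T) (hne : z ≠ z') : 0.99 ≤ |h z - h z'| := by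
  rcases lt_or_gt_of_ne hne with h1 | h1
  · have := hs z hz z' hz' h1
    rw [abs_sub_comm]; exact le_trans (by linarith) (le_abs_self _)
  · have := hs z' hz' z hz h1
    exact le_trans (by linarith) (le_abs_self _)

end MatchAux

open MatchAux in
theorem match_proof : MATCH := by
  intro S h₁ h₂ T₁ T₂ _ _ c₁ c₂ b₁ b₂ s₁ s₂
  set A := T₁.filter fun z => 2 * z ≤ S with hA
  set B := T₂.filter fun z => 2 * z ≤ S with hB
  set P : ℕ → Prop := fun y => ∃ z ∈ A, |h₁ z - h₂ y| ≤ 0.6 with hP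
  have hA1 : (49 * S + 50 : ℝ) ≤ 100 * A.card := by exact_mod_cast card_half S T₁ c₁
  have hB1 : (49 * S + 50 : ℝ) ≤ 100 * B.card := by exact_mod_cast card_half S T₂ c₂
  have hB2 : ((B.filter P).card : ℝ) + (B.filter fun y => ¬ P y).card = B.card := by
    exact_mod_cast Finset.card_filter_add_card_filter_not P
  have half : ∀ z : ℕ, 2 * z ≤ S → (z : ℝ) ≤ S / 2 := fun z hz => by
    have : (2 * z : ℝ) ≤ S := by exact_mod_cast hz
    linarith
  have hp := pack (A.disjSum (B.filter fun y => ¬ P y)) (Sum.elim h₁ h₂)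
    (Sum.elim (fun _ => 0.495) fun _ => 0.105) (-0.495) (S / 2 + 0.495)
    (by have : (0 : ℝ) ≤ S := Nat.cast_nonneg S
        linarith)
    (by rintro (z | y) _ <;> norm_num)
    (by
      rintro (z | y) h
      · obtain ⟨h1, h2⟩ := Finset.mem_filter.1 (Finset.inl_mem_disjSum.1 h)
        have := b₁ z h1
        have := half z h2
        simp only [Sum.elim_inl]; constructor <;> linarith
      · obtain ⟨h1, h2⟩ := Finset.mem_filter.1 (Finset.mem_filter.1 (Finset.inr_mem_disjSum.1 h)).1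
        have := b₂ y h1
        have := half y h2
        simp only [Sum.elim_inr]; constructor <;> linarith)
    (by
      have mix : ∀ z ∈ A, ∀ y ∈ B.filter fun y => ¬ P y, 0.6 ≤ |h₁ z - h₂ y| := fun z hz y hy =>
        (not_le.1 fun h => (Finset.mem_filter.1 hy).2 ⟨z, hz, h⟩).le
      rintro (z | y) h (z' | y') h' hne <;> simp only [Sum.elim_inl, Sum.elim_inr]
      · have := sep s₁ (Finset.mem_filter.1 (Finset.inl_mem_disjSum.1 h)).1
          (Finset.mem_filter.1 (Finset.inl_mem_disjSum.1 h')).1 fun e => hne (congrArg _ e)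
        linarith
      · have := mix z (Finset.inl_mem_disjSum.1 h) y' (Finset.inr_mem_disjSum.1 h')
        linarith
      · have := mix z' (Finset.inl_mem_disjSum.1 h') y (Finset.inr_mem_disjSum.1 h)
        rw [abs_sub_comm]; linarith
      · have := sep s₂ (Finset.mem_filter.1 (Finset.mem_filter.1 (Finset.inr_mem_disjSum.1 h)).1).1
          (Finset.mem_filter.1 (Finset.mem_filter.1 (Finset.inr_mem_disjSum.1 h')).1).1
          fun e => hne (congrArg _ e)
        linarith)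
  rw [Finset.sum_disjSum] at hp
  simp only [Sum.elim_inl, Sum.elim_inr, Finset.sum_const, nsmul_eq_mul] at hp
  set M := B.filter P with hM
  have hM1 : ∀ i : Fin (S / 5 - 4), 2 * (i + 1) < M.card := fun i => by
    have h1 : 5 * ((i : ℕ) + 1) + 20 ≤ S := by have := i.2; omega
    have h2 : (5 * ((i : ℕ) + 1) + 20 : ℝ) ≤ S := by exact_mod_cast h1
    have h3 : (2 * ((i : ℕ) + 1) : ℝ) < M.card := by linarith
    exact_mod_cast h3
  set e := M.orderEmbOfFin rfl with he
  have hmem : ∀ t, e t ∈ T₂ ∧ 2 * e t ≤ S ∧ P (e t) := fun t => by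
    have h1 := Finset.mem_filter.1 (M.orderEmbOfFin_mem rfl t)
    exact ⟨(Finset.mem_filter.1 h1.1).1, (Finset.mem_filter.1 h1.1).2, h1.2⟩
  have step : ∀ (t u : ℕ) (ht : t < M.card) (hu : u < M.card), t + 2 ≤ u →
      h₂ (e ⟨t, ht⟩) + 1.98 ≤ h₂ (e ⟨u, hu⟩) := fun t u ht hu htu => by
    have a1 := s₂ _ (hmem ⟨t, ht⟩).1 _ (hmem ⟨t + 1, by omega⟩).1
      (e.strictMono (Fin.mk_lt_mk.2 (by omega)))
    have a2 := s₂ _ (hmem ⟨t + 1, by omega⟩).1 _ (hmem ⟨u, hu⟩).1
      (e.strictMono (Fin.mk_lt_mk.2 (by omega)))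
    linarith
  choose zs hz1 hz2 using fun t => (hmem t).2.2
  refine ⟨fun i => zs ⟨_, hM1 i⟩, fun i => e ⟨_, hM1 i⟩, fun i => ⟨(Finset.mem_filter.1 (hz1 _)).1,
    (hmem _).1, (Finset.mem_filter.1 (hz1 _)).2, (hmem _).2.1, hz2 _, ?_⟩, fun i j hij => ?_⟩
  · have a1 := step 0 _ (by have := hM1 i; omega) (hM1 i) (by omega)
    have a2 := (b₂ _ (hmem ⟨0, by have := hM1 i; omega⟩).1).1
    have a3 := abs_le.1 (hz2 ⟨_, hM1 i⟩)
    exact le_min (by linarith) (by linarith)
  · have a1 := step _ _ (hM1 i) (hM1 j) (by have : (i : ℕ) < j := hij; omega)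
    have a3 := abs_le.1 (hz2 ⟨_, hM1 j⟩)
    have a4 := min_le_right (h₁ (zs ⟨_, hM1 i⟩)) (h₂ (e ⟨_, hM1 i⟩))
    exact le_min (by linarith) (by linarith)

end

end Crest.Agent.R128
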