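import Crest.Agent.R128.Defs

/-! Row 128, task MAX (maximal inequality). -/

set_option autoImplicit false

namespace Crest.Agent.R128

open MeasureTheory Set Filter
open scoped BigOperators Classical

namespace MaxAux

theorem cont_xi (k : ℝ) (f g : ℝ × ℝ → ℝ) (hf : Continuous f) (hg : Continuous g) :
    ∀ j, Continuous (fun ω => xi k (f ω) (g ω) j) ∧ Continuous (fun ω => xi k (f ω) (g ω) (j + 1)) := by
  intro j
  induction j with
  | zero => exact ⟨hf, hg⟩
  | succ j ih =>
    refine ⟨ih.2, ?_⟩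
    have h1 := ih.1
    have h2 := ih.2
    show Continuous (fun ω => Fm k (xi k (f ω) (g ω) (j + 1)) - xi k (f ω) (g ω) j)
    unfold Fm
    fun_prop

theorem meas_VV (k : ℝ) : Measurable (VV k) := by
  refine measurable_pi_lambda _ fun j => Continuous.measurable ?_
  have : Continuous (fun ω => orb k ω j) := by
    cases j with
    | ofNat n => exact (cont_xi k _ _ continuous_fst continuous_snd n).1
    | negSucc n => exact (cont_xi k _ _ continuous_snd continuous_fst (n + 2)).1
  unfold VV Wm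
  fun_prop

theorem meas_sh (t : ℤ) : Measurable (fun V : ℤ → ℝ => sh V t) :=
  measurable_pi_lambda _ fun j => measurable_pi_apply (j + t)

theorem sh_sh (V : ℤ → ℝ) (s t : ℤ) : sh (sh V s) t = sh V (t + s) := by
  funext j
  simp only [sh, add_assoc]

theorem cnt_eq (P : ℤ → Prop) (i : ℕ) :
    (cnt P i : ℝ) = ∑ j ∈ Finset.range i, if P ((j : ℤ) + 1) then (1 : ℝ) else 0 := by
  unfold cnt
  rw [Finset.sum_boole]

theorem meas_dense (Q : (ℤ → ℝ) → Prop) (hQ : MeasurableSet {V | Q V}) (c : ℝ) (N : ℕ) :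
    MeasurableSet {V | Dense (fun j => Q (sh V j)) c N} := by
  have : {V | Dense (fun j => Q (sh V j)) c N} =
      ⋃ i : ℕ, {_V | 1 ≤ i ∧ i ≤ N} ∩ {V | c * i ≤ (cnt (fun j => Q (sh V j)) i : ℝ)} := by
    ext V
    simp only [Dense, mem_ofPred_eq, mem_iUnion, mem_inter_iff, and_assoc]
  rw [this]
  refine MeasurableSet.iUnion fun i => (MeasurableSet.const _).inter ?_
  refine measurableSet_le measurable_const ?_
  simp only [cnt_eq]
  refine Finset.measurable_sum _ fun j _ => Measurable.ite ?_ measurable_const measurable_const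
  exact meas_sh _ hQ

instance : IsFiniteMeasure mu := by
  unfold mu
  refine isFiniteMeasure_restrict.mpr ?_
  rw [Measure.volume_eq_prod, Measure.prod_prod]
  simp

theorem int_ite (k : ℝ) (Q : (ℤ → ℝ) → Prop) (hQ : MeasurableSet {V | Q V}) :
    Integrable (fun ω => if Q (VV k ω) then (1 : ℝ) else 0) mu ∧
    ∫ ω, (if Q (VV k ω) then (1 : ℝ) else 0) ∂mu = Pr k Q := by
  have hs : MeasurableSet {ω | Q (VV k ω)} := meas_VV k hQ
  have e : (fun ω => if Q (VV k ω) then (1 : ℝ) else 0) = {ω | Q (VV k ω)}.indicator 1 := by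
    funext ω
    simp only [indicator, mem_ofPred_eq, Pi.one_apply]
  rw [e]
  exact ⟨(integrable_const (1 : ℝ)).indicator hs, integral_indicator_one hs⟩

end MaxAux

open MaxAux in
theorem max_proof (hRS : RS) (hS : SHIFT) : MAX := by
  intro k Q hQ c hc N
  have hD := meas_dense Q hQ c N
  set D : (ℤ → ℝ) → Prop := fun V => Dense (fun j => Q (sh V j)) c N with hDdef
  have pt : ∀ (T : ℕ) (V : ℤ → ℝ),
      c * ∑ t ∈ Finset.range T, (if D (sh V t) then (1 : ℝ) else 0) ≤
        ∑ j ∈ Finset.range (T + N), if Q (sh V ((j : ℤ) + 1)) then (1 : ℝ) else 0 := by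
    intro T V
    have h := hRS (fun j : ℕ => if Q (sh V ((j : ℤ) + 1)) then (1 : ℝ) else 0)
      (fun j => by split_ifs <;> norm_num) c hc (T + N)
    refine le_trans (mul_le_mul_of_nonneg_left ?_ hc.le) h
    rw [Finset.sum_boole]
    refine Nat.cast_le.mpr (Finset.card_le_card fun t ht => ?_)
    simp only [Finset.mem_filter, Finset.mem_range] at ht ⊢
    obtain ⟨ht1, i, hi1, hiN, hci⟩ := ht
    refine ⟨by omega, i, hi1, by omega, ?_⟩
    rw [cnt_eq] at hci
    rw [Finset.sum_Ico_eq_sum_range, Nat.add_sub_cancel_left]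
    refine hci.trans (le_of_eq (Finset.sum_congr rfl fun j _ => ?_))
    rw [sh_sh]
    have : (j : ℤ) + 1 + t = ((t + j : ℕ) : ℤ) + 1 := by push_cast; ring
    rw [this]
  have key : ∀ T : ℕ, c * (T * Pr k D) ≤ (T + N) * Pr k Q := by
    intro T
    have i1 : ∀ t : ℤ, Integrable (fun ω => if D (sh (VV k ω) t) then (1 : ℝ) else 0) mu ∧
        ∫ ω, (if D (sh (VV k ω) t) then (1 : ℝ) else 0) ∂mu = Pr k D := fun t => by
      rw [← hS k D hD t]
      exact int_ite k (fun V => D (sh V t)) (meas_sh t hD)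
    have i2 : ∀ t : ℤ, Integrable (fun ω => if Q (sh (VV k ω) t) then (1 : ℝ) else 0) mu ∧
        ∫ ω, (if Q (sh (VV k ω) t) then (1 : ℝ) else 0) ∂mu = Pr k Q := fun t => by
      rw [← hS k Q hQ t]
      exact int_ite k (fun V => Q (sh V t)) (meas_sh t hQ)
    have := integral_mono (μ := mu)
      ((integrable_finsetSum (Finset.range T) fun t _ => (i1 t).1).const_mul c)
      (integrable_finsetSum (Finset.range (T + N)) fun j _ => (i2 ((j : ℤ) + 1)).1)
      (fun ω => pt T (VV k ω))
    rw [integral_const_mul, integral_finsetSum _ (fun (t : ℕ) _ => (i1 t).1),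
      integral_finsetSum _ (fun (j : ℕ) _ => (i2 ((j : ℤ) + 1)).1)] at this
    simp only [(i1 _).2, (i2 _).2, Finset.sum_const, Finset.card_range, nsmul_eq_mul] at this
    push_cast at this
    exact this
  rw [le_div_iff₀ hc]
  by_contra hlt
  push Not at hlt
  obtain ⟨T, hT⟩ := exists_nat_gt (N * Pr k Q / (Pr k D * c - Pr k Q))
  rw [div_lt_iff₀ (by linarith)] at hT
  have := key T
  nlinarith

end Crest.Agent.R128
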