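import Crest.Agent.R128.Defs

/-! Task NC: an alternating system forces a hole. -/

set_option autoImplicit false

namespace Crest.Agent.R128

open MeasureTheory Set Filter
open scoped Real BigOperators Classical

namespace NCAux

/-- nodal products -/
noncomputable def PP (t : Fin 5 → ℝ) (i : Fin 5) : ℝ := ∏ j ∈ Finset.univ.erase i, (t i - t j)

theorem PP0 (t : Fin 5 → ℝ) : PP t 0 = (t 0 - t 1) * ((t 0 - t 2) * ((t 0 - t 3) * (t 0 - t 4))) := by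
  have : (Finset.univ : Finset (Fin 5)).erase 0 = {1, 2, 3, 4} := by decide
  unfold PP; rw [this]; simp

theorem PP1 (t : Fin 5 → ℝ) : PP t 1 = (t 1 - t 0) * ((t 1 - t 2) * ((t 1 - t 3) * (t 1 - t 4))) := by
  have : (Finset.univ : Finset (Fin 5)).erase 1 = {0, 2, 3, 4} := by decide
  unfold PP; rw [this]; simp

theorem PP2 (t : Fin 5 → ℝ) : PP t 2 = (t 2 - t 0) * ((t 2 - t 1) * ((t 2 - t 3) * (t 2 - t 4))) := by
  have : (Finset.univ : Finset (Fin 5)).erase 2 = {0, 1, 3, 4} := by decide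
  unfold PP; rw [this]; simp

theorem PP3 (t : Fin 5 → ℝ) : PP t 3 = (t 3 - t 0) * ((t 3 - t 1) * ((t 3 - t 2) * (t 3 - t 4))) := by
  have : (Finset.univ : Finset (Fin 5)).erase 3 = {0, 1, 2, 4} := by decide
  unfold PP; rw [this]; simp

theorem PP4 (t : Fin 5 → ℝ) : PP t 4 = (t 4 - t 0) * ((t 4 - t 1) * ((t 4 - t 2) * (t 4 - t 3))) := by
  have : (Finset.univ : Finset (Fin 5)).erase 4 = {0, 1, 2, 3} := by decide
  unfold PP; rw [this]; simp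

theorem sum_inv_aux (a b c d : ℝ) (ha : a ≠ 0) (hb : b ≠ 0) (hc : c ≠ 0) (hd : d ≠ 0)
    (hab : a - b ≠ 0) (hac : a - c ≠ 0) (had : a - d ≠ 0) (hbc : b - c ≠ 0) (hbd : b - d ≠ 0)
    (hcd : c - d ≠ 0) :
    1 / (a * b * c * d) + 1 / (a * (a - b) * (a - c) * (a - d)) -
      1 / (b * (a - b) * (b - c) * (b - d)) + 1 / (c * (a - c) * (b - c) * (c - d)) -
      1 / (d * (a - d) * (b - d) * (c - d)) = 0 := by
  have hV : a * b * c * d * ((a - b) * (a - c) * (a - d) * (b - c) * (b - d) * (c - d)) ≠ 0 := by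
    positivity
  have e0 : 1 / (a * b * c * d) = (a - b) * (a - c) * (a - d) * (b - c) * (b - d) * (c - d) /
      (a * b * c * d * ((a - b) * (a - c) * (a - d) * (b - c) * (b - d) * (c - d))) := by
    field_simp
  have e1 : 1 / (a * (a - b) * (a - c) * (a - d)) = b * c * d * (b - c) * (b - d) * (c - d) /
      (a * b * c * d * ((a - b) * (a - c) * (a - d) * (b - c) * (b - d) * (c - d))) := by
    field_simp
  have e2 : 1 / (b * (a - b) * (b - c) * (b - d)) = a * c * d * (a - c) * (a - d) * (c - d) /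
      (a * b * c * d * ((a - b) * (a - c) * (a - d) * (b - c) * (b - d) * (c - d))) := by
    field_simp
  have e3 : 1 / (c * (a - c) * (b - c) * (c - d)) = a * b * d * (a - b) * (a - d) * (b - d) /
      (a * b * c * d * ((a - b) * (a - c) * (a - d) * (b - c) * (b - d) * (c - d))) := by
    field_simp
  have e4 : 1 / (d * (a - d) * (b - d) * (c - d)) = a * b * c * (a - b) * (a - c) * (b - c) /
      (a * b * c * d * ((a - b) * (a - c) * (a - d) * (b - c) * (b - d) * (c - d))) := by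
    field_simp
  rw [e0, e1, e2, e3, e4, ← add_div, ← sub_div, ← add_div, ← sub_div, div_eq_zero_iff]
  left; ring

theorem sum_inv_PP {t : Fin 5 → ℝ} (ht : StrictMono t) : ∑ i, 1 / PP t i = 0 := by
  have h : ∀ i j : Fin 5, i ≠ j → t i - t j ≠ 0 := fun i j hij =>
    sub_ne_zero.2 fun e => hij (ht.injective e)
  have h' : ∀ i j : Fin 5, i ≠ j → (t i - t 0) - (t j - t 0) ≠ 0 := fun i j hij => by
    rw [sub_sub_sub_cancel_right]; exact h i j hij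
  have key := sum_inv_aux (t 1 - t 0) (t 2 - t 0) (t 3 - t 0) (t 4 - t 0) (h 1 0 (by decide))
    (h 2 0 (by decide)) (h 3 0 (by decide)) (h 4 0 (by decide)) (h' 1 2 (by decide))
    (h' 1 3 (by decide)) (h' 1 4 (by decide)) (h' 2 3 (by decide)) (h' 2 4 (by decide))
    (h' 3 4 (by decide))
  simp only [sub_sub_sub_cancel_right] at key
  have e0 : PP t 0 = (t 1 - t 0) * (t 2 - t 0) * (t 3 - t 0) * (t 4 - t 0) := by rw [PP0]; ring
  have e1 : PP t 1 = (t 1 - t 0) * (t 1 - t 2) * (t 1 - t 3) * (t 1 - t 4) := by rw [PP1]; ring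
  have e2 : PP t 2 = -((t 2 - t 0) * (t 1 - t 2) * (t 2 - t 3) * (t 2 - t 4)) := by rw [PP2]; ring
  have e3 : PP t 3 = (t 3 - t 0) * (t 1 - t 3) * (t 2 - t 3) * (t 3 - t 4) := by rw [PP3]; ring
  have e4 : PP t 4 = -((t 4 - t 0) * (t 1 - t 4) * (t 2 - t 4) * (t 3 - t 4)) := by rw [PP4]; ring
  rw [Fin.sum_univ_five, e0, e1, e2, e3, e4, div_neg, div_neg]
  linarith

theorem sign_PP {t : Fin 5 → ℝ} (ht : StrictMono t) (i : Fin 5) :
    0 < (-1 : ℝ) ^ (i : ℕ) * PP t i := by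
  have h : ∀ i j : Fin 5, i < j → 0 < t j - t i := fun i j hij => sub_pos.2 (ht hij)
  have h01 := h 0 1 (by decide); have h02 := h 0 2 (by decide); have h03 := h 0 3 (by decide)
  have h04 := h 0 4 (by decide); have h12 := h 1 2 (by decide); have h13 := h 1 3 (by decide)
  have h14 := h 1 4 (by decide); have h23 := h 2 3 (by decide); have h24 := h 2 4 (by decide)
  have h34 := h 3 4 (by decide)
  fin_cases i
  · have : (-1 : ℝ) ^ ((0 : Fin 5) : ℕ) * PP t 0 =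
        (t 1 - t 0) * (t 2 - t 0) * (t 3 - t 0) * (t 4 - t 0) := by
      rw [PP0]; simp only [Fin.val_zero, pow_zero]; ring
    exact this ▸ (by positivity)
  · have : (-1 : ℝ) ^ ((1 : Fin 5) : ℕ) * PP t 1 =
        (t 1 - t 0) * (t 2 - t 1) * (t 3 - t 1) * (t 4 - t 1) := by
      rw [PP1, show ((1 : Fin 5) : ℕ) = 1 from rfl]; ring
    exact this ▸ (by positivity)
  · have : (-1 : ℝ) ^ ((2 : Fin 5) : ℕ) * PP t 2 =
        (t 2 - t 0) * (t 2 - t 1) * (t 3 - t 2) * (t 4 - t 2) := by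
      rw [PP2, show ((2 : Fin 5) : ℕ) = 2 from rfl]; ring
    exact this ▸ (by positivity)
  · have : (-1 : ℝ) ^ ((3 : Fin 5) : ℕ) * PP t 3 =
        (t 3 - t 0) * (t 3 - t 1) * (t 3 - t 2) * (t 4 - t 3) := by
      rw [PP3, show ((3 : Fin 5) : ℕ) = 3 from rfl]; ring
    exact this ▸ (by positivity)
  · have : (-1 : ℝ) ^ ((4 : Fin 5) : ℕ) * PP t 4 =
        (t 4 - t 0) * (t 4 - t 1) * (t 4 - t 2) * (t 4 - t 3) := by
      rw [PP4, show ((4 : Fin 5) : ℕ) = 4 from rfl]; ring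
    exact this ▸ (by positivity)

theorem abs_PP {t : Fin 5 → ℝ} (ht : StrictMono t) (i : Fin 5) :
    |PP t i| = (-1 : ℝ) ^ (i : ℕ) * PP t i := by
  rw [← abs_of_pos (sign_PP ht i), abs_mul, abs_pow, abs_neg, abs_one, one_pow, one_mul]

theorem PP_ne {t : Fin 5 → ℝ} (ht : StrictMono t) (i : Fin 5) : PP t i ≠ 0 := by
  intro h
  have := sign_PP ht i
  rw [h, mul_zero] at this
  exact lt_irrefl _ this

/-- the abstract alternation inequality -/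
theorem alt_ineq {t : Fin 5 → ℝ} (ht : StrictMono t) (H I₁ I₂ : ℝ → ℝ) (c q s γ A e : ℝ)
    (hs : s = 1 ∨ s = -1) (hA : 0 ≤ A)
    (hγ : ∀ i : Fin 5, γ ≤ (-1) ^ (i : ℕ) * s * (H (t i) - q))
    (he : ∀ i : Fin 5, |A * (c - I₁ (t i) - I₂ (t i)) - H (t i)| ≤ e) :
    (γ - e) * ∑ i, 1 / |PP t i| ≤ A * (|dd I₁ t| + |dd I₂ t|) := by
  have h0 := sum_inv_PP ht
  have h1 : ∑ i, (γ - e) * (1 / |PP t i|) ≤
      ∑ i, s * (A * (c - I₁ (t i) - I₂ (t i)) - q) * (1 / PP t i) := by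
    refine Finset.sum_le_sum fun i _ => ?_
    have hp : 0 < |PP t i| := abs_pos.2 (PP_ne ht i)
    have hsq : ((-1 : ℝ) ^ (i : ℕ)) * (-1) ^ (i : ℕ) = 1 := by
      rw [← mul_pow]; simp
    have e1 : 1 / PP t i = (-1 : ℝ) ^ (i : ℕ) * (1 / |PP t i|) := by
      rw [abs_PP ht i]
      have := PP_ne ht i
      have h2 : ((-1 : ℝ) ^ (i : ℕ)) ≠ 0 := by positivity
      field_simp
    rw [e1, ← mul_assoc]
    refine mul_le_mul_of_nonneg_right ?_ (by positivity)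
    have h3 := hγ i
    have h4 := abs_le.1 (he i)
    have h5 : (-1 : ℝ) ^ (i : ℕ) = 1 ∨ (-1 : ℝ) ^ (i : ℕ) = -1 := neg_one_pow_eq_or ℝ _
    rcases hs with hs | hs <;> rcases h5 with h5 | h5 <;> rw [hs, h5] at h3 <;> rw [hs, h5] <;>
      linarith [h4.1, h4.2]
  have h2 : ∑ i, s * (A * (c - I₁ (t i) - I₂ (t i)) - q) * (1 / PP t i) =
      s * (A * c - q) * ∑ i, 1 / PP t i - s * A * (dd I₁ t + dd I₂ t) := by
    unfold dd
    rw [← Finset.sum_add_distrib, Finset.mul_sum, Finset.mul_sum, ← Finset.sum_sub_distrib]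
    refine Finset.sum_congr rfl fun i _ => ?_
    change _ = _ - s * A * (I₁ (t i) / PP t i + I₂ (t i) / PP t i)
    ring
  rw [Finset.mul_sum]
  refine h1.trans ?_
  rw [h2, h0, mul_zero, zero_sub]
  have h6 := abs_le.1 (le_refl |dd I₁ t|)
  have h7 := abs_le.1 (le_refl |dd I₂ t|)
  rcases hs with hs | hs <;> rw [hs] <;> nlinarith [h6.1, h6.2, h7.1, h7.2]

theorem sum_ge {t : Fin 5 → ℝ} (ht : StrictMono t) {L : ℝ} (hL : ∀ i j, t i - t j ≤ L) :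
    1 / L ^ 4 ≤ ∑ i, 1 / |PP t i| := by
  have h : ∀ i j : Fin 5, i < j → 0 < t j - t i := fun i j hij => sub_pos.2 (ht hij)
  have h04 := h 0 4 (by decide); have h14 := h 1 4 (by decide); have h24 := h 2 4 (by decide)
  have h34 := h 3 4 (by decide)
  have e : |PP t 4| = (t 4 - t 0) * ((t 4 - t 1) * ((t 4 - t 2) * (t 4 - t 3))) := by
    rw [PP4, abs_of_pos (by positivity)]
  have h1 : |PP t 4| ≤ L ^ 4 := by
    rw [e, show L ^ 4 = L * (L * (L * L)) by ring]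
    have := hL 4 0; have := hL 4 1; have := hL 4 2; have := hL 4 3
    gcongr
    all_goals linarith
  refine le_trans (one_div_le_one_div_of_le (abs_pos.2 (PP_ne ht 4)) h1) ?_
  exact Finset.single_le_sum (f := fun i => 1 / |PP t i|) (fun _ _ => by positivity)
    (Finset.mem_univ 4)

theorem core {𝕂 K : ℝ} {H a₁ A₁ u₁ I₁ a₂ A₂ u₂ I₂ : ℝ → ℝ} {p₀ N₁ N₂ α ℓ c γ M : ℝ} {E : Set ℝ}
    (S₁ : Side 𝕂 a₁ A₁ u₁ I₁ p₀ N₁) (S₂ : Side 𝕂 a₂ A₂ u₂ I₂ p₀ N₂) (h21 : N₂ ≤ N₁)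
    (hK : 0 ≤ K) (h𝕂 : 0 < 𝕂) (h6 : N₁ ≤ 𝕂 ^ (0.6 : ℝ) * N₂) (h7 : 512 * 𝕂 ^ (0.6 : ℝ) + 1 ≤ 𝕂 ^ (0.7 : ℝ))
    (hl1 : 256 ≤ ℓ * N₂) (hl2 : ℓ * N₂ ≤ 512) (hα1 : α ≤ p₀) (hα2 : p₀ ≤ α + ℓ)
    (hE : ∀ p ∈ E, |p - p₀| ≤ 𝕂 ^ (0.7 : ℝ) / N₁ →
      |K * N₂ ^ 2 * (c - I₁ p - I₂ p) - H p| ≤ 4 * K * 𝕂 ^ (-2.9 : ℝ))
    (hM : N₁ ^ 2 ≤ M * N₂ ^ 2)
    (hγ : K * 𝕂 ^ (-2.9 : ℝ) * (1024 ^ 4 * (M + 1) + 4) < γ)
    (hA : AltSys H α ℓ N₁ γ) :
    ∃ U : Set ℝ, MeasurableSet U ∧ U ⊆ Ico α (α + ℓ) ∧ ENNReal.ofReal (c0 * ℓ) ≤ volume U ∧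
      ∀ p ∈ U, ∀ p' ∈ E, c0 / N₁ ≤ |p - p'| := by
  obtain ⟨q, s, U, hs, hU, hsep, halt⟩ := hA
  by_contra hcon
  have hex : ∀ i, ∃ p ∈ U i, ∃ p' ∈ E, |p - p'| < c0 / N₁ := by
    intro i
    by_contra h
    push Not at h
    exact hcon ⟨U i, (hU i).1, (hU i).2.1, (hU i).2.2, h⟩
  choose p hp t htE hpt using hex
  have hN1 := S₁.pos
  have hN2 := S₂.pos
  have hc0 : 0 < c0 := by unfold c0; positivity
  have hc1 : c0 ≤ 1 := by unfold c0; norm_num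
  have hcN : c0 / N₁ ≤ 1 / N₁ := by gcongr
  have ht : StrictMono t := by
    intro i j hij
    have h1 := hsep i j hij _ (hp i) _ (hp j)
    have h2 := abs_lt.1 (hpt i)
    have h3 := abs_lt.1 (hpt j)
    have : 2 * c0 / N₁ = c0 / N₁ + c0 / N₁ := by ring
    linarith [h2.1, h2.2, h3.1, h3.2]
  have hℓ1 : ℓ ≤ 512 * 𝕂 ^ (0.6 : ℝ) / N₁ := by
    rw [le_div_iff₀ hN1]
    have hℓ : 0 < ℓ := by
      by_contra h
      push Not at h
      nlinarith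
    calc ℓ * N₁ ≤ ℓ * (𝕂 ^ (0.6 : ℝ) * N₂) := by gcongr
      _ = (ℓ * N₂) * 𝕂 ^ (0.6 : ℝ) := by ring
      _ ≤ 512 * 𝕂 ^ (0.6 : ℝ) := by gcongr
  have hℓ2 : 256 * (1 / N₁) ≤ ℓ := by
    rw [mul_one_div, div_le_iff₀ hN1]
    have hℓ : 0 < ℓ := by
      by_contra h
      push Not at h
      nlinarith
    nlinarith
  have hpos1 : 0 < 1 / N₁ := by positivity
  have hr1 : ∀ i, |t i - p₀| ≤ 𝕂 ^ (0.7 : ℝ) / N₁ := by
    intro i
    have h2 := abs_lt.1 (hpt i)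
    have h3 := (hU i).2.1 (hp i)
    have h4 : 512 * 𝕂 ^ (0.6 : ℝ) / N₁ + 1 / N₁ ≤ 𝕂 ^ (0.7 : ℝ) / N₁ := by
      rw [← add_div]; gcongr
    rw [abs_le]
    constructor <;> linarith [h2.1, h2.2, h3.1, h3.2]
  have hr2 : ∀ i, |t i - p₀| ≤ 𝕂 ^ (0.7 : ℝ) / N₂ := fun i =>
    (hr1 i).trans (by gcongr)
  have hL : ∀ i j, t i - t j ≤ 1024 / N₂ := by
    intro i j
    have h2 := abs_lt.1 (hpt i)
    have h3 := (hU i).2.1 (hp i)
    have h4 := abs_lt.1 (hpt j)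
    have h5 := (hU j).2.1 (hp j)
    have h6 : ℓ ≤ 512 / N₂ := by rw [le_div_iff₀ hN2]; exact hl2
    have h7 : 1024 / N₂ = 512 / N₂ + 512 / N₂ := by ring
    linarith [h2.1, h2.2, h3.1, h3.2, h4.1, h4.2, h5.1, h5.2]
  have hW := sum_ge ht hL
  have hI := alt_ineq ht H I₁ I₂ c q s γ (K * N₂ ^ 2) (4 * K * 𝕂 ^ (-2.9 : ℝ)) hs (by positivity)
    (fun i => halt i _ (hp i) _ (hpt i)) (fun i => hE _ (htE i) (hr1 i))
  have hd1 := S₁.four t ht hr1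
  have hd2 := S₂.four t ht hr2
  have he : 0 < 𝕂 ^ (-2.9 : ℝ) := Real.rpow_pos_of_pos h𝕂 _
  generalize 𝕂 ^ (-2.9 : ℝ) = e at *
  generalize ∑ i, 1 / |PP t i| = W at *
  have hM0 : 0 ≤ M := by
    by_contra h
    push Not at h
    nlinarith [pow_pos hN1 2, pow_pos hN2 2]
  have hKe : 0 ≤ K * e := by positivity
  have e1 : 1 / (1024 / N₂) ^ 4 = N₂ ^ 4 / 1024 ^ 4 := by field_simp
  rw [e1] at hW
  have hg : K * e * (1024 ^ 4 * (M + 1)) < γ - 4 * K * e := by linarith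
  have hg0 : 0 ≤ K * e * (1024 ^ 4 * (M + 1)) := by positivity
  have hN4 : 0 < N₂ ^ 4 / 1024 ^ 4 := by positivity
  have b1 : K * N₂ ^ 2 * (|dd I₁ t| + |dd I₂ t|) ≤ K * N₂ ^ 2 * ((M + 1) * N₂ ^ 2 * e) := by
    refine mul_le_mul_of_nonneg_left ?_ (by positivity)
    nlinarith
  have b2 : K * e * (1024 ^ 4 * (M + 1)) * (N₂ ^ 4 / 1024 ^ 4) < (γ - 4 * K * e) * W :=
    calc _ < (γ - 4 * K * e) * (N₂ ^ 4 / 1024 ^ 4) := mul_lt_mul_of_pos_right hg hN4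
      _ ≤ _ := mul_le_mul_of_nonneg_left hW (by linarith)
  have b3 : K * e * (1024 ^ 4 * (M + 1)) * (N₂ ^ 4 / 1024 ^ 4) =
      K * N₂ ^ 2 * ((M + 1) * N₂ ^ 2 * e) := by field_simp
  linarith

theorem tendsto_KK' : Tendsto KK atTop atTop := by
  unfold KK
  exact tendsto_atTop_add_const_right _ _
    (Tendsto.const_mul_atTop (by positivity : (0 : ℝ) < 2 * π) tendsto_id)

end NCAux

open NCAux in
theorem nc_proof (hND : ND) (hDG : DG) : NC := by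
  have hx : ∀ᶠ k : ℝ in atTop, 1024 ≤ KK k ^ (0.1 : ℝ) :=
    ((tendsto_rpow_atTop (by norm_num : (0 : ℝ) < 0.1)).comp tendsto_KK').eventually_ge_atTop _
  filter_upwards [hND, hDG, hx, eventually_ge_atTop (0 : ℝ)] with k hN hD hx hk
  intro a₁ A₁ u₁ I₁ a₂ A₂ u₂ I₂ p₀ N₁ N₂ α ℓ c E S₁ S₂ h21 h6 hl1 hl2 hα1 hα2 hE
  have hK : 0 ≤ 2 * π * k := by positivity
  have h𝕂 : 0 < KK k := by unfold KK; positivity
  have hK𝕂 : 2 * π * k ≤ KK k := by unfold KK; linarith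
  have hN1 := S₁.pos
  have hN2 := S₂.pos
  obtain ⟨x, hxe⟩ : ∃ x, x = KK k ^ (0.1 : ℝ) := ⟨_, rfl⟩
  rw [← hxe] at hx
  have hx0 : 0 < x := by linarith
  have hp : ∀ (n : ℕ) (y : ℝ), y = 0.1 * n → KK k ^ y = x ^ n := by
    intro n y hy
    rw [hy, Real.rpow_mul h𝕂.le, ← hxe, Real.rpow_natCast]
  have e6 := hp 6 0.6 (by norm_num)
  have e7 := hp 7 0.7 (by norm_num)
  have e10 : KK k = x ^ 10 := by
    have := hp 10 1 (by norm_num)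
    rwa [Real.rpow_one] at this
  have e29 : KK k ^ (-2.9 : ℝ) = (x ^ 29)⁻¹ := by
    rw [Real.rpow_neg h𝕂.le, hp 29 2.9 (by norm_num)]
  have hx1 : 1 ≤ x := by linarith
  have h7 : 512 * KK k ^ (0.6 : ℝ) + 1 ≤ KK k ^ (0.7 : ℝ) := by
    rw [e6, e7]
    have : 1 ≤ x ^ 6 := one_le_pow₀ hx1
    nlinarith
  have hE' : ∀ p ∈ E, |p - p₀| ≤ KK k ^ (0.7 : ℝ) / N₁ →
      |2 * π * k * N₂ ^ 2 * (c - I₁ p - I₂ p) -
        2 * π * k * N₂ ^ 2 * (hh k a₁ A₁ u₁ p + hh k a₂ A₂ u₂ p)| ≤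
        4 * (2 * π * k) * KK k ^ (-2.9 : ℝ) := by
    intro p hp' hr
    have h := hE p hp' hr
    have e : 2 * π * k * N₂ ^ 2 * (c - I₁ p - I₂ p) -
        2 * π * k * N₂ ^ 2 * (hh k a₁ A₁ u₁ p + hh k a₂ A₂ u₂ p) =
        2 * π * k * N₂ ^ 2 * (c - I₁ p - I₂ p - hh k a₁ A₁ u₁ p - hh k a₂ A₂ u₂ p) := by ring
    rw [e, abs_mul, abs_of_nonneg (by positivity)]
    calc _ ≤ 2 * π * k * N₂ ^ 2 * (4 * KK k ^ (-2.9 : ℝ) / N₂ ^ 2) := by gcongr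
      _ = _ := by field_simp
  have hKe : 2 * π * k * KK k ^ (-2.9 : ℝ) ≤ (x ^ 19)⁻¹ := by
    rw [e29]
    calc 2 * π * k * (x ^ 29)⁻¹ ≤ x ^ 10 * (x ^ 29)⁻¹ := by
          rw [← e10]; gcongr
      _ = (x ^ 19)⁻¹ := by field_simp
  have hx5 : (1024 : ℝ) ^ 5 ≤ x ^ 5 := by gcongr
  rcases hN a₁ A₁ u₁ I₁ a₂ A₂ u₂ I₂ p₀ N₁ N₂ α ℓ S₁ S₂ h21 h6 hl1 hl2 hα1 hα2 with hA | hAnti
  · refine core (M := x ^ 12) S₁ S₂ h21 hK h𝕂 h6 h7 hl1 hl2 hα1 hα2 hE' ?_ ?_ hA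
    · rw [e6] at h6
      calc N₁ ^ 2 ≤ (x ^ 6 * N₂) ^ 2 := by gcongr
        _ = _ := by ring
    · refine lt_of_le_of_lt (mul_le_mul_of_nonneg_right hKe (by positivity)) ?_
      rw [inv_mul_lt_iff₀ (by positivity)]
      have h12 : 1 ≤ x ^ 12 := one_le_pow₀ hx1
      have h2 : x ^ 12 * 1024 ^ 5 ≤ x ^ 19 := by
        calc x ^ 12 * 1024 ^ 5 ≤ x ^ 12 * x ^ 5 := by gcongr
          _ = x ^ 17 := by ring
          _ ≤ x ^ 19 := pow_le_pow_right₀ hx1 (by norm_num)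
      nlinarith
  · have hA := hD a₁ A₁ u₁ I₁ a₂ A₂ u₂ I₂ p₀ N₁ N₂ α ℓ S₁ S₂ h21 hl1 hl2 hα1 hα2 hAnti
    refine core (M := 4) S₁ S₂ h21 hK h𝕂 h6 h7 hl1 hl2 hα1 hα2 hE' ?_ ?_ hA
    · have := hAnti.1
      calc N₁ ^ 2 ≤ (2 * N₂) ^ 2 := by gcongr
        _ = _ := by ring
    · refine lt_of_le_of_lt (mul_le_mul_of_nonneg_right hKe (by positivity)) ?_
      rw [inv_mul_lt_iff₀ (by positivity), e10]
      have h2 : x ^ 19 * (1 / x ^ 10) = x ^ 9 := by field_simp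
      have h3 : x ^ 5 ≤ x ^ 9 := pow_le_pow_right₀ hx1 (by norm_num)
      rw [h2]
      nlinarith

end Crest.Agent.R128
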