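import Crest.Agent.R128.Alt

/-! # Row 128: the non-degenerate case (task ND) -/

set_option autoImplicit false

namespace Crest.Agent.R128

open MeasureTheory Set Filter
open scoped Real BigOperators Classical Topology

theorem nd_term {r₁ r₂ c₁ c₂ e₁ e₂ s κ : ℝ} (hs : s = 1 ∨ s = -1) (hr₁ : 0 < r₁)
    (hr₂ : |r₂ - 1| ≤ 1 / 100) (h1 : κ ≤ s * c₁) (h2 : κ ≤ s * c₂) (hc : |c₂| ≤ 1)
    (he₁ : |e₁| < κ) (he₂ : |e₂| < κ) (he : |e₂| ≤ 1 / 100) :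
    1 / 2 ≤ s * (1 / (r₁ ^ 2 * (c₁ + e₁)) + 1 / (r₂ ^ 2 * (c₂ + e₂))) := by
  rw [abs_le] at hr₂ hc he
  rw [abs_lt] at he₁ he₂
  have hr₂' : 0 < r₂ := by linarith
  have key : ∀ d₁ d₂ : ℝ, 0 < d₁ → 0 < d₂ → d₂ ≤ 1.01 →
      1 / 2 ≤ 1 / (r₁ ^ 2 * d₁) + 1 / (r₂ ^ 2 * d₂) := by
    intro d₁ d₂ p1 p2 p3
    have q1 : 0 < 1 / (r₁ ^ 2 * d₁) := by positivity
    have q2 : 1 / 2 ≤ 1 / (r₂ ^ 2 * d₂) := by
      refine one_div_le_one_div_of_le (by positivity) ?_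
      have : r₂ ^ 2 ≤ 1.03 := by nlinarith
      nlinarith
    linarith
  rcases hs with rfl | rfl
  · rw [one_mul] at *
    exact key _ _ (by linarith) (by linarith) (by linarith)
  · have := key (-(c₁ + e₁)) (-(c₂ + e₂)) (by linarith) (by linarith) (by linarith)
    rw [mul_neg, mul_neg, one_div_neg_eq_neg_one_div, one_div_neg_eq_neg_one_div] at this
    linarith

theorem nd_pick {a ρ : ℝ} (ha1 : -(1 / 2) ≤ a) (ha2 : a ≤ 1 / 2) (hρ1 : 1 ≤ ρ) (hρ2 : ρ ≤ 10)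
    (h : 1 / 10 ^ 8 ≤ |a| + (ρ - 1) / 4) :
    ∃ (y : ℝ) (n : ℤ), -(1 / 4) + 1 / 10 ^ 9 / 3 ≤ y ∧ y + 1 / 10 ^ 9 / 3 ≤ 1 / 4 - 1 / 10 ^ 9 / 3 ∧
      ∀ x, y - 1 / 10 ^ 13 ≤ x → x ≤ y + 1 / 10 ^ 9 / 3 + 1 / 10 ^ 13 →
        |a + ρ * x - 1 / 2 - n| ≤ 1 / 4 - 1 / 10 ^ 9 / 4 := by
  have hρ : 0 < ρ := by linarith
  rcases le_total 0 a with h0 | h0
  · rw [abs_of_nonneg h0] at h
    obtain ⟨β, hβ⟩ : ∃ β, ρ * β = 1 / 4 - a := ⟨(1 / 4 - a) / ρ, by field_simp⟩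
    have b1 : -(1 / 4) ≤ β := by
      by_contra hc
      push Not at hc
      nlinarith
    have b2 : β + 1 / 10 ^ 9 ≤ 1 / 4 := by
      by_contra hc
      push Not at hc
      nlinarith
    refine ⟨β + 1 / 10 ^ 9 / 3, 0, by linarith, by linarith, fun x h1 h2 => ?_⟩
    have e : a + ρ * x - 1 / 2 - ((0 : ℤ) : ℝ) = -(1 / 4) + ρ * (x - β) := by
      push_cast; linarith
    rw [e, abs_le]
    constructor <;> nlinarith
  · rw [abs_of_nonpos h0] at h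
    obtain ⟨β, hβ⟩ : ∃ β, ρ * β = -(1 / 4) - a := ⟨(-(1 / 4) - a) / ρ, by field_simp⟩
    have b1 : β ≤ 1 / 4 := by
      by_contra hc
      push Not at hc
      nlinarith
    have b2 : -(1 / 4) + 1 / 10 ^ 9 ≤ β := by
      by_contra hc
      push Not at hc
      nlinarith
    refine ⟨β - 2 / 10 ^ 9 / 3, -1, by linarith, by linarith, fun x h1 h2 => ?_⟩
    have e : a + ρ * x - 1 / 2 - ((-1 : ℤ) : ℝ) = 1 / 4 - ρ * (β - x) := by
      push_cast; linarith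
    rw [e, abs_le]
    constructor <;> nlinarith

theorem nd_sgn (i : ℕ) : ((-1 : ℝ) ^ i = 1 ∨ (-1 : ℝ) ^ i = -1) := neg_one_pow_eq_or ℝ i

theorem nd_cos {M : ℤ} {i : ℕ} {z : ℝ} (h : |z - (M + i / 2)| ≤ 1 / 4 - 1 / 10 ^ 9 / 6) :
    6 / 10 ^ 10 ≤ (-1) ^ i * Real.cos (2 * π * z) := by
  have e : z = M + i / 2 + (z - (M + i / 2)) := by ring
  rw [e, al_cos, ← mul_assoc, ← mul_pow]
  have := al_cos_ge (θ := z - (M + i / 2)) (by linarith)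
  norm_num at this ⊢
  linarith

theorem nd_core (hS : SWEEP) {f₁ g₁ f₂ g₂ H : ℝ → ℝ} {N₁ N₂ α ℓ : ℝ}
    (hf₁ : ∀ p, HasDerivAt f₁ (g₁ p) p) (hf₂ : ∀ p, HasDerivAt f₂ (g₂ p) p) (hN₂ : 0 < N₂)
    (hN : N₂ ≤ N₁) (hl1 : 256 ≤ ℓ * N₂) (hl2 : ℓ * N₂ ≤ 512)
    (hg₁ : ∀ p ∈ Icc α (α + ℓ), |g₁ p - N₁| ≤ 1 / 10 ^ 12 * N₁)
    (hg₂ : ∀ p ∈ Icc α (α + ℓ), |g₂ p - N₂| ≤ 1 / 10 ^ 12 * N₂)
    (hH : ∀ p ∈ Icc α (α + ℓ), ∀ s : ℝ, (s = 1 ∨ s = -1) → 6 / 10 ^ 10 ≤ s * Real.cos (2 * π * f₁ p) →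
      6 / 10 ^ 10 ≤ s * Real.cos (2 * π * f₂ p) → 1 / 2 ≤ s * H p) :
    AltSys H α ℓ N₁ (1 / 2) ∨
      (N₁ ≤ 2 * N₂ ∧ ∃ m : ℤ, ∀ p ∈ Icc α (α + ℓ), |f₂ p - f₁ p + 1 / 2 + m| ≤ 1 / 10 ^ 4) := by
  have hN₁ : 0 < N₁ := by linarith
  have hℓ : 0 < ℓ := by
    by_contra hc
    push Not at hc
    nlinarith
  have hα : α ∈ Icc α (α + ℓ) := ⟨le_rfl, by linarith⟩
  have hα' : α + ℓ ∈ Icc α (α + ℓ) := ⟨by linarith, le_rfl⟩
  have hd : ∀ x ∈ Icc α (α + ℓ), ∀ y ∈ Icc α (α + ℓ), N₂ * |y - x| ≤ 512 := by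
    intro x hx y hy
    have : |y - x| ≤ ℓ := abs_le.2 ⟨by linarith [hx.2, hy.1], by linarith [hx.1, hy.2]⟩
    nlinarith
  have s₂ : ∀ x ∈ Icc α (α + ℓ), ∀ y ∈ Icc α (α + ℓ),
      |f₂ y - f₂ x - N₂ * (y - x)| ≤ 1 / 10 ^ 12 * (N₂ * |y - x|) := fun x hx y hy => by
    have := al_slope hf₂ hg₂ hx hy
    linarith
  have s₁ : ∀ x ∈ Icc α (α + ℓ), ∀ y ∈ Icc α (α + ℓ),
      |f₁ y - f₁ x - N₁ * (y - x)| ≤ 1 / 10 ^ 12 * (N₁ * |y - x|) := fun x hx y hy => by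
    have := al_slope hf₁ hg₁ hx hy
    linarith
  have s₂' : ∀ x ∈ Icc α (α + ℓ), ∀ y ∈ Icc α (α + ℓ),
      |f₂ y - f₂ x - N₂ * (y - x)| ≤ 512 / 10 ^ 12 := fun x hx y hy => by
    have h1 := s₂ x hx y hy
    have h2 := hd x hx y hy
    linarith
  set n₀ : ℤ := ⌈f₂ α + 1⌉ with hn₀
  have n1 : f₂ α + 1 ≤ n₀ := Int.le_ceil _
  have n2 : (n₀ : ℝ) < f₂ α + 2 := by have := Int.ceil_lt_add_one (f₂ α + 1); linarith
  have hi : ∀ i : Fin 5, (0 : ℝ) ≤ (i : ℕ) ∧ ((i : ℕ) : ℝ) ≤ 4 := fun i =>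
    ⟨Nat.cast_nonneg _, by exact_mod_cast Nat.lt_succ_iff.1 i.2⟩
  have hP : ∀ i : Fin 5, ∃ p ∈ Icc α (α + ℓ), f₂ p = n₀ + (i : ℕ) / 2 := by
    intro i
    have h1 := abs_le.1 (s₂' α hα (α + ℓ) hα')
    refine al_ivt hf₂ hα'.1 (by linarith [(hi i).1]) ?_
    have : N₂ * (α + ℓ - α) = ℓ * N₂ := by ring
    linarith [(hi i).2, h1.1]
  choose P hPJ hPf using hP
  have hpos : ∀ i, 0.99 ≤ N₂ * (P i - α) ∧ N₂ * (P i - α) ≤ 4.01 := by
    intro i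
    have h1 := abs_le.1 (s₂' α hα (P i) (hPJ i))
    rw [hPf] at h1
    constructor <;> linarith [(hi i).1, (hi i).2, h1.1, h1.2]
  have hgap : ∀ i j, i < j → 1 / 2 - 512 / 10 ^ 12 ≤ N₂ * (P j - P i) := by
    intro i j hij
    have h1 := abs_le.1 (s₂' _ (hPJ i) _ (hPJ j))
    rw [hPf, hPf] at h1
    have : ((i : ℕ) : ℝ) + 1 ≤ (j : ℕ) := by exact_mod_cast hij
    linarith [h1.2]
  have hin : ∀ i p, |N₂ * (p - P i)| ≤ 0.26 → p ∈ Ico α (α + ℓ) := by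
    intro i p hp
    rw [abs_le] at hp
    have h1 := hpos i
    constructor
    · have : 0 ≤ N₂ * (p - α) := by linarith [h1.1, hp.1]
      have := nonneg_of_mul_nonneg_right this hN₂
      linarith
    · have : 0 < N₂ * (α + ℓ - p) := by nlinarith [h1.2, hp.2]
      have := (pos_iff_pos_of_mul_pos this).1 hN₂
      linarith
  have hloc₂ : ∀ i p, |N₂ * (p - P i)| ≤ 0.26 →
      |f₂ p - (n₀ + (i : ℕ) / 2) - N₂ * (p - P i)| ≤ 1 / 10 ^ 12 := by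
    intro i p hp
    have h1 := s₂ _ (hPJ i) p (Ico_subset_Icc_self (hin i p hp))
    rw [hPf] at h1
    rw [abs_mul, abs_of_pos hN₂] at hp
    linarith
  have hc0 : c0 = 1 / 10 ^ 13 := rfl
  have hcN : N₂ * (c0 / N₁) ≤ 1 / 10 ^ 13 := by
    rw [hc0, mul_div_assoc', div_le_iff₀ hN₁]
    linarith
  have hcN0 : 0 ≤ c0 / N₁ := by rw [hc0]; positivity
  by_cases hA : 10 * N₂ ≤ N₁
  · left
    have hw : N₂ * (0.14 / N₂) = 0.14 := by field_simp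
    refine ⟨0, 1, fun i => {p | p ∈ Icc (P i - 0.14 / N₂) (P i + 0.14 / N₂) ∧
      0.8 ≤ (-1) ^ (i : ℕ) * Real.cos (2 * π * f₁ p)}, Or.inl rfl, fun i => ?_, ?_, ?_⟩
    · have hsub : ∀ p ∈ Icc (P i - 0.14 / N₂) (P i + 0.14 / N₂), p ∈ Ico α (α + ℓ) := by
        intro p hp
        refine hin i p (abs_le.2 ⟨?_, ?_⟩) <;> nlinarith [hp.1, hp.2]
      have hcont : Continuous f₁ := continuous_iff_continuousAt.2 fun p => (hf₁ p).continuousAt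
      refine ⟨?_, fun p hp => hsub p hp.1, ?_⟩
      · have hm : MeasurableSet {p | 0.8 ≤ (-1 : ℝ) ^ (i : ℕ) * Real.cos (2 * π * f₁ p)} :=
          measurableSet_le measurable_const (by fun_prop : Continuous fun p => (-1 : ℝ) ^ (i : ℕ) *
            Real.cos (2 * π * f₁ p)).measurable
        exact measurableSet_Icc.inter hm
      · refine le_trans (ENNReal.ofReal_le_ofReal ?_) (hS f₁ g₁ (P i - 0.14 / N₂)
          (P i + 0.14 / N₂) N₁ ((-1) ^ (i : ℕ)) hN₁ hf₁ (fun p hp => ?_) ?_ (nd_sgn i))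
        · have : c0 * ℓ * N₂ ≤ (P i + 0.14 / N₂ - (P i - 0.14 / N₂)) / 40 * N₂ := by
            rw [hc0]; nlinarith
          exact le_of_mul_le_mul_right this hN₂
        · have := abs_le.1 (hg₁ p (Ico_subset_Icc_self (hsub p hp)))
          constructor <;> linarith [this.1, this.2]
        · have h1 : 0 ≤ 0.14 / N₂ := by positivity
          nlinarith
    · intro i j hij p hp p' hp'
      have h1 := hgap i j hij
      have h2 : 2 * c0 / N₁ = 2 * (c0 / N₁) := by ring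
      have : N₂ * (p + 2 * c0 / N₁) ≤ N₂ * p' := by
        rw [h2]
        nlinarith [hp.1.2, hp'.1.1]
      exact le_of_mul_le_mul_left this hN₂
    · intro i p hp p' hp'
      have hpp := abs_lt.1 hp'
      have h1 : |N₂ * (p' - P i)| ≤ 0.15 := by
        refine abs_le.2 ⟨?_, ?_⟩ <;> nlinarith [hp.1.1, hp.1.2, hpp.1, hpp.2]
      have h1' : |N₂ * (p - P i)| ≤ 0.26 := by
        refine abs_le.2 ⟨?_, ?_⟩ <;> nlinarith [hp.1.1, hp.1.2]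
      have hJ := Ico_subset_Icc_self (hin i p' (by linarith))
      have hJ' := Ico_subset_Icc_self (hin i p h1')
      rw [mul_one, sub_zero]
      refine hH p' hJ _ (nd_sgn i) ?_ (nd_cos (M := n₀) ?_)
      · have h2 := s₁ p' hJ p hJ'
        have h3 : N₁ * |p - p'| ≤ 1 / 10 ^ 13 := by
          rw [lt_div_iff₀ hN₁, hc0] at hp'
          linarith
        have h4 : |f₁ p - f₁ p'| ≤ 1 / 1000 := by
          have h5 : |N₁ * (p - p')| ≤ 1 / 10 ^ 13 := by rwa [abs_mul, abs_of_pos hN₁]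
          rw [abs_le] at h2 h5 ⊢
          constructor <;> linarith [h2.1, h2.2, h5.1, h5.2]
        have h5 := Real.abs_cos_sub_cos_le (2 * π * f₁ p) (2 * π * f₁ p')
        rw [← mul_sub, abs_mul, abs_of_pos (by positivity : 0 < 2 * π)] at h5
        have h6 : 2 * π * |f₁ p - f₁ p'| ≤ 1 / 100 := by nlinarith [Real.pi_lt_four, abs_nonneg (f₁ p - f₁ p')]
        have h7 := hp.2
        have h8 := abs_le.1 (h5.trans h6)
        rcases nd_sgn i with e | e <;> rw [e] at h7 ⊢ <;> linarith [h8.1, h8.2]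
      · have h2 := abs_le.1 (hloc₂ i p' (by linarith))
        rw [abs_le] at h1 ⊢
        constructor <;> linarith [h1.1, h1.2, h2.1, h2.2]
  push Not at hA
  obtain ⟨ρ, hρ⟩ : ∃ ρ, N₁ = ρ * N₂ := ⟨N₁ / N₂, by field_simp⟩
  have hρ1 : 1 ≤ ρ := by
    by_contra hc
    push Not at hc
    nlinarith
  have hρ2 : ρ ≤ 10 := by
    by_contra hc
    push Not at hc
    nlinarith
  let m : Fin 5 → ℤ := fun i => ⌊f₁ (P i) - (n₀ + (i : ℕ) / 2)⌋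
  let a : Fin 5 → ℝ := fun i => f₁ (P i) - (n₀ + (i : ℕ) / 2) - 1 / 2 - m i
  have ha : ∀ i, -(1 / 2) ≤ a i ∧ a i ≤ 1 / 2 := fun i => by
    have h1 := Int.floor_le (f₁ (P i) - (n₀ + (i : ℕ) / 2))
    have h2 := Int.lt_floor_add_one (f₁ (P i) - (n₀ + (i : ℕ) / 2))
    simp only [a, m]
    constructor <;> linarith
  by_cases hB : ∀ i, 1 / 10 ^ 8 ≤ |a i| + (ρ - 1) / 4
  · left
    choose y n hy1 hy2 hy3 using fun i => nd_pick (ha i).1 (ha i).2 hρ1 hρ2 (hB i)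
    have hw : N₂ * (1 / 10 ^ 9 / 3 / N₂) = 1 / 10 ^ 9 / 3 := by field_simp
    have hy : ∀ i, N₂ * (y i / N₂) = y i := fun i => by field_simp
    refine al_intervals (q := 0) (w := 1 / 10 ^ 9 / 3 / N₂) (fun i => P i + y i / N₂) ?_ ?_ ?_ ?_
    · rw [le_div_iff₀ hN₂, hc0]
      nlinarith
    · intro i
      refine ⟨(hin i _ (abs_le.2 ⟨?_, ?_⟩)).1, (hin i _ (abs_le.2 ⟨?_, ?_⟩)).2⟩ <;>
        nlinarith [hy1 i, hy2 i, hy i]
    · intro i j hij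
      have h1 := hgap i j hij
      have h2 : 2 * c0 / N₁ = 2 * (c0 / N₁) := by ring
      have : N₂ * (P i + y i / N₂ + 1 / 10 ^ 9 / 3 / N₂ + 2 * c0 / N₁) ≤ N₂ * (P j + y j / N₂) := by
        rw [h2]
        nlinarith [hy1 j, hy2 i, hy i, hy j]
      exact le_of_mul_le_mul_left this hN₂
    · intro i p' h1 h2
      have t1 : y i - 1 / 10 ^ 13 ≤ N₂ * (p' - P i) := by nlinarith [hy i]
      have t2 : N₂ * (p' - P i) ≤ y i + 1 / 10 ^ 9 / 3 + 1 / 10 ^ 13 := by nlinarith [hy i]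
      have t3 : |N₂ * (p' - P i)| ≤ 0.26 :=
        abs_le.2 ⟨by linarith [hy1 i], by linarith [hy2 i]⟩
      have hJ := Ico_subset_Icc_self (hin i p' t3)
      rw [sub_zero]
      refine hH p' hJ _ (nd_sgn i) (nd_cos (M := n₀ + m i + n i + 1) ?_) (nd_cos (M := n₀) ?_)
      · have h3 := abs_le.1 (hy3 i _ t1 t2)
        have h4 := s₁ _ (hPJ i) p' hJ
        have h5 : N₁ * |p' - P i| ≤ 2.6 := by
          rw [abs_mul, abs_of_pos hN₂] at t3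
          rw [hρ]
          nlinarith [mul_nonneg hN₂.le (abs_nonneg (p' - P i))]
        have h6 : N₁ * (p' - P i) = ρ * (N₂ * (p' - P i)) := by rw [hρ]; ring
        rw [h6] at h4
        have h7 := abs_le.1 h4
        simp only [a] at h3
        push_cast
        rw [abs_le]
        constructor <;> linarith [h3.1, h3.2, h7.1, h7.2]
      · have h3 := abs_le.1 (hloc₂ i p' t3)
        rw [abs_le]
        constructor <;> linarith [h3.1, h3.2, hy1 i, hy2 i]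
  · right
    push Not at hB
    obtain ⟨i, hi⟩ := hB
    have h0 := abs_nonneg (a i)
    refine ⟨by nlinarith, m i, fun p hp => ?_⟩
    have h1 := abs_le.1 (s₂' _ (hPJ i) p hp)
    have h2 := s₁ _ (hPJ i) p hp
    have h3 := hd _ (hPJ i) p hp
    have h4 : N₁ * |p - P i| ≤ 1024 := by
      rw [hρ]
      nlinarith [mul_nonneg hN₂.le (abs_nonneg (p - P i))]
    have h5 : |(ρ - 1) * (N₂ * (p - P i))| ≤ 4 / 10 ^ 8 * 512 := by
      rw [abs_mul, abs_mul, abs_of_pos hN₂, abs_of_nonneg (by linarith : 0 ≤ ρ - 1)]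
      exact mul_le_mul (by linarith) h3 (by positivity) (by norm_num)
    have h6 : N₁ * (p - P i) = (ρ - 1) * (N₂ * (p - P i)) + N₂ * (p - P i) := by rw [hρ]; ring
    rw [h6] at h2
    rw [hPf] at h1
    have h7 : |a i| ≤ 1 / 10 ^ 8 := by linarith
    rw [abs_le] at h2 h5 h7 ⊢
    simp only [a] at h7
    constructor <;> linarith [h1.1, h1.2, h2.1, h2.2, h5.1, h5.2, h7.1, h7.2]

theorem nd_proof (hS : SWEEP) : ND := by
  filter_upwards [al_ev] with k hk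
  obtain ⟨hη, hr, hr', hK, -⟩ := hk
  intro a₁ A₁ u₁ I₁ a₂ A₂ u₂ I₂ p₀ N₁ N₂ α ℓ S₁ S₂ hN hN' hl1 hl2 hα1 hα2
  obtain ⟨σ₁, hσ₁, hb₁⟩ := S₁.sgn
  obtain ⟨σ₂, hσ₂, hb₂⟩ := S₂.sgn
  have hN₁ := S₁.pos
  have hN₂ := S₂.pos
  have hℓ : 0 < ℓ := by
    by_contra hc
    push Not at hc
    nlinarith
  have hrange : ∀ p ∈ Icc α (α + ℓ), |p - p₀| ≤ KK k ^ (0.7 : ℝ) / N₁ ∧
      |p - p₀| ≤ KK k ^ (0.7 : ℝ) / N₂ := by
    intro p hp
    have h1 : |p - p₀| ≤ ℓ := abs_le.2 ⟨by linarith [hp.1], by linarith [hp.2]⟩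
    have h2 : 0 ≤ KK k ^ (0.6 : ℝ) := by
      by_contra hc
      push Not at hc
      nlinarith
    constructor
    · refine h1.trans ?_
      rw [le_div_iff₀ hN₁]
      nlinarith
    · refine h1.trans ?_
      rw [le_div_iff₀ hN₂]
      linarith
  have hK0 : 0 < 2 * π * k := by linarith
  have := nd_core hS (f₁ := fun p => σ₁ * a₁ p) (g₁ := fun p => σ₁ * A₁ p)
    (f₂ := fun p => σ₂ * a₂ p) (g₂ := fun p => σ₂ * A₂ p)
    (H := fun p => 2 * π * k * N₂ ^ 2 * (hh k a₁ A₁ u₁ p + hh k a₂ A₂ u₂ p)) (α := α)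
    (fun p => (S₁.der p).const_mul σ₁) (fun p => (S₂.der p).const_mul σ₂) hN₂ hN hl1 hl2
    (fun p hp => (S₁.near' hσ₁ hb₁ hη (hrange p hp).1).1)
    (fun p hp => (S₂.near' hσ₂ hb₂ hη (hrange p hp).2).1) ?_
  · rcases this with h | ⟨h, m, hm⟩
    · exact Or.inl h
    · exact Or.inr ⟨h, σ₁, σ₂, m, hσ₁, hσ₂, hb₁, hb₂, hm⟩
  · intro p hp s hs h1 h2
    obtain ⟨n₁, v₁⟩ := S₁.near' hσ₁ hb₁ hη (hrange p hp).1
    obtain ⟨n₂, v₂⟩ := S₂.near' hσ₂ hb₂ hη (hrange p hp).2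
    have he : ∀ v : ℝ, |v| ≤ 1 / 2 → |(2 - v) / (2 * π * k)| ≤ 3 / 10 ^ 10 := by
      intro v hv
      rw [abs_le] at hv
      rw [abs_div, abs_of_pos hK0, div_le_iff₀ hK0, abs_of_pos (by linarith)]
      linarith
    rw [mul_add, al_hh hK0 hN₂ a₁ A₁ u₁ p σ₁ hσ₁, al_hh hK0 hN₂ a₂ A₂ u₂ p σ₂ hσ₂]
    refine nd_term hs ?_ ?_ h1 h2 (Real.abs_cos_le_one _) ((he _ v₁).trans_lt (by norm_num))
      ((he _ v₂).trans_lt (by norm_num)) ((he _ v₂).trans (by norm_num))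
    · have := abs_le.1 n₁
      exact div_pos (by linarith [this.1]) hN₂
    · rw [div_sub_one hN₂.ne', abs_div, abs_of_pos hN₂, div_le_iff₀ hN₂]
      linarith

end Crest.Agent.R128
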