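import Crest.Agent.R128.H6Aux

/-! Row 128, task PAT. -/

set_option autoImplicit false

namespace Crest.Agent.R128

open MeasureTheory Set Filter
open scoped Real BigOperators Classical

namespace H6

theorem one_le_ne {𝕂 : ℝ} {U : ℕ → ℝ} {z : ℕ} (k1 : 1 < 𝕂) (h : BPl 𝕂 U z) : 1 ≤ ne U z := by
  rcases z with _ | z
  · exact (ne_zero' U).ge
  · have := h 0 z.succ_pos
    rw [ne_zero', mul_one] at this
    exact (Real.one_le_rpow k1.le (by simp; positivity)).trans this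

theorem heights {𝕂 : ℝ} {U : ℕ → ℝ} {S : ℕ} {T : Finset ℕ} (k1 : 1 < 𝕂) (hU : Bd 𝕂 U)
    (hT : T ⊆ Finset.range (S + 1)) (h : ∀ z ∈ T, BPl 𝕂 U z ∧ FPl 𝕂 U z S) :
    (∀ z ∈ T, ne U z = 𝕂 ^ Real.logb 𝕂 (ne U z)) ∧
    (∀ z ∈ T, 0 ≤ Real.logb 𝕂 (ne U z) ∧ Real.logb 𝕂 (ne U z) ≤ z) ∧
    ∀ z ∈ T, ∀ z' ∈ T, z < z' → Real.logb 𝕂 (ne U z) + 0.99 ≤ Real.logb 𝕂 (ne U z') := by
  have k0 : 0 < 𝕂 := by linarith
  have e : ∀ z ∈ T, ne U z = 𝕂 ^ Real.logb 𝕂 (ne U z) := fun z hz =>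
    (Real.rpow_logb k0 k1.ne' (one_pos.trans_le (one_le_ne k1 (h z hz).1))).symm
  refine ⟨e, fun z hz => ⟨Real.logb_nonneg k1 (one_le_ne k1 (h z hz).1), ?_⟩, fun z hz z' hz' hlt => ?_⟩
  · rw [← Real.rpow_le_rpow_left_iff k1, ← e z hz, Real.rpow_natCast]
    exact ne_le_pow k1.le hU z
  · have h1 := (h z hz).2 z' hlt (Nat.lt_succ_iff.1 (Finset.mem_range.1 (hT hz')))
    rw [e z hz, e z' hz', ← Real.rpow_add k0, Real.rpow_le_rpow_left_iff k1] at h1
    have : (z : ℝ) + 1 ≤ z' := by exact_mod_cast hlt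
    linarith

/-- dyadic level of `x` -/
noncomputable def lev (x : ℝ) : ℕ := Nat.log 2 ⌊x⌋₊

theorem lt_lev (x : ℝ) : x < 2 ^ (lev x + 1) := by
  have := Nat.lt_of_floor_lt (Nat.lt_pow_succ_log_self one_lt_two ⌊x⌋₊)
  exact_mod_cast this

theorem lev_le {x : ℝ} (h : 1 ≤ x) : 2 ^ lev x ≤ x := by
  have h1 := Nat.pow_log_le_self 2 (Nat.floor_pos.2 h).ne'
  exact le_trans (by exact_mod_cast h1) (Nat.floor_le (by linarith))

theorem le_lev {x : ℝ} {n : ℕ} (h : 2 ^ n ≤ x) : n ≤ lev x :=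
  Nat.le_log_of_pow_le one_lt_two (Nat.le_floor (by exact_mod_cast h))

end H6

open H6 in
theorem pat_proof (hH : HOLE) (hM : MATCH) (hP : POR) : PAT := by
  filter_upwards [hH, eventually_ge_atTop 0, tendsto_KK.eventually (eventually_ge_atTop 256),
    tendsto_KK.eventually ((tendsto_rpow_atTop (show (0 : ℝ) < 0.4 by norm_num)).eventually_ge_atTop
      (1024 / c0))] with k hH hk k1 k2 δ b S T₁ T₂ hδ s1 s2 n1 n2
  have c1 : 0 < c0 := by unfold c0; positivity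
  have k3 : 1 < KK k := by linarith
  have k0 : 0 < KK k := by linarith
  have mono : Monotone fun t : ℝ => KK k ^ t := fun _ _ h => Real.rpow_le_rpow_of_exponent_le k3.le h
  refine hP _ c0 (lev (KK k)) _ (lev (KK k ^ (S : ℝ) / 256)) c1.le (by unfold c0; norm_num)
    (le_lev (by linarith)) (fun p hp => hp.1) fun p hp => ?_
  obtain ⟨a1, a2, a3⟩ := heights k3 (bd_pot hk b p) s1 hp.2.2.1
  obtain ⟨b1, b2, b3⟩ := heights k3 (bd_pot hk b (Fm k b - p)) s2 hp.2.2.2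
  obtain ⟨zs, ys, h1, h2⟩ := hM S _ _ T₁ T₂ s1 s2 n1 n2 a2 b2 a3 b3
  set x : Fin (S / 5 - 4) → ℝ := fun i => Real.logb (KK k) (ne (pot k b p) (zs i)) with hx
  set y : Fin (S / 5 - 4) → ℝ := fun i => Real.logb (KK k) (ne (pot k b (Fm k b - p)) (ys i)) with hy
  have big : ∀ i, 1 ≤ KK k ^ min (x i) (y i) / 256 := fun i => by
    have := mono (h1 i).2.2.2.2.2
    simp only [Real.rpow_one] at this
    rw [one_le_div (by norm_num)]
    exact k1.trans this
  refine ⟨fun i => lev (KK k ^ min (x i) (y i) / 256), fun i j hij => le_lev ?_, fun i => ?_⟩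
  · have e1 := mono (show min (x i) (y i) + 1 ≤ min (x j) (y j) by linarith [h2 i j hij])
    simp only [Real.rpow_add k0, Real.rpow_one] at e1
    rw [pow_add]
    refine (mul_le_mul (lev_le (big i)) (lev_le k3.le) (by positivity) (by positivity)).trans ?_
    linarith
  obtain ⟨z1, y1, z2, y2, hxy, hmin⟩ := h1 i
  have z3 : x i ≤ zs i := (a2 _ z1).2
  have y3 : y i ≤ ys i := (b2 _ y1).2
  have emin : min (ne (pot k b p) (zs i)) (ne (pot k b (Fm k b - p)) (ys i)) =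
      KK k ^ min (x i) (y i) := by rw [a1 _ z1, b1 _ y1]; exact (mono.map_min).symm
  have emax : max (ne (pot k b p) (zs i)) (ne (pot k b (Fm k b - p)) (ys i)) =
      KK k ^ max (x i) (y i) := by rw [a1 _ z1, b1 _ y1]; exact (mono.map_max).symm
  have hmm : KK k ^ max (x i) (y i) ≤ KK k ^ (0.6 : ℝ) * KK k ^ min (x i) (y i) := by
    rw [← Real.rpow_add k0]
    exact mono (by rw [← max_sub_min_eq_abs'] at hxy; linarith)
  have l1 := lev_le (big i)
  have l2 := lt_lev (KK k ^ min (x i) (y i) / 256)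
  constructor
  · refine le_lev (l1.trans (div_le_div_of_nonneg_right (mono ?_) (by norm_num)))
    have : (zs i : ℝ) ≤ S := by exact_mod_cast (show zs i ≤ S by omega)
    exact (min_le_left _ _).trans (z3.trans this)
  beta_reduce
  generalize lev (KK k ^ min (x i) (y i) / 256) = l at *
  have p0 : (0 : ℝ) < 2 ^ l := by positivity
  have hS : 4 ≤ S := by have := i.2; omega
  have m1 := lt_min_iff.1 (zero_lt_one.trans_le hmin)
  obtain ⟨U, u1, u2, u3, u4⟩ := hH δ b p (⌊p * 2 ^ l⌋ / 2 ^ l) (1 / 2 ^ l) S (zs i) (ys i) T₁ T₂ hδ hS hp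
    z1 y1 (by exact_mod_cast m1.1.trans_le z3) (by exact_mod_cast m1.2.trans_le y3) z2 y2
    (by rw [emin, emax]; exact hmm)
    (by rw [emin, one_div, le_inv_mul_iff₀ p0]; linarith)
    (by rw [emin, one_div, inv_mul_le_iff₀ p0]; rw [pow_succ] at l2; linarith)
    (by rw [div_le_iff₀ p0]; exact Int.floor_le _)
    (by rw [← add_div, le_div_iff₀ p0]; exact (Int.lt_floor_add_one _).le)
  refine ⟨U, u1, by rwa [cell, add_div], by rwa [div_eq_mul_one_div], fun q hq q' hq' =>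
    le_trans ?_ (u4 q hq q' hq')⟩
  have l3 := lt_lev (KK k)
  have e1 : KK k = KK k ^ (0.4 : ℝ) * KK k ^ (0.6 : ℝ) := by rw [← Real.rpow_add k0]; norm_num
  rw [div_le_iff₀ c1] at k2
  rw [emax, div_le_div_iff₀ (by positivity) (by positivity), one_mul, pow_add]
  rw [pow_succ] at l2 l3
  have q1 : 0 < KK k ^ (0.6 : ℝ) := by positivity
  have q2 : 1024 * KK k ^ (0.6 : ℝ) ≤ c0 * (2 ^ lev (KK k) * 2) := by
    nlinarith [mul_le_mul_of_nonneg_right k2 q1.le, mul_le_mul_of_nonneg_left l3.le c1.le]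
  refine hmm.trans ((mul_le_mul_of_nonneg_left (show KK k ^ min (x i) (y i) ≤ 512 * 2 ^ l by linarith) q1.le).trans ?_)
  nlinarith

end Crest.Agent.R128
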