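import Crest.Agent.R128.Basic

/-! Row 128, task PLISS. -/

set_option autoImplicit false

namespace Crest.Agent.R128

open Filter
open scoped Classical

lemma pliss_count (hRS : RS) (a : ℕ → ℝ) (Lg : ℝ) (hL : 0 < Lg) (ha : ∀ j, a (j + 1) - a j ≤ Lg)
    (S : ℕ) (T : Finset ℕ)
    (hT : ∀ t ∈ T, ∃ j : ℕ, t < j ∧ j ≤ S ∧ a j - a t ≤ 0.99 * ((j : ℝ) - t) * Lg) :
    0.01 * Lg * T.card ≤ S * Lg - (a S - a 0) := by
  have h := hRS (fun j => Lg - (a (j + 1) - a j)) (fun j => sub_nonneg.2 (ha j)) (0.01 * Lg)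
    (by positivity) S
  rw [Finset.sum_sub_distrib, Finset.sum_range_sub, Finset.sum_const, Finset.card_range,
    nsmul_eq_mul] at h
  refine le_trans (mul_le_mul_of_nonneg_left (Nat.cast_le.2 (Finset.card_le_card fun t ht => ?_))
    (by positivity)) h
  obtain ⟨j, h1, h2, h3⟩ := hT t ht
  obtain ⟨i, rfl⟩ : ∃ i, j = t + i := ⟨j - t, by omega⟩
  refine Finset.mem_filter.2 ⟨Finset.mem_range.2 (by omega), i, by omega, h2, ?_⟩
  rw [Finset.sum_sub_distrib, Finset.sum_Ico_sub _ (Nat.le_add_right t i), Finset.sum_const,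
    Nat.card_Ico, Nat.add_sub_cancel_left, nsmul_eq_mul]
  push_cast at h3
  linarith

theorem pliss_proof (hRS : RS) : PLISS := by
  filter_upwards [ev_const_le_log 200, eventually_gt_atTop 0] with 𝕂 hlog h𝕂 U hU δ r S hδ hLoc
  set Lg := Real.log 𝕂 with hLg
  have hL : 0 < Lg := by linarith
  let a : ℕ → ℝ := fun j => Real.log (ne U j)
  have ha : ∀ j, a (j + 1) - a j ≤ Lg := fun j => by
    have := Real.log_le_log (ne_pos U _) (ne_succ_le hU j)
    rw [Real.log_mul h𝕂.ne' (ne_pos U j).ne'] at this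
    simp only [a]; linarith
  have ha0 : a 0 = 0 := by simp [a, ne, nn]
  have haS : (1 - δ) * S * Lg - Real.log 2 ≤ a S := by
    have h1 := one_le_nn_mul U r S
    have h2 := mul_le_mul_of_nonneg_right hLoc.le (ne_pos U S).le
    have h3 : 1 ≤ 2 * (𝕂 ^ (-((1 - δ) * S)) * ne U S) := by linarith
    have h4 := Real.log_nonneg h3
    rw [Real.log_mul two_ne_zero (mul_pos (Real.rpow_pos_of_pos h𝕂 _) (ne_pos U S)).ne',
      Real.log_mul (Real.rpow_pos_of_pos h𝕂 _).ne' (ne_pos U S).ne', Real.log_rpow h𝕂] at h4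
    simp only [a]; linarith
  have key : ∀ (i j : ℕ) (x : ℝ), ne U j < 𝕂 ^ x * ne U i → a j - a i ≤ x * Lg := fun i j x h => by
    have := Real.log_le_log (ne_pos U _) h.le
    rw [Real.log_mul (Real.rpow_pos_of_pos h𝕂 _).ne' (ne_pos U i).ne', Real.log_rpow h𝕂] at this
    simp only [a]; linarith
  have hF := pliss_count hRS a Lg hL ha S ((Finset.range (S + 1)).filter fun z => ¬ FPl 𝕂 U z S)
    fun t ht => by
      have := (Finset.mem_filter.1 ht).2
      simp only [FPl, not_forall, not_le] at this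
      obtain ⟨j, h1, h2, h3⟩ := this
      exact ⟨j, h1, h2, key _ _ _ h3⟩
  have hB := pliss_count hRS (fun l => -a (S - l)) Lg hL
    (fun j => by
      rcases le_or_gt S j with h | h
      · rw [Nat.sub_eq_zero_of_le h, Nat.sub_eq_zero_of_le (h.trans (Nat.le_succ j))]
        linarith
      · have := ha (S - (j + 1))
        rw [show S - (j + 1) + 1 = S - j by omega] at this
        linarith) S
    (((Finset.range (S + 1)).filter fun z => ¬ BPl 𝕂 U z).image fun z => S - z)
    fun t ht => by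
      obtain ⟨z, hz, rfl⟩ := Finset.mem_image.1 ht
      obtain ⟨hz1, hz2⟩ := Finset.mem_filter.1 hz
      have hz1' : z ≤ S := Nat.lt_succ_iff.1 (Finset.mem_range.1 hz1)
      simp only [BPl, not_forall, not_le] at hz2
      obtain ⟨j, h1, h3⟩ := hz2
      refine ⟨S - j, by omega, Nat.sub_le _ _, ?_⟩
      rw [Nat.sub_sub_self hz1', Nat.sub_sub_self (h1.le.trans hz1'), Nat.cast_sub hz1',
        Nat.cast_sub (h1.le.trans hz1')]
      have := key _ _ _ h3
      linarith
  rw [Finset.card_image_of_injOn fun z hz z' hz' e => by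
    have h1 := Finset.mem_range.1 (Finset.mem_filter.1 hz).1
    have h2 := Finset.mem_range.1 (Finset.mem_filter.1 hz').1
    omega] at hB
  simp only [Nat.sub_self, Nat.sub_zero] at hB
  have hc : (((Finset.range (S + 1)).filter fun z => ¬ (BPl 𝕂 U z ∧ FPl 𝕂 U z S)).card : ℝ) ≤
      ((Finset.range (S + 1)).filter fun z => ¬ BPl 𝕂 U z).card +
        ((Finset.range (S + 1)).filter fun z => ¬ FPl 𝕂 U z S).card := by
    rw [← Nat.cast_add, Nat.cast_le]
    refine le_trans (Finset.card_le_card fun z hz => ?_) (Finset.card_union_le _ _)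
    simp only [Finset.mem_filter, Finset.mem_union] at hz ⊢
    tauto
  refine hc.trans (le_of_mul_le_mul_left ?_ (show 0 < 0.01 * Lg by positivity))
  have := Real.log_two_lt_d9
  nlinarith

end Crest.Agent.R128
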