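import Crest.Agent.R128.Defs

/-! Task POR: dyadic mean porosity. -/

set_option autoImplicit false

namespace Crest.Agent.R128

open MeasureTheory Set Filter
open scoped Real BigOperators Classical

noncomputable section

namespace PorAux

theorem mem_cell (l : ℕ) (i : ℤ) (p : ℝ) : p ∈ cell l i ↔ ⌊p * 2 ^ l⌋ = i := by
  have h : (0 : ℝ) < 2 ^ l := by positivity
  rw [cell, mem_Ico, Int.floor_eq_iff, div_le_iff₀ h, lt_div_iff₀ h]

theorem vol_cell (l : ℕ) (i : ℤ) : volume (cell l i) = ENNReal.ofReal (1 / 2 ^ l) := by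
  rw [cell, Real.volume_Ico]
  congr 1
  ring

theorem floor_mem {l : ℕ} {i : ℤ} {p : ℝ} (hp : p ∈ cell l i) (s : ℕ) :
    ⌊p * 2 ^ (l + s)⌋ ∈ Finset.Ico (i * 2 ^ s) ((i + 1) * 2 ^ s) := by
  rw [mem_cell, Int.floor_eq_iff] at hp
  have h : (0 : ℝ) < 2 ^ s := by positivity
  rw [Finset.mem_Ico, Int.le_floor, Int.floor_lt, pow_add, ← mul_assoc]
  push_cast
  exact ⟨mul_le_mul_of_nonneg_right hp.1 h.le, mul_lt_mul_of_pos_right hp.2 h⟩

theorem close {l : ℕ} {i : ℤ} {p p' : ℝ} (hp : p ∈ cell l i) (hp' : p' ∈ cell l i) :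
    |p - p'| < 1 / 2 ^ l := by
  rw [cell, mem_Ico, add_div] at hp hp'
  rw [abs_lt]
  constructor <;> linarith [hp.1, hp.2, hp'.1, hp'.2]

theorem cover {A : Set ℝ} (J : Finset ℤ) (S : ℤ → Set ℝ) (B : ℝ) (hA : ∀ p ∈ A, ∃ j ∈ J, p ∈ S j)
    (hS : ∀ j ∈ J, volume (S j) ≤ ENNReal.ofReal B) :
    volume A ≤ ENNReal.ofReal (J.card * B) := by
  calc volume A ≤ volume (⋃ j ∈ J, S j) := measure_mono fun p hp => by
        obtain ⟨j, hj, h⟩ := hA p hp
        exact mem_biUnion hj h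
    _ ≤ ∑ j ∈ J, volume (S j) := measure_biUnion_finset_le _ _
    _ ≤ ∑ _j ∈ J, ENNReal.ofReal B := Finset.sum_le_sum hS
    _ = _ := by
      rw [Finset.sum_const, nsmul_eq_mul, ENNReal.ofReal_mul (by positivity),
        ENNReal.ofReal_natCast]

/-- points with `n` spaced porous levels in `[l, Lmax]` -/
def FF (E : Set ℝ) (c : ℝ) (l₁ Lmax l n : ℕ) : Set ℝ :=
  {p | p ∈ E ∧ ∃ lv : Fin n → ℕ, (∀ i j, i < j → lv i + l₁ ≤ lv j) ∧
    ∀ i, l ≤ lv i ∧ lv i ≤ Lmax ∧ Por E c l₁ (lv i) ⌊p * 2 ^ lv i⌋}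

theorem main (E : Set ℝ) (c : ℝ) (l₁ Lmax : ℕ) (hc1 : c ≤ 1) (hl₁ : 1 ≤ l₁) (d : ℕ) :
    ∀ l, Lmax + 1 - l = d → ∀ (n : ℕ) (i : ℤ),
      volume (FF E c l₁ Lmax l n ∩ cell l i) ≤ ENNReal.ofReal ((1 - c) ^ n / 2 ^ l) := by
  induction d using Nat.strong_induction_on with
  | _ d ih =>
  intro l hl n i
  rcases n with _ | n
  · refine (measure_mono inter_subset_right).trans ?_
    rw [vol_cell, pow_zero]
  have hc : 0 ≤ 1 - c := by linarith
  by_cases hL : Lmax < l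
  · have : FF E c l₁ Lmax l (n + 1) = ∅ := by
      refine eq_empty_of_forall_notMem ?_
      rintro p ⟨-, lv, -, h⟩
      have := h 0
      omega
    rw [this]
    simp
  have hcard : ∀ s : ℕ, ((Finset.Ico (i * 2 ^ s) ((i + 1) * 2 ^ s)).card : ℝ) = 2 ^ s := by
    intro s
    rw [Int.card_Ico, show (i + 1) * 2 ^ s - i * 2 ^ s = ((2 ^ s : ℕ) : ℤ) by push_cast; ring,
      Int.toNat_natCast]
    push_cast
    rfl
  by_cases hP : Por E c l₁ l i
  · obtain ⟨U, -, hU1, hU2, hU3⟩ := hP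
    set J := Finset.Ico (i * 2 ^ l₁) ((i + 1) * 2 ^ l₁) with hJ
    have h1 : volume U ≤ ENNReal.ofReal
        ((J.filter fun j => (U ∩ cell (l + l₁) j).Nonempty).card * (1 / 2 ^ (l + l₁))) := by
      refine cover _ (cell (l + l₁)) _ (fun p hp => ?_) (fun j _ => (vol_cell _ _).le)
      have h := (mem_cell (l + l₁) _ p).mpr rfl
      exact ⟨_, Finset.mem_filter.mpr ⟨floor_mem (hU1 hp) l₁, p, hp, h⟩, h⟩
    have h2 := (ENNReal.ofReal_le_ofReal_iff (by positivity)).mp (hU2.trans h1)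
    have h3 : ((J.filter fun j => (U ∩ cell (l + l₁) j).Nonempty).card : ℝ) +
        (J.filter fun j => ¬ (U ∩ cell (l + l₁) j).Nonempty).card = 2 ^ l₁ := by
      rw [← hcard l₁, ← Nat.cast_add, Finset.card_filter_add_card_filter_not]
    refine (cover (J.filter fun j => ¬ (U ∩ cell (l + l₁) j).Nonempty)
      (fun j => FF E c l₁ Lmax (l + l₁) n ∩ cell (l + l₁) j) ((1 - c) ^ n / 2 ^ (l + l₁))
      (fun p hp => ?_) (fun j _ => ih _ (by omega) _ rfl n j)).trans ?_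
    · obtain ⟨⟨hpE, lv, h4, h5⟩, hpc⟩ := hp
      have h := (mem_cell (l + l₁) _ p).mpr rfl
      refine ⟨_, Finset.mem_filter.mpr ⟨floor_mem hpc l₁, ?_⟩,
        ⟨hpE, fun t => lv t.succ, fun t t' h => h4 _ _ (Fin.succ_lt_succ_iff.mpr h), fun t => ?_⟩, h⟩
      · rintro ⟨q, hq, hq'⟩
        exact absurd (hU3 q hq p hpE) (not_le.mpr (close hq' h))
      · have := h4 0 t.succ (Fin.succ_pos t)
        have := (h5 0).1
        exact ⟨show l + l₁ ≤ lv t.succ by omega, (h5 t.succ).2⟩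
    · apply ENNReal.ofReal_le_ofReal
      have p1 : (0 : ℝ) < 2 ^ l := by positivity
      have p2 : (0 : ℝ) < 2 ^ l₁ := by positivity
      rw [pow_add, mul_one_div, div_le_div_iff₀ p1 (by positivity)] at h2
      have h4 : ((J.filter fun j => ¬ (U ∩ cell (l + l₁) j).Nonempty).card : ℝ) ≤
          (1 - c) * 2 ^ l₁ := by
        have : c * 2 ^ l₁ ≤ ((J.filter fun j => (U ∩ cell (l + l₁) j).Nonempty).card : ℝ) := by
          refine le_of_mul_le_mul_right ?_ p1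
          linarith
        linarith
      calc _ ≤ (1 - c) * 2 ^ l₁ * ((1 - c) ^ n / 2 ^ (l + l₁)) := by gcongr
        _ = _ := by rw [pow_add, pow_succ]; field_simp
  · refine (cover (Finset.Ico (i * 2 ^ 1) ((i + 1) * 2 ^ 1))
      (fun j => FF E c l₁ Lmax (l + 1) (n + 1) ∩ cell (l + 1) j) ((1 - c) ^ (n + 1) / 2 ^ (l + 1))
      (fun p hp => ?_) (fun j _ => ih _ (by omega) _ rfl (n + 1) j)).trans ?_
    · obtain ⟨⟨hpE, lv, h4, h5⟩, hpc⟩ := hp
      refine ⟨_, floor_mem hpc 1, ⟨hpE, lv, h4, fun t => ⟨?_, (h5 t).2⟩⟩,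
        (mem_cell (l + 1) _ p).mpr rfl⟩
      rcases (h5 t).1.lt_or_eq with h | h
      · exact h
      · exfalso
        apply hP
        have := (h5 t).2.2
        rwa [← h, (mem_cell _ _ _).mp hpc] at this
    · apply ENNReal.ofReal_le_ofReal
      rw [hcard, pow_succ (2 : ℝ) l]
      apply le_of_eq
      field_simp

end PorAux

open PorAux in
theorem por_proof : POR := by
  intro E c l₁ n Lmax _ hc1 hl₁ hE h
  have := main E c l₁ Lmax hc1 hl₁ _ 0 rfl n 0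
  rw [pow_zero, div_one] at this
  refine (measure_mono fun p hp => ?_).trans this
  obtain ⟨lv, h1, h2⟩ := h p hp
  refine ⟨⟨hp, lv, h1, fun i => ⟨Nat.zero_le _, h2 i⟩⟩, ?_⟩
  simpa [cell] using hE hp

end

end Crest.Agent.R128
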