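import Crest.Agent.R128.Basic

set_option autoImplicit false

namespace Crest.Agent.R128

open MeasureTheory Set Filter
open scoped Real BigOperators Classical

lemma rr_tele {𝕂 θ : ℝ} (h4 : 4 ≤ 𝕂) (hθ : θ ≤ 1 / 100) {U : ℕ → ℝ} (hU : Bd 𝕂 U)
    {j m : ℕ} (hm : m = j ∨ m = j + 1) (he : |eta U m| = ne U j)
    (hg : ∀ l : ℕ, l ≤ j → 𝕂 ^ ((1 - θ) * l) / 2 ≤ ne U l) :
    ∀ s l m' : ℕ, l + s = j → (m' = l ∨ m' = l + 1) → |eta U m'| = ne U l → (s = 0 → m' = m) →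
      |rr U m - rr U m'| ≤ 8 * 𝕂 ^ (1 - (1 - θ) * (2 * l + 1)) := by
  have hp : 0 < 𝕂 := by linarith
  intro s
  induction s with
  | zero =>
    intro l m' _ _ _ h0
    rw [h0 rfl, sub_self, abs_zero]; positivity
  | succ s ih =>
    intro l m' hl hm' he' _
    obtain ⟨m'', hm'', he'', h0⟩ : ∃ m'', (m'' = l + 1 ∨ m'' = l + 1 + 1) ∧
        |eta U m''| = ne U (l + 1) ∧ (s = 0 → m'' = m) := by
      by_cases hs : s = 0
      · have : j = l + 1 := by omega
        subst this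
        exact ⟨m, hm, he, fun _ => rfl⟩
      · obtain ⟨m'', h1, h2⟩ := exists_nn (eta U) (l + 1)
        exact ⟨m'', h1, h2, fun h => absurd h hs⟩
    have h1 := ih (l + 1) m'' (by omega) hm'' he'' h0
    have h2 := rr_step hU hm' hm'' he' he''
    have g1 := hg l (by omega)
    have g2 := hg (l + 1) (by omega)
    set E := 𝕂 ^ (1 - (1 - θ) * (2 * l + 1)) with hE
    have hE0 : 0 < E := Real.rpow_pos_of_pos hp _
    have k1 : 𝕂 / (ne U l * ne U (l + 1)) ≤ 4 * E := by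
      have a1 : 0 < 𝕂 ^ ((1 - θ) * l) / 2 := by positivity
      have a2 : 0 < 𝕂 ^ ((1 - θ) * ((l + 1 : ℕ) : ℝ)) / 2 := by positivity
      calc _ ≤ 𝕂 / (𝕂 ^ ((1 - θ) * l) / 2 * (𝕂 ^ ((1 - θ) * ((l + 1 : ℕ) : ℝ)) / 2)) := by
            have := ne_pos U l
            gcongr
        _ = 4 * E := by
          rw [hE, Real.rpow_sub hp, Real.rpow_one,
            show (1 - θ) * (2 * (l : ℝ) + 1) = (1 - θ) * l + (1 - θ) * ((l + 1 : ℕ) : ℝ) by
              push_cast; ring, Real.rpow_add hp]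
          field_simp; ring
    have k2 : 𝕂 ^ (1 - (1 - θ) * (2 * ((l + 1 : ℕ) : ℝ) + 1)) ≤ E / 2 := by
      rw [show 1 - (1 - θ) * (2 * ((l + 1 : ℕ) : ℝ) + 1) =
        (1 - (1 - θ) * (2 * l + 1)) + (-(2 * (1 - θ))) by push_cast; ring, Real.rpow_add hp, ← hE]
      have : 𝕂 ^ (-(2 * (1 - θ))) ≤ 𝕂 ^ (-1 : ℝ) :=
        Real.rpow_le_rpow_of_exponent_le (by linarith) (by linarith)
      rw [Real.rpow_neg_one] at this
      have h5 : 𝕂⁻¹ ≤ 1 / 2 := by rw [inv_eq_one_div]; gcongr; linarith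
      nlinarith
    calc _ = |(rr U m - rr U m'') + (rr U m'' - rr U m')| := by ring_nf
      _ ≤ |rr U m - rr U m''| + |rr U m'' - rr U m'| := abs_add_le _ _
      _ ≤ 8 * (E / 2) + 4 * E := by gcongr; exacts [h1.trans (by gcongr), h2.trans k1]
      _ = 8 * E := by ring

theorem ps_proof : PS := by
  filter_upwards [eventually_ge_atTop (4 : ℝ)] with 𝕂 h4 θ hθ0 hθ U hU j m hm he hg l hl
  have hp : 0 < 𝕂 := by linarith
  obtain ⟨m', hm', he', h0⟩ : ∃ m', (m' = l ∨ m' = l + 1) ∧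
      |eta U m'| = ne U l ∧ (j - l = 0 → m' = m) := by
    by_cases hs : j - l = 0
    · have : j = l := by omega
      subst this
      exact ⟨m, hm, he, fun _ => rfl⟩
    · obtain ⟨m'', h1, h2⟩ := exists_nn (eta U) l
      exact ⟨m'', h1, h2, fun h => absurd h hs⟩
  have h1 := rr_tele h4 hθ hU hm he hg (j - l) l m' (by omega) hm' he' h0
  have h2 := nn_dir U hm' he'
  have h3 := ne_le_pow hU l
  have g1 := hg l hl
  have hn := ne_pos U l
  set F := 𝕂 ^ (θ - (1 - 2 * θ) * l) with hF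
  have k1 : 8 * 𝕂 ^ (1 - (1 - θ) * (2 * l + 1)) * ne U l ≤ 8 * F := by
    calc _ ≤ 8 * 𝕂 ^ (1 - (1 - θ) * (2 * l + 1)) * 𝕂 ^ l := by gcongr
      _ = 8 * F := by
        rw [mul_assoc, ← Real.rpow_natCast, ← Real.rpow_add hp, hF]; congr 2; ring
  have k2 : 1 / ne U l ≤ 2 * F := by
    have a1 : 0 < 𝕂 ^ ((1 - θ) * l) / 2 := by positivity
    calc _ ≤ 1 / (𝕂 ^ ((1 - θ) * l) / 2) := by gcongr
      _ = 2 * 𝕂 ^ (-((1 - θ) * l)) := by rw [Real.rpow_neg hp.le]; field_simp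
      _ ≤ 2 * F := by
        gcongr
        refine Real.rpow_le_rpow_of_exponent_le (by linarith) ?_
        have : (0 : ℝ) ≤ l := Nat.cast_nonneg l
        nlinarith
  have key : ∀ i, (i = l ∨ i = l + 1) → |sol U 1 (rr U m) i| ≤ 10 * F := by
    intro i hi
    rw [sol_one_eq U (rr U m) (rr U m') i]
    have b1 := abs_le_nn_of (sol U 1 (rr U m')) hi
    have b2 : |eta U i| ≤ ne U l := abs_le_nn_of (eta U) hi
    calc _ ≤ |sol U 1 (rr U m') i| + |rr U m - rr U m'| * |eta U i| := by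
          rw [← abs_mul]; exact abs_add_le _ _
      _ ≤ 1 / ne U l + 8 * 𝕂 ^ (1 - (1 - θ) * (2 * l + 1)) * ne U l := by
          gcongr; rwa [← h2]
      _ ≤ _ := by linarith
  exact (nn_le_iff _ _ _).2 ⟨key l (Or.inl rfl), key (l + 1) (Or.inr rfl)⟩

lemma ten_rpow_small : ∀ᶠ 𝕂 : ℝ in atTop, ∀ x : ℝ, x ≤ -0.9 → 10 * 𝕂 ^ x ≤ 1 / 16 := by
  filter_upwards [eventually_ge_atTop (1 : ℝ), ev_const_le_rpow 160 0.9 (by norm_num)]
    with 𝕂 h1 h2 x hx
  have : 𝕂 ^ x ≤ 𝕂 ^ (-(0.9 : ℝ)) := Real.rpow_le_rpow_of_exponent_le h1 hx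
  rw [Real.rpow_neg (by linarith)] at this
  have h3 : (𝕂 ^ (0.9 : ℝ))⁻¹ ≤ 160⁻¹ := by gcongr
  linarith

theorem zs_proof (hPS : PS) : ZS := by
  filter_upwards [hPS, ten_rpow_small, eventually_ge_atTop (1 : ℝ)] with 𝕂 hP hs h1 U hU j hj hg
  obtain ⟨m, hm, he⟩ := exists_nn (eta U) j
  have hg' : ∀ l : ℕ, l ≤ j → 𝕂 ^ ((1 - (1 / 100 : ℝ)) * l) / 2 ≤ ne U l := by
    intro l hl; have := hg l hl; norm_num at this ⊢; exact this
  have H := hP (1 / 100) (by norm_num) le_rfl U hU j m hm he hg'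
  have hj' : (1 : ℝ) ≤ j := by exact_mod_cast hj
  have r1 : |rr U m| ≤ 1 / 16 := by
    have := (abs_le_nn _ 1).trans (H 1 hj)
    rw [sol_one] at this
    exact this.trans (hs _ (by norm_num))
  have r2 : nn (sol U 1 (rr U m)) j ≤ 1 / 16 := (H j le_rfl).trans (hs _ (by nlinarith))
  have r3 : 1 / 2 ≤ ne U j := by
    refine le_trans ?_ (hg j le_rfl)
    gcongr
    exact Real.one_le_rpow h1 (by positivity)
  have key : ∀ i, (i = j ∨ i = j + 1) → |zeta U i| ≤ ne U j / 4 := by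
    intro i hi
    have e : zeta U i = sol U 1 (rr U m) i - rr U m * eta U i := by rw [sol_eq]; ring
    have b1 := abs_le_nn_of (sol U 1 (rr U m)) hi
    have b2 : |eta U i| ≤ ne U j := abs_le_nn_of (eta U) hi
    rw [e]
    calc _ ≤ |sol U 1 (rr U m) i| + |rr U m| * |eta U i| := by
          rw [← abs_mul]; exact abs_sub _ _
      _ ≤ 1 / 16 + 1 / 16 * ne U j := by gcongr; linarith
      _ ≤ _ := by linarith
  exact (nn_le_iff _ _ _).2 ⟨key j (Or.inl rfl), key (j + 1) (Or.inr rfl)⟩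

theorem mg_proof (hPS : PS) : MG := by
  filter_upwards [hPS, ten_rpow_small, eventually_ge_atTop (1 : ℝ),
    ev_const_le_rpow 2 1 (by norm_num)] with 𝕂 hP hs h1 h2 θ hθ0 hθ U hU N hG
  have hp : 0 < 𝕂 := lt_of_lt_of_le one_pos h1
  intro l
  induction l using Nat.strong_induction_on with
  | _ l ih =>
    intro hl
    match l with
    | 0 => simp
    | 1 =>
      have e1 : eta U 2 = U 1 := by rw [show 2 = 0 + 2 from rfl, eta_succ_succ]; simp
      have e2 : zeta U 2 = -1 := by rw [show 2 = 0 + 2 from rfl, zeta_succ_succ]; simp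
      simp [Mx, ne, nn, e1, e2]
    | (l + 2) =>
      obtain ⟨m, hm, he⟩ := exists_nn (eta U) (l + 1)
      have hg : ∀ i : ℕ, i ≤ l + 1 → 𝕂 ^ ((1 - θ) * i) ≤ ne U i := by
        intro i hi
        rw [← ih i (by omega) (by omega)]; exact hG i (by omega)
      have hg' : ∀ i : ℕ, i ≤ l + 1 → 𝕂 ^ ((1 - θ) * i) / 2 ≤ ne U i := by
        intro i hi
        have := hg i hi
        have : 0 < 𝕂 ^ ((1 - θ) * i) := by positivity
        linarith
      have H := hP θ hθ0 hθ U hU (l + 1) m hm he hg'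
      have r1 : |rr U m| ≤ 1 / 16 := by
        have := (abs_le_nn _ 1).trans (H 1 (by omega))
        rw [sol_one] at this
        exact this.trans (hs _ (by push_cast; linarith))
      have r2 := nn_succ_le hU 1 (rr U m) (l + 1)
      rw [nn_dir U hm he] at r2
      have r3 : 𝕂 * (1 / ne U (l + 1)) ≤ Mx U (l + 2) / 2 := by
        have a1 := hg (l + 1) le_rfl
        have a2 := hG (l + 2) hl
        have a0 : 0 < 𝕂 ^ ((1 - θ) * ((l + 1 : ℕ) : ℝ)) := by positivity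
        have hl0 : (0 : ℝ) ≤ l := Nat.cast_nonneg l
        calc _ ≤ 𝕂 * (1 / 𝕂 ^ ((1 - θ) * ((l + 1 : ℕ) : ℝ))) := by gcongr
          _ = 𝕂 ^ (1 - (1 - θ) * ((l + 1 : ℕ) : ℝ)) := by
              rw [Real.rpow_sub hp, Real.rpow_one]; ring
          _ ≤ 𝕂 ^ ((1 - θ) * ((l + 2 : ℕ) : ℝ) - 1) :=
              Real.rpow_le_rpow_of_exponent_le h1 (by push_cast; nlinarith)
          _ = 𝕂 ^ ((1 - θ) * ((l + 2 : ℕ) : ℝ)) / 𝕂 ^ (1 : ℝ) := Real.rpow_sub hp _ _
          _ ≤ Mx U (l + 2) / 2 := by gcongr; exact (Mx_pos _ _).le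
      have hn := ne_pos U (l + 2)
      have key : ∀ i, (i = l + 2 ∨ i = l + 2 + 1) →
          |zeta U i| ≤ Mx U (l + 2) / 2 + ne U (l + 2) / 2 := by
        intro i hi
        have e : zeta U i = sol U 1 (rr U m) i - rr U m * eta U i := by rw [sol_eq]; ring
        have b1 := abs_le_nn_of (sol U 1 (rr U m)) hi
        have b2 : |eta U i| ≤ ne U (l + 2) := abs_le_nn_of (eta U) hi
        rw [e]
        calc _ ≤ |sol U 1 (rr U m) i| + |rr U m| * |eta U i| := by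
              rw [← abs_mul]; exact abs_sub _ _
          _ ≤ Mx U (l + 2) / 2 + 1 / 16 * ne U (l + 2) := by gcongr; linarith
          _ ≤ _ := by linarith
      have k : nn (zeta U) (l + 2) ≤ Mx U (l + 2) / 2 + ne U (l + 2) / 2 :=
        (nn_le_iff _ _ _).2 ⟨key _ (Or.inl rfl), key _ (Or.inr rfl)⟩
      refine le_antisymm ?_ (ne_le_Mx _ _)
      rcases le_total (nn (eta U) (l + 2)) (nn (zeta U) (l + 2)) with h | h
      · have : Mx U (l + 2) = nn (zeta U) (l + 2) := max_eq_right h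
        linarith
      · exact (max_eq_left h).le

end Crest.Agent.R128
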