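import Crest.Agent.R128.Defs

/-! # Row 128, task REFL -/

set_option autoImplicit false

namespace Crest.Agent.R128

namespace Refl

lemma dd_expand (g : ℝ → ℝ) (t : Fin 5 → ℝ) :
    dd g t = g (t 0) / ((t 0 - t 1) * (t 0 - t 2) * (t 0 - t 3) * (t 0 - t 4)) +
      g (t 1) / ((t 1 - t 0) * (t 1 - t 2) * (t 1 - t 3) * (t 1 - t 4)) +
      g (t 2) / ((t 2 - t 0) * (t 2 - t 1) * (t 2 - t 3) * (t 2 - t 4)) +
      g (t 3) / ((t 3 - t 0) * (t 3 - t 1) * (t 3 - t 2) * (t 3 - t 4)) +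
      g (t 4) / ((t 4 - t 0) * (t 4 - t 1) * (t 4 - t 2) * (t 4 - t 3)) := by
  have h0 : (Finset.univ.erase (0 : Fin 5)) = {1, 2, 3, 4} := by decide
  have h1 : (Finset.univ.erase (1 : Fin 5)) = {0, 2, 3, 4} := by decide
  have h2 : (Finset.univ.erase (2 : Fin 5)) = {0, 1, 3, 4} := by decide
  have h3 : (Finset.univ.erase (3 : Fin 5)) = {0, 1, 2, 4} := by decide
  have h4 : (Finset.univ.erase (4 : Fin 5)) = {0, 1, 2, 3} := by decide
  simp only [dd, Fin.sum_univ_five, h0, h1, h2, h3, h4]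
  repeat rw [Finset.prod_insert (by decide)]
  simp only [Finset.prod_singleton, mul_assoc]

lemma dd_refl (g : ℝ → ℝ) (c : ℝ) (t : Fin 5 → ℝ) :
    dd (fun p => g (c - p)) t = dd g (fun i => c - t (Fin.rev i)) := by
  rw [dd_expand, dd_expand]
  have e0 : Fin.rev (0 : Fin 5) = 4 := rfl
  have e1 : Fin.rev (1 : Fin 5) = 3 := rfl
  have e2 : Fin.rev (2 : Fin 5) = 2 := rfl
  have e3 : Fin.rev (3 : Fin 5) = 1 := rfl
  have e4 : Fin.rev (4 : Fin 5) = 0 := rfl
  simp only [e0, e1, e2, e3, e4]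
  have k : ∀ a b₁ b₂ b₃ b₄ : ℝ, (c - a - (c - b₁)) * (c - a - (c - b₂)) * (c - a - (c - b₃)) * (c - a - (c - b₄)) =
      (a - b₄) * (a - b₃) * (a - b₂) * (a - b₁) := by intros; ring
  simp only [k]
  ring

end Refl

theorem refl_proof : REFL := by
  intro 𝕂 a A u I p₀ N c h
  have hab : ∀ p : ℝ, |c - p - (c - p₀)| = |p - p₀| := fun p => by
    rw [← abs_neg]; congr 1; ring
  refine ⟨h.pos, fun p => ?_, by rw [abs_neg]; exact h.base, fun p hp => ?_, fun t s h1 h2 h3 => ?_,
    fun t ht hi => ?_⟩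
  · have := (h.der (c - p)).comp p ((hasDerivAt_id p).const_sub c)
    simpa [Function.comp_def] using this
  · have := h.near (c - p) (by rwa [hab])
    refine ⟨?_, this.2⟩
    rw [← abs_neg]
    convert this.1 using 2
    ring
  · have := h.quad (c - t) (-s) (by rwa [hab])
      (by rw [show c - t + -s = c - (t + s) by ring, hab]; exact h2)
      (by rw [show c - t + 2 * -s = c - (t + 2 * s) by ring, hab]; exact h3)
    rw [show c - t + -s = c - (t + s) by ring, show c - t + 2 * -s = c - (t + 2 * s) by ring, abs_neg] at this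
    convert this using 2
    ring
  · rw [Refl.dd_refl]
    refine h.four _ (fun i j hij => ?_) (fun i => by rw [hab]; exact hi _)
    have := ht (Fin.rev_lt_rev.2 hij)
    linarith

end Crest.Agent.R128
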