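import Crest.Agent.R128.Basic

/-! Row 128, task REST. -/

set_option autoImplicit false

namespace Crest.Agent.R128

open Filter MeasureTheory Set
open scoped Classical

lemma rest_filter {𝕂 δ : ℝ} {U : ℕ → ℝ} {S : ℕ}
    (h : (((Finset.range (S + 1)).filter (fun z => ¬ (BPl 𝕂 U z ∧ FPl 𝕂 U z S))).card : ℝ) ≤
      200 * δ * S + 1) :
    (Finset.range (S + 1)).filter (fun z => BPl 𝕂 U z ∧ FPl 𝕂 U z S) ∈
      (Finset.range (S + 1)).powerset.filter
        (fun T => (Finset.range (S + 1) \ T).card ≤ ⌊200 * δ * S + 1⌋₊) := by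
  refine Finset.mem_filter.2 ⟨Finset.mem_powerset.2 (Finset.filter_subset _ _), Nat.le_floor ?_⟩
  rwa [← Finset.filter_not]

theorem rest_proof (hPAT : PAT) (hPL : PLISS) (hC : CNT) : REST := by
  have hc0 : 0 < 1 - c0 := by unfold c0; norm_num
  obtain ⟨γ, hγ, hγe⟩ : ∃ γ : ℝ, 0 < γ ∧ 1 - c0 = Real.exp (-γ) :=
    ⟨-Real.log (1 - c0), neg_pos.2 (Real.log_neg hc0 (by unfold c0; norm_num)), by
      rw [neg_neg, Real.exp_log hc0]⟩
  obtain ⟨x, hx0, hx1, hxγ⟩ : ∃ x : ℝ, 0 < x ∧ x ≤ 1 ∧ x ≤ γ / 40 :=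
    ⟨min 1 (γ / 40), by positivity, min_le_left _ _, min_le_right _ _⟩
  obtain ⟨l, hl, hle⟩ : ∃ l : ℝ, 0 ≤ l ∧ x = Real.exp (-l) :=
    ⟨-Real.log x, neg_nonneg.2 (Real.log_nonpos hx0.le hx1), by rw [neg_neg, Real.exp_log hx0]⟩
  obtain ⟨δ, hδ0, hδ1, hδ2⟩ : ∃ δ : ℝ, 0 < δ ∧ δ ≤ 1 / 40000 ∧ δ ≤ γ / (8000 * (l + 1)) :=
    ⟨min (1 / 40000) (γ / (8000 * (l + 1))), by positivity, min_le_left _ _, min_le_right _ _⟩
  rw [le_div_iff₀ (by positivity)] at hδ2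
  refine ⟨δ, hδ0, by linarith, γ / 10, by positivity,
    Real.exp (20 * γ + 2 * x + 2 * l + 5 * γ), ?_⟩
  filter_upwards [hPAT, ev_KK hPL, eventually_ge_atTop 0] with k hP hPl hk S
  rw [← Real.exp_add]
  have hS0 : (0 : ℝ) ≤ S := Nat.cast_nonneg S
  rcases lt_or_ge S 200 with hS | hS
  · refine (Pr_le_one _ _).trans (Real.one_le_exp ?_)
    have : (S : ℝ) ≤ 200 := by exact_mod_cast hS.le
    nlinarith
  have hS' : (200 : ℝ) ≤ S := by exact_mod_cast hS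
  set m := ⌊200 * δ * S + 1⌋₊ with hm
  have hm1 : (m : ℝ) ≤ 200 * δ * S + 1 := Nat.floor_le (by positivity)
  have hm2 : 100 * m ≤ S := by
    have : 100 * (m : ℝ) ≤ S := by nlinarith
    exact_mod_cast this
  set F := (Finset.range (S + 1)).powerset.filter
    (fun T => (Finset.range (S + 1) \ T).card ≤ m) with hF
  have hcard : (F.card : ℝ) ≤ Real.exp (x * (S + 1) + l * m) := by
    refine (hC x (S + 1) m hx0 hx1).trans ?_
    rw [div_le_iff₀ (pow_pos hx0 m)]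
    nth_rewrite 3 [hle]
    rw [← Real.exp_nat_mul, ← Real.exp_add]
    refine (pow_le_pow_left₀ (by linarith) (show 1 + x ≤ Real.exp x by
      linarith [Real.add_one_le_exp x]) _).trans (le_of_eq ?_)
    rw [← Real.exp_nat_mul]
    congr 1
    push_cast
    ring
  have hn : (S : ℝ) / 5 - 5 ≤ ((S / 5 - 4 : ℕ) : ℝ) := by
    have h1 : S ≤ 5 * (S / 5 - 4) + 25 := by omega
    have h2 : (S : ℝ) ≤ 5 * ((S / 5 - 4 : ℕ) : ℝ) + 25 := by exact_mod_cast h1
    linarith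
  have hB : ((F ×ˢ F).card : ℝ) * (1 - c0) ^ (S / 5 - 4) ≤
      Real.exp (20 * γ + 2 * x + 2 * l + 5 * γ + -(γ / 10) * S) := by
    rw [Finset.card_product, Nat.cast_mul, hγe, ← Real.exp_nat_mul]
    refine (mul_le_mul_of_nonneg_right (mul_le_mul hcard hcard (Nat.cast_nonneg _)
      (Real.exp_pos _).le) (Real.exp_pos _).le).trans ?_
    rw [← Real.exp_add, ← Real.exp_add, Real.exp_le_exp]
    have h1 := mul_le_mul_of_nonneg_left hm1 hl
    have h2 := mul_le_mul_of_nonneg_right hn hγ.le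
    have h3 := mul_le_mul_of_nonneg_right hxγ hS0
    have h4 := mul_le_mul_of_nonneg_right hδ2 hS0
    have h5 : 0 ≤ δ * S := by positivity
    nlinarith
  have hE : MeasurableSet {ω | Rev (KK k) δ S (VV k ω)} :=
    measurable_VV k (measurableSet_Rev _ _ _)
  refine ENNReal.toReal_le_of_le_ofReal (Real.exp_pos _).le ?_
  rw [mu_eq_prod, Measure.prod_apply hE]
  refine (lintegral_mono (g := fun _ => ENNReal.ofReal
    (Real.exp (20 * γ + 2 * x + 2 * l + 5 * γ + -(γ / 10) * S))) fun b => ?_).trans (by simp)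
  refine le_trans ?_ (ENNReal.ofReal_le_ofReal hB)
  rw [Measure.restrict_apply' measurableSet_Ico]
  have hsub : Prod.mk b ⁻¹' {ω | Rev (KK k) δ S (VV k ω)} ∩ Ico 0 1 ⊆
      ⋃ T ∈ F ×ˢ F, Epat k δ S b T.1 T.2 := by
    rintro p ⟨⟨r, h1, h2⟩, hp⟩
    rw [fwd_VV_one] at h1
    rw [bwd_VV_neg_one, VV_zero] at h2
    refine mem_biUnion (x := (_, _)) (Finset.mem_coe.2 (Finset.mem_product.2
      ⟨rest_filter (hPl _ (bd_pot hk _ _) δ _ S hδ0.le h1),
        rest_filter (hPl _ (bd_pot hk _ _) δ _ S hδ0.le h2)⟩)) ?_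
    exact ⟨hp, ⟨r, h1, h2⟩, fun z hz => (Finset.mem_filter.1 hz).2,
      fun z hz => (Finset.mem_filter.1 hz).2⟩
  refine (measure_mono hsub).trans ((measure_biUnion_finset_le _ _).trans ?_)
  rw [ENNReal.ofReal_mul (Nat.cast_nonneg _), ENNReal.ofReal_natCast, ← nsmul_eq_mul]
  refine Finset.sum_le_card_nsmul _ _ _ fun T hT => ?_
  obtain ⟨h1, h2⟩ := Finset.mem_product.1 hT
  obtain ⟨h3, h4⟩ := Finset.mem_filter.1 h1
  obtain ⟨h5, h6⟩ := Finset.mem_filter.1 h2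
  exact hP δ b S _ _ (by linarith) (Finset.mem_powerset.1 h3) (Finset.mem_powerset.1 h5)
    (by omega) (by omega)

end Crest.Agent.R128
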