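import Crest.Agent.R128.Defs

/-! Row 128, task RS (rising sun). -/

set_option autoImplicit false

namespace Crest.Agent.R128

open scoped BigOperators Classical

theorem rs_aux (d : ℕ → ℝ) (hd : ∀ j, 0 ≤ d j) (c : ℝ) (hc : 0 < c) (T : ℕ) (P : ℕ → Prop)
    (hP : ∀ t, P t → ∃ i : ℕ, 1 ≤ i ∧ t + i ≤ T ∧ c * i ≤ ∑ j ∈ Finset.Ico t (t + i), d j) :
    ∀ n a : ℕ, T - a = n →
      c * (((Finset.Ico a T).filter P).card : ℝ) ≤ ∑ j ∈ Finset.Ico a T, d j := by
  intro n
  induction n using Nat.strong_induction_on with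
  | _ n ih =>
    intro a hn
    by_cases haT : T ≤ a
    · rw [Finset.Ico_eq_empty_of_le haT]; simp
    push Not at haT
    by_cases hPa : P a
    · obtain ⟨i, hi1, hiT, hci⟩ := hP a hPa
      have h1 := ih (T - (a + i)) (by omega) (a + i) rfl
      have h2 : ((Finset.Ico a T).filter P).card ≤ i + ((Finset.Ico (a + i) T).filter P).card := by
        have : (Finset.Ico a T).filter P ⊆
            Finset.Ico a (a + i) ∪ (Finset.Ico (a + i) T).filter P := by
          intro t ht
          simp only [Finset.mem_filter, Finset.mem_Ico, Finset.mem_union] at ht ⊢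
          by_cases h : t < a + i
          · exact Or.inl ⟨ht.1.1, h⟩
          · exact Or.inr ⟨⟨by omega, ht.1.2⟩, ht.2⟩
        refine (Finset.card_le_card this).trans ((Finset.card_union_le _ _).trans ?_)
        simp
      have h3 : (((Finset.Ico a T).filter P).card : ℝ) ≤
          i + (((Finset.Ico (a + i) T).filter P).card : ℝ) := by exact_mod_cast h2
      rw [← Finset.sum_Ico_consecutive d (Nat.le_add_right a i) hiT]
      nlinarith [mul_le_mul_of_nonneg_left h3 hc.le]
    · have h1 := ih (T - (a + 1)) (by omega) (a + 1) rfl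
      have h2 : (Finset.Ico a T).filter P = (Finset.Ico (a + 1) T).filter P := by
        ext t
        simp only [Finset.mem_filter, Finset.mem_Ico]
        constructor
        · rintro ⟨⟨h1, h2⟩, h3⟩
          refine ⟨⟨?_, h2⟩, h3⟩
          rcases Nat.eq_or_lt_of_le h1 with rfl | h
          · exact absurd h3 hPa
          · exact h
        · rintro ⟨⟨h1, h2⟩, h3⟩
          exact ⟨⟨by omega, h2⟩, h3⟩
      rw [h2, Finset.sum_eq_sum_Ico_succ_bot haT]
      linarith [hd a]

theorem rs_proof : RS := by
  intro d hd c hc T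
  have := rs_aux d hd c hc T (fun t => ∃ i : ℕ, 1 ≤ i ∧ t + i ≤ T ∧
      c * i ≤ ∑ j ∈ Finset.Ico t (t + i), d j) (fun _ h => h) T 0 rfl
  rw [← Finset.range_eq_Ico] at this
  convert this

end Crest.Agent.R128
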