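import Crest.Agent.R128.Basic

/-! Row 128, tasks SB1, SBF, SBB, DET2. -/

set_option autoImplicit false

namespace Crest.Agent.R128

open Set Filter
open scoped BigOperators Classical

theorem sb1_proof (hMG : MG) : SB1 := by
  filter_upwards [hMG] with 𝕂 h θ h0 h1 V hV N i a hi hG
  have hM := h θ h0 h1 _ (hV.fwd (a + 1)) N hG i hi
  obtain ⟨m, hm, hme⟩ := exists_nn (eta (fwd V (a + 1))) i
  have hη : |eta (fwd V (a + 1)) m| = Mx (fwd V (a + 1)) i := by rw [hM]; exact hme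
  have hζ : |zeta (fwd V (a + 1)) m| ≤ Mx (fwd V (a + 1)) i :=
    (abs_le_nn_of _ hm).trans (nn_zeta_le_Mx _ _)
  have h2 : |eta (fwd V a) (m + 1)| ≤ Mx (fwd V a) (i + 1) :=
    (abs_le_nn_of (eta (fwd V a)) (j := i + 1) (by omega)).trans (ne_le_Mx _ _)
  rw [prepend_eta] at h2
  have h3 : |V a * eta (fwd V (a + 1)) m| ≤
      |zeta (fwd V (a + 1)) m + V a * eta (fwd V (a + 1)) m| + |zeta (fwd V (a + 1)) m| := by
    have := abs_sub (zeta (fwd V (a + 1)) m + V a * eta (fwd V (a + 1)) m) (zeta (fwd V (a + 1)) m)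
    rwa [add_sub_cancel_left] at this
  rw [abs_mul, hη] at h3
  linarith

namespace SBAux

theorem cnt_eq (P : ℤ → Prop) (i : ℕ) :
    (cnt P i : ℝ) = ∑ j ∈ Finset.range i, if P ((j : ℤ) + 1) then (1 : ℝ) else 0 := by
  unfold cnt
  rw [Finset.sum_boole]

theorem cnt_mono {P Q : ℤ → Prop} {i : ℕ} (h : ∀ j : ℕ, j < i → P ((j : ℤ) + 1) → Q ((j : ℤ) + 1)) :
    (cnt P i : ℝ) ≤ cnt Q i := by
  refine Nat.cast_le.mpr (Finset.card_le_card fun j hj => ?_)
  simp only [Finset.mem_filter, Finset.mem_range] at hj ⊢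
  exact ⟨hj.1, h j hj.1 hj.2⟩

theorem step {𝕂 θ₁ M M' v : ℝ} (P : Prop) (hK : 1 ≤ 𝕂) (h0 : 0 ≤ θ₁) (h2 : 2 ≤ 𝕂 ^ (1 - θ₁))
    (hM : 0 < M) (hM' : 0 < M') (ha : M ≤ 𝕂 * M')
    (hb : ¬ P → (|v| - 1) * M ≤ M' ∧ ¬ Small 𝕂 θ₁ v) :
    Real.log M + ((1 - θ₁) * Real.log 𝕂 - Real.log 2) -
      2 * Real.log 𝕂 * (if P then 1 else 0) ≤ Real.log M' := by
  have hK0 : 0 < 𝕂 := by linarith
  have hL : 0 ≤ Real.log 𝕂 := Real.log_nonneg hK
  have hl2 : 0 ≤ Real.log 2 := Real.log_nonneg (by norm_num)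
  split_ifs with hP
  · have := Real.log_le_log hM ha
    rw [Real.log_mul hK0.ne' hM'.ne'] at this
    nlinarith [mul_nonneg h0 hL]
  · obtain ⟨h3, h4⟩ := hb hP
    unfold Small at h4
    push Not at h4
    have h5 : 𝕂 ^ (1 - θ₁) / 2 * M ≤ M' :=
      le_trans (mul_le_mul_of_nonneg_right (by linarith) hM.le) h3
    have hX : 0 < 𝕂 ^ (1 - θ₁) := by linarith
    have := Real.log_le_log (by positivity) h5
    rw [Real.log_mul (by positivity) hM.ne', Real.log_div hX.ne' (by norm_num),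
      Real.log_rpow hK0] at this
    linarith

theorem ev_two : ∀ᶠ 𝕂 : ℝ in atTop, 1 ≤ 𝕂 ∧ ∀ θ₁ : ℝ, θ₁ ≤ 1 / 100 → 2 ≤ 𝕂 ^ (1 - θ₁) := by
  filter_upwards [eventually_ge_atTop (1 : ℝ), ev_const_le_rpow 2 (1 / 2) (by norm_num)]
    with 𝕂 h1 h2
  exact ⟨h1, fun θ₁ h => h2.trans (Real.rpow_le_rpow_of_exponent_le h1 (by linarith))⟩

end SBAux

open SBAux

theorem sbf_proof (hSB : SB1) : SBF := by
  filter_upwards [hSB, ev_two] with 𝕂 h hK θ θ₁ h0 h1 h2 h3 V hV N i hi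
  have key : ∀ n : ℕ, n ≤ N + 1 → ∀ a : ℤ,
      n * ((1 - θ₁) * Real.log 𝕂 - Real.log 2) - 2 * Real.log 𝕂 *
        ∑ j ∈ Finset.range n, (if D1 𝕂 θ θ₁ N (sh V (a + j)) then (1 : ℝ) else 0) ≤
        Real.log (Mx (fwd V a) n) := by
    intro n
    induction n with
    | zero => intro _ a; simp
    | succ n ih =>
      intro hn a
      have i1 := ih (by omega) (a + 1)
      have i2 := step (v := V a) (D1 𝕂 θ θ₁ N (sh V a)) hK.1 h2 (hK.2 θ₁ h3)
        (Mx_pos (fwd V (a + 1)) n) (Mx_pos (fwd V a) (n + 1)) (Mx_prepend_ge hV a n) (by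
          intro hD
          unfold D1 at hD
          rw [fwd_sh, sh_apply_zero, add_comm 1 a] at hD
          push Not at hD
          exact ⟨h θ h0 h1 V hV N n a (by omega) hD.1, hD.2⟩)
      rw [Finset.sum_range_succ']
      have e : ∀ j : ℕ, a + ((j + 1 : ℕ) : ℤ) = a + 1 + j := fun j => by push_cast; ring
      simp only [e, Nat.cast_zero, add_zero]
      push_cast
      linarith
  have := key i hi 1
  rw [cnt_eq]
  simp only [add_comm (1 : ℤ)] at this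
  exact this

theorem sbb_proof (hSB : SB1) : SBB := by
  filter_upwards [hSB, ev_two] with 𝕂 h hK θ θ₁ h0 h1 h2 h3 V hV N i
  have e : ∀ n : ℕ, Mx (fwd V 1) n = Mx (fwd (fun s => V (-s)) (-(n : ℤ))) n := by
    intro n
    rw [Mx_symm, bwd_eq_fwd]
    congr 2
    ring
  induction i with
  | zero => intro _; simp [cnt]
  | succ n ih =>
    intro hn
    have i1 := ih (by omega)
    have e1 : -((n + 1 : ℕ) : ℤ) + 1 = -(n : ℤ) := by push_cast; ring
    have i2 := step (v := V ((n : ℤ) + 1))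
      (¬ Good 𝕂 θ N (bwd V ((n : ℤ) + 1 - 1)) ∨ Small 𝕂 θ₁ (V ((n : ℤ) + 1))) hK.1 h2 (hK.2 θ₁ h3)
      (Mx_pos (fwd V 1) n) (Mx_pos (fwd V 1) (n + 1)) (Mx_le_succ (hV.fwd 1) n) (by
        intro hD
        push Not at hD
        refine ⟨?_, hD.2⟩
        have := h θ h0 h1 (fun s => V (-s)) hV.neg N n (-((n + 1 : ℕ) : ℤ)) (by omega) (by
          rw [e1, ← bwd_eq_fwd]
          have := hD.1
          rwa [add_sub_cancel_right] at this)
        rw [e1, ← e, ← e, neg_neg] at this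
        push_cast at this
        exact this)
    rw [cnt_eq] at i1 ⊢
    rw [Finset.sum_range_succ]
    push_cast
    linarith

theorem det2_proof (hSBF : SBF) : DET2 := by
  intro θ₀ h0 h1
  have hc : 0 < θ₀ ^ 2 / 32 := by positivity
  filter_upwards [hSBF, ev_const_le_log (Real.log 2 / (θ₀ ^ 2 / 32)), eventually_gt_atTop (1 : ℝ)]
    with 𝕂 h hl hK θ t0 t1 V hV N hG
  rw [div_le_iff₀ hc] at hl
  have hL : 0 < Real.log 𝕂 := Real.log_pos hK
  unfold Good at hG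
  push Not at hG
  obtain ⟨i, hi, hlt⟩ := hG
  have hi1 : 1 ≤ i := by
    rcases Nat.eq_zero_or_pos i with rfl | h
    · simp at hlt
    · exact h
  refine ⟨i, hi1, hi, ?_⟩
  have h2 := h θ (θ₀ ^ 2 / 32) t0 t1 hc.le (by nlinarith) V hV N i hi
  have h3 := Real.log_lt_log (Mx_pos _ _) hlt
  rw [Real.log_rpow (by linarith)] at h3
  generalize (cnt (fun j => D1 𝕂 θ (θ₀ ^ 2 / 32) N (sh V j)) i : ℝ) = C at *
  generalize Real.log 𝕂 = L at *
  have hi0 : (0 : ℝ) ≤ i := Nat.cast_nonneg i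
  have h4 : (i : ℝ) * Real.log 2 ≤ i * (L * (θ₀ ^ 2 / 32)) := mul_le_mul_of_nonneg_left hl hi0
  have h5 : θ₀ ^ 2 / 32 ≤ θ₀ / 8 := by nlinarith
  have h6 : (i : ℝ) * L * (θ₀ ^ 2 / 32) ≤ i * L * (θ₀ / 8) :=
    mul_le_mul_of_nonneg_left h5 (by positivity)
  have h7 : L * (θ₀ / 8 * i) ≤ L * C := by nlinarith
  exact le_of_mul_le_mul_left h7 hL

end Crest.Agent.R128
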