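import Crest.Agent.R128.Basic

/-! # Row 128, task SEC -/

set_option autoImplicit false

namespace Crest.Agent.R128

open Filter

namespace Sec

lemma mvt (k x y : ℝ) : ∃ c, |c - x| ≤ |y - x| ∧ Fm k y - Fm k x = Wm k c * (y - x) := by
  rcases lt_trichotomy x y with h | rfl | h
  · obtain ⟨c, hc, e⟩ := exists_hasDerivAt_eq_slope (Fm k) (Wm k) h (continuous_Fm k).continuousOn
      (fun z _ => hasDerivAt_Fm k z)
    refine ⟨c, ?_, ?_⟩
    · rw [abs_of_pos (by linarith [hc.1]), abs_of_pos (by linarith)]; linarith [hc.2]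
    · rw [e]; field_simp [sub_ne_zero.2 h.ne']
  · exact ⟨x, le_rfl, by simp⟩
  · obtain ⟨c, hc, e⟩ := exists_hasDerivAt_eq_slope (Fm k) (Wm k) h (continuous_Fm k).continuousOn
      (fun z _ => hasDerivAt_Fm k z)
    refine ⟨c, ?_, ?_⟩
    · rw [abs_of_neg (by linarith [hc.2]), abs_of_neg (by linarith)]; linarith [hc.1]
    · rw [e]; have : x - y ≠ 0 := sub_ne_zero.2 h.ne'
      field_simp
      ring

lemma close {U U' : ℕ → ℝ} {j : ℕ} (h : nn (fun i => eta U' i - eta U i) j ≤ ne U j / 10) :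
    (∀ m, (m = j ∨ m = j + 1) → |eta U' m - eta U m| ≤ ne U j / 10) ∧
      0.9 * ne U j ≤ ne U' j ∧ ne U' j ≤ 1.1 * ne U j := by
  have h1 : ∀ m, (m = j ∨ m = j + 1) → |eta U' m - eta U m| ≤ ne U j / 10 := fun m hm =>
    (abs_le_nn_of (fun i => eta U' i - eta U i) hm).trans h
  refine ⟨h1, ?_, ?_⟩
  · obtain ⟨m, hm, e⟩ := exists_nn (eta U) j
    have a := h1 m hm
    have b : |eta U' m| ≤ ne U' j := abs_le_nn_of _ hm
    have c := abs_sub_abs_le_abs_sub (eta U m) (eta U' m)
    rw [abs_sub_comm] at c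
    change _ = ne U j at e
    linarith
  · obtain ⟨m, hm, e⟩ := exists_nn (eta U') j
    have a := h1 m hm
    have b : |eta U m| ≤ ne U j := abs_le_nn_of _ hm
    have c := abs_sub_abs_le_abs_sub (eta U' m) (eta U m)
    change _ = ne U' j at e
    linarith

end Sec

theorem sec_proof (hST : ST) (hZS : ZS) : SEC := by
  filter_upwards [ev_KK hST, ev_KK hZS, eventually_ge_atTop (0 : ℝ)] with k hS hZ hk b p b' p' L m hL hm he hg
    hx hd
  choose c hc1 hc2 using Sec.mvt k
  set U := pot k b p with hU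
  set V : ℕ → ℝ := fun j => Wm k (c (xi k b p j) (xi k b' p' j)) with hV
  have bU : Bd (KK k) U := bd_pot hk b p
  have bV : Bd (KK k) V := fun j => abs_Wm_le hk _
  have h1 : 1 ≤ KK k := bU.one_le
  have h0 : 0 < KK k := by linarith
  have hdiff : ∀ l : ℕ, 1 ≤ l → l ≤ L → |V l - U l| ≤ 13 * KK k ^ (1 - (l : ℝ) / 2) := by
    intro l hl1 hl
    have a := Wm_lip' hk (c (xi k b p l) (xi k b' p' l)) (xi k b p l)
    have a2 := (hc1 (xi k b p l) (xi k b' p' l)).trans (hd l hl1 (by omega))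
    have e : KK k ^ (1 - (l : ℝ) / 2) = KK k * KK k ^ (-(l : ℝ) / 2) := by
      rw [show 1 - (l : ℝ) / 2 = 1 + -(l : ℝ) / 2 by ring, Real.rpow_add h0, Real.rpow_one]
    rw [e]
    calc |V l - U l| ≤ 6.5 * KK k * |c (xi k b p l) (xi k b' p' l) - xi k b p l| := a
      _ ≤ 6.5 * KK k * (2 * KK k ^ (-(l : ℝ) / 2)) := by gcongr
      _ = _ := by ring
  have hcl : ∀ j, j ≤ L → nn (fun i => eta V i - eta U i) j ≤ ne U j / 10 := fun j hj =>
    hS U V bU bV j (fun l h1 h2 => hdiff l h1 (by omega)) (fun l hl => hg l (by omega))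
  have hz := hZ V bV L hL (fun l hl => by
    have := (Sec.close (hcl l hl)).2.1
    have := hg l hl
    have := ne_pos U l
    linarith)
  obtain ⟨q1, -, q3⟩ := Sec.close (hcl L le_rfl)
  have hrec := eq_sol_of_rec V (fun j => xi k b' p' j - xi k b p j) m (fun j _ => by
    simp only [xi_succ_succ, hV]
    rw [← hc2]; ring) m le_rfl
  simp only [hx, sub_self, xi_zero, xi_one] at hrec
  rw [sol_eq] at hrec
  have a1 : 0.9 * ne U L ≤ |eta V m| := by
    have a := q1 m hm
    have c := abs_sub_abs_le_abs_sub (eta U m) (eta V m)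
    rw [abs_sub_comm] at c
    linarith
  have a2 : |zeta V m| ≤ 0.275 * ne U L := by
    have := abs_le_nn_of (zeta V) hm
    linarith
  have a3 : |p' - p| * |eta V m| = |b' - b| * |zeta V m| := by
    rw [← abs_mul, ← abs_mul, ← abs_neg]
    congr 1
    linarith
  have hp := ne_pos U L
  have a4 : |p' - p| * (0.9 * ne U L) ≤ |b' - b| * (0.275 * ne U L) := by
    calc _ ≤ |p' - p| * |eta V m| := by gcongr
      _ = _ := a3
      _ ≤ _ := by gcongr
  have := abs_nonneg (b' - b)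
  by_contra hcon
  push Not at hcon
  nlinarith

end Crest.Agent.R128
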