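import Crest.Agent.R128.Basic

/-! # Row 128, sub-tasks SHIFT and QB -/

set_option autoImplicit false

namespace Crest.Agent.R128

open MeasureTheory Set Filter
open scoped Real BigOperators Classical

namespace ShiftAux

lemma refl_per {A : Set ℝ} (hA : MeasurableSet A) (hper : ∀ (z : ℝ) (n : ℤ), z + n ∈ A ↔ z ∈ A) (c : ℝ) :
    (volume.restrict (Ico (0 : ℝ) 1)) ((fun x => c - x) ⁻¹' A) = (volume.restrict (Ico (0 : ℝ) 1)) A := by
  rw [Measure.restrict_apply' measurableSet_Ico, Measure.restrict_apply hA]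
  have e1 : (fun x => c - x) ⁻¹' A ∩ Ico (0 : ℝ) 1 = (fun x => c - x) ⁻¹' (A ∩ Ioc (c - 1) (c - 1 + 1)) := by
    ext x
    simp only [mem_inter_iff, mem_preimage, mem_Ico, mem_Ioc]
    constructor
    · rintro ⟨h1, h2, h3⟩; exact ⟨h1, by linarith, by linarith⟩
    · rintro ⟨h1, h2, h3⟩; exact ⟨h1, by linarith, by linarith⟩
  rw [e1, (Measure.measurePreserving_sub_left volume c).measure_preimage
    (hA.inter measurableSet_Ioc).nullMeasurableSet]
  have e2 := (isAddFundamentalDomain_Ioc one_pos (c - 1)).measure_set_eq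
    (isAddFundamentalDomain_Ioc one_pos 0) hA (by
      rintro ⟨g, n, rfl⟩
      ext x
      have := hper x n
      simp only [mem_preimage, AddSubgroup.mk_vadd, vadd_eq_add, zsmul_eq_mul, mul_one]
      rw [add_comm]
      exact this)
  rw [e2, zero_add]
  exact measure_congr (ae_eq_set_inter (ae_eq_refl _) Ico_ae_eq_Ioc.symm)

lemma measurable_sig (k : ℝ) : Measurable (sig k) := by
  have := (continuous_Fm k).measurable
  unfold sig
  fun_prop

lemma mu_sig (k : ℝ) {E : Set (ℝ × ℝ)} (hE : MeasurableSet E)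
    (hper : ∀ (y z : ℝ) (n : ℤ), (y, z + n) ∈ E ↔ (y, z) ∈ E) : mu (sig k ⁻¹' E) = mu E := by
  rw [mu_eq_prod, Measure.prod_apply_symm (measurable_sig k hE), Measure.prod_apply hE]
  refine lintegral_congr fun y => ?_
  rw [← refl_per (measurable_prodMk_left hE) (hper y) (Fm k y)]
  rfl

lemma shift_one (k : ℝ) (Q : (ℤ → ℝ) → Prop) (hQ : MeasurableSet {V | Q V}) :
    Pr k (fun V => Q (sh V 1)) = Pr k Q := by
  unfold Pr
  have e : {ω | Q (sh (VV k ω) 1)} = sig k ⁻¹' {ω | Q (VV k ω)} := by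
    ext ω; simp only [mem_setOf_eq, mem_preimage, VV_sig]
  rw [e, Measure.real, Measure.real, mu_sig k (E := {ω | Q (VV k ω)}) (measurable_VV k hQ)]
  intro y z n
  have := VV_add_int k (y, z) 0 n
  simp only [Int.cast_zero, add_zero] at this
  simp only [mem_setOf_eq, this]

lemma near_of_cos {x κ : ℝ} (hx : x ∈ Ico (0 : ℝ) 1) (h : |Real.cos (2 * π * x)| ≤ κ) :
    x ∈ Icc (1 / 4 - κ / 4) (1 / 4 + κ / 4) ∪ Icc (3 / 4 - κ / 4) (3 / 4 + κ / 4) := by
  have hpi := Real.pi_pos
  have key : ∀ a : ℝ, |x - a| ≤ 1 / 4 → |Real.sin (2 * π * (x - a))| ≤ κ → |x - a| ≤ κ / 4 := by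
    intro a ha hs
    have e : |2 * π * (x - a)| = 2 * π * |x - a| := by
      rw [abs_mul, abs_of_pos (by positivity : (0 : ℝ) < 2 * π)]
    have h1 := Real.mul_abs_le_abs_sin (x := 2 * π * (x - a)) (by rw [e]; nlinarith)
    rw [e] at h1
    have e2 : 2 / π * (2 * π * |x - a|) = 4 * |x - a| := by field_simp; ring
    rw [e2] at h1
    linarith
  rcases le_total x (1 / 2) with h2 | h2
  · left
    have := key (1 / 4) (abs_le.mpr ⟨by linarith [hx.1], by linarith⟩) (by
      rw [show 2 * π * (x - 1 / 4) = 2 * π * x - π / 2 by ring, Real.sin_sub_pi_div_two, abs_neg]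
      exact h)
    rw [abs_le] at this
    exact ⟨by linarith, by linarith⟩
  · right
    have := key (3 / 4) (abs_le.mpr ⟨by linarith, by linarith [hx.2]⟩) (by
      rw [show 2 * π * (x - 3 / 4) = 2 * π * x - π / 2 - π by ring, Real.sin_sub_pi, abs_neg,
        Real.sin_sub_pi_div_two, abs_neg]
      exact h)
    rw [abs_le] at this
    exact ⟨by linarith, by linarith⟩

end ShiftAux

open ShiftAux

theorem shift_proof : SHIFT := by
  intro k Q hQ t
  have step : ∀ s : ℤ, Pr k (fun V => Q (sh V (s + 1))) = Pr k (fun V => Q (sh V s)) := by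
    intro s
    have := shift_one k (fun V => Q (sh V s)) (measurable_sh s hQ)
    simpa only [sh_sh] using this
  induction t using Int.induction_on with
  | zero => simp
  | succ n ih => rw [step, ih]
  | pred n ih => rw [← step, sub_add_cancel, ih]

theorem qb_proof : QB := by
  intro θ₁ hθ ε hε
  have h1 : ∀ᶠ 𝕂 : ℝ in atTop, 3 < 𝕂 ∧ 𝕂 ^ (1 - θ₁) + 2 ≤ ε * (𝕂 - 3) := by
    filter_upwards [ev_const_le_rpow (2 / ε) θ₁ hθ, eventually_gt_atTop 3,
      eventually_ge_atTop ((4 + 6 * ε) / ε)] with 𝕂 a b c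
    refine ⟨b, ?_⟩
    have hK : 0 < 𝕂 := by linarith
    have hp : 0 < 𝕂 ^ θ₁ := Real.rpow_pos_of_pos hK _
    rw [Real.rpow_sub hK, Real.rpow_one]
    rw [div_le_iff₀ hε] at a c
    have : 𝕂 / 𝕂 ^ θ₁ ≤ ε * 𝕂 / 2 := by
      rw [div_le_iff₀ hp]
      nlinarith
    nlinarith
  filter_upwards [ev_KK h1] with k ⟨hk3, hk⟩
  have hk0 : 0 < 2 * π * k := by unfold KK at hk3; linarith
  have e3 : KK k - 3 = 2 * π * k := by unfold KK; ring
  rw [e3] at hk
  set A : Set ℝ := Icc (1 / 4 - ε / 4) (1 / 4 + ε / 4) ∪ Icc (3 / 4 - ε / 4) (3 / 4 + ε / 4) with hA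
  have hvA : volume A ≤ ENNReal.ofReal ε := by
    refine (measure_union_le _ _).trans ?_
    rw [Real.volume_Icc, Real.volume_Icc, ← ENNReal.ofReal_add (by linarith) (by linarith)]
    exact ENNReal.ofReal_le_ofReal (by linarith)
  unfold Pr
  refine ENNReal.toReal_le_of_le_ofReal hε.le ?_
  rw [mu_apply]
  refine (measure_mono (t := A ×ˢ Ico (0 : ℝ) 1) ?_).trans ?_
  · rintro ω ⟨hω, h1, h2⟩
    refine ⟨near_of_cos h1 ?_, h2⟩
    simp only [mem_setOf_eq, VV_zero, Small, Wm] at hω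
    have h3 : |2 * π * k * Real.cos (2 * π * ω.1)| ≤ ε * (2 * π * k) := by
      have := abs_sub (2 + 2 * π * k * Real.cos (2 * π * ω.1)) 2
      rw [add_sub_cancel_left, abs_two] at this
      linarith
    rw [abs_mul, abs_of_pos hk0, mul_comm] at h3
    exact le_of_mul_le_mul_right h3 hk0
  · rw [Measure.volume_eq_prod, Measure.prod_prod, Real.volume_Ico]
    simpa using hvA

end Crest.Agent.R128
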