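import Crest.Agent.R128.Basic

/-! # Row 128, task SIDE -/

set_option autoImplicit false

namespace Crest.Agent.R128

open Filter

theorem side_proof (hC : CST) (hQ : QQ) (hF : FOUR) : SIDE := by
  filter_upwards [hC, hF, ev_KK (ev_const_le_rpow 2000 0.28 (by norm_num)),
    ev_KK (ev_const_le_rpow 100 0.08 (by norm_num)), ev_KK (ev_const_le_rpow 10 0.2 (by norm_num)),
    ev_KK (ev_const_le_rpow 6400000 0.06 (by norm_num)),
    eventually_ge_atTop (0 : ℝ)] with k hC hF h28 h08 h2 h06 hk b p₀ z hz hB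
  set U := pot k b p₀ with hU
  set N := ne U z with hN
  have hNp : 0 < N := ne_pos U z
  have bU : Bd (KK k) U := bd_pot hk b p₀
  have h1 : 1 ≤ KK k := bU.one_le
  have h0 : 0 < KK k := by linarith
  have mono : ∀ {a b : ℝ}, a ≤ b → KK k ^ a ≤ KK k ^ b := fun h => Real.rpow_le_rpow_of_exponent_le h1 h
  have pp : ∀ a : ℝ, 0 < KK k ^ a := fun a => Real.rpow_pos_of_pos h0 a
  have hRad : Rad (KK k) N z z = KK k ^ (0.98 : ℝ) / (1000 * N) := by
    unfold Rad; congr 2; ring
  have hRp : 0 < Rad (KK k) N z z := by rw [hRad]; have := pp 0.98; positivity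
  have e98 : KK k ^ (0.98 : ℝ) = KK k ^ (0.28 : ℝ) * KK k ^ (0.7 : ℝ) := by
    rw [← Real.rpow_add h0]; norm_num
  have hR2 : KK k ^ (0.7 : ℝ) / N ≤ Rad (KK k) N z z / 2 := by
    rw [hRad, e98, div_div, div_le_div_iff₀ hNp (by positivity)]
    have := pp 0.7
    calc KK k ^ (0.7 : ℝ) * (1000 * N * 2) = 2000 * KK k ^ (0.7 : ℝ) * N := by ring
      _ ≤ _ := by gcongr
  have hsm : |eta U z| ≤ N / 10 := by
    obtain ⟨i, rfl⟩ : ∃ i, z = i + 1 := ⟨z - 1, by omega⟩
    have a := hB i (by omega)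
    push_cast at a
    rw [show (0.99 : ℝ) * ((i : ℝ) + 1 - i) = 0.99 by ring] at a
    have a1 : 10 ≤ KK k ^ (0.99 : ℝ) := h2.trans (mono (by norm_num))
    have a2 : |eta U (i + 1)| ≤ ne U i := abs_succ_le_nn _ _
    have := ne_pos U i
    nlinarith
  have hbase : |eta U (z + 1)| = N := by
    rcases le_total |eta U z| |eta U (z + 1)| with h | h
    · exact (max_eq_right h).symm
    · have : N = |eta U z| := max_eq_left h
      linarith
  refine ⟨hNp, fun p => hasDerivAt_xi k b p (z + 1), hbase, fun p hp => ?_, fun t h ht1 ht2 ht3 => ?_,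
    hF b p₀ z hz hB⟩
  · have hR0 : 0 ≤ KK k ^ (0.7 : ℝ) / N := by have := pp 0.7; positivity
    obtain ⟨c1, c2, -⟩ := hC b p₀ z hB z le_rfl (KK k ^ (0.7 : ℝ) / N) hR0 (by linarith) (p : ℂ)
      (by rw [← Complex.ofReal_sub, Complex.norm_real]; exact hp) z le_rfl
    rw [etaC_ofReal, ← Complex.ofReal_sub, Complex.norm_real, Real.norm_eq_abs] at c1 c2
    have e : KK k ^ (0.7 : ℝ) / N / Rad (KK k) N z z * N / 10 ≤ N * KK k ^ (-0.2 : ℝ) := by
      have e2 : KK k ^ (0.28 : ℝ) * KK k ^ (-0.2 : ℝ) = KK k ^ (0.08 : ℝ) := by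
        rw [← Real.rpow_add h0]; norm_num
      have p1 := pp 0.7
      have p2 := pp 0.28
      have : KK k ^ (0.7 : ℝ) / N / Rad (KK k) N z z * N / 10 = N * (100 / KK k ^ (0.28 : ℝ)) := by
        rw [hRad, e98]; field_simp; norm_num
      rw [this]
      gcongr
      rw [div_le_iff₀ p2, mul_comm, e2]
      exact h08
    have e' : N * KK k ^ (-0.2 : ℝ) ≤ N / 10 := by
      rw [Real.rpow_neg h0.le, div_eq_mul_inv]
      gcongr
    refine ⟨c2.trans e, ?_⟩
    have d1 : |eta (pot k b p) z| ≤ N / 5 := by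
      have := abs_sub_abs_le_abs_sub (eta (pot k b p) z) (eta U z)
      linarith [c1.trans (e.trans e')]
    have d2 : 0.9 * N ≤ |eta (pot k b p) (z + 1)| := by
      have := abs_sub_abs_le_abs_sub (eta U (z + 1)) (eta (pot k b p) (z + 1))
      rw [abs_sub_comm] at this
      linarith [c2.trans (e.trans e')]
    rw [abs_div, div_le_iff₀ (by linarith)]
    linarith
  · set R := Rad (KK k) N z z with hR
    set f : ℂ → ℂ := fun w => xiC k b w (z + 1) - (xi k b p₀ (z + 1) : ℝ) - (eta U (z + 1) : ℝ) * (w - p₀) with hf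
    have hder : ∀ w, HasDerivAt f (eta (potC k b w) (z + 1) - (eta U (z + 1) : ℝ)) w := by
      intro w
      have := ((hasDerivAt_xiC k b w (z + 1)).sub_const ((xi k b p₀ (z + 1) : ℝ) : ℂ)).sub
        (((hasDerivAt_id w).sub_const (p₀ : ℂ)).const_mul ((eta U (z + 1) : ℝ) : ℂ))
      exact this.congr_deriv (by simp)
    have hf0 : f p₀ = 0 := by simp [hf, xiC_ofReal]
    have hbd : ∀ w ∈ Metric.closedBall (p₀ : ℂ) R, ‖f w‖ ≤ R * N / 10 := by
      intro w hw
      have := Convex.norm_image_sub_le_of_norm_hasDerivWithin_le (s := Metric.closedBall (p₀ : ℂ) R) (f := f)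
        (C := N / 10) (fun x _ => (hder x).hasDerivWithinAt) (fun x hx => by
          have := (hC b p₀ z hB z le_rfl R hRp.le le_rfl x (by simpa [dist_eq_norm] using hx) z le_rfl).2.1
          rwa [div_self hRp.ne', one_mul] at this) (convex_closedBall _ _)
        (Metric.mem_closedBall_self hRp.le) hw
      rw [hf0, sub_zero] at this
      have hw' : ‖w - p₀‖ ≤ R := by simpa [dist_eq_norm] using hw
      calc ‖f w‖ ≤ N / 10 * ‖w - p₀‖ := this
        _ ≤ N / 10 * R := by gcongr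
        _ = _ := by ring
    have q := hQ f p₀ R (R * N / 10) hRp (fun w _ => (hder w).differentiableAt.differentiableWithinAt) hbd t h
      (ht1.trans hR2) (ht2.trans hR2) (ht3.trans hR2)
    rw [(hder t).deriv] at q
    have e : 4 * f ((t + h : ℝ) : ℂ) - f ((t + 2 * h : ℝ) : ℂ) - 3 * f t -
        2 * h * (eta (potC k b t) (z + 1) - (eta U (z + 1) : ℝ)) =
        ((4 * xi k b (t + h) (z + 1) - xi k b (t + 2 * h) (z + 1) - 3 * xi k b t (z + 1) -
          2 * h * eta (pot k b t) (z + 1) : ℝ) : ℂ) := by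
      simp only [hf, xiC_ofReal, etaC_ofReal]
      push_cast
      ring
    rw [e, Complex.norm_real, Real.norm_eq_abs] at q
    refine q.trans ?_
    have p1 := pp 0.98
    have e2 : 64 * (R * N / 10) * |h| ^ 3 / R ^ 3 = N ^ 3 * |h| ^ 3 * (6400000 / (KK k ^ (0.98 : ℝ)) ^ 2) := by
      rw [hRad]; field_simp; ring
    rw [e2]
    gcongr
    have e3 : KK k ^ (-1.9 : ℝ) * (KK k ^ (0.98 : ℝ)) ^ 2 = KK k ^ (0.06 : ℝ) := by
      rw [sq, ← Real.rpow_add h0, ← Real.rpow_add h0]; norm_num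
    rw [div_le_iff₀ (by positivity), e3]
    exact h06

end Crest.Agent.R128
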