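import Crest.Agent.R128.Basic

set_option autoImplicit false

namespace Crest.Agent.R128

open MeasureTheory Set Filter
open scoped Real BigOperators Classical

lemma var_const (U U' : ℕ → ℝ) (r : ℝ) (i : ℕ) :
    eta U' i - eta U i = ∑ l ∈ Finset.range i,
      (U' l - U l) * eta U' l * (sol U 1 r l * eta U i - eta U l * sol U 1 r i) := by
  induction i using Nat.strong_induction_on with
  | _ i ih =>
    match i with
    | 0 => simp
    | 1 => simp
    | (i + 2) =>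
      have h1 := ih (i + 1) (by omega)
      have h0 := ih i (by omega)
      have hw := wronsk_one_eta U r (i + 1)
      have e : ∀ l, (U' l - U l) * eta U' l *
            (sol U 1 r l * eta U (i + 2) - eta U l * sol U 1 r (i + 2)) =
          U (i + 1) * ((U' l - U l) * eta U' l *
            (sol U 1 r l * eta U (i + 1) - eta U l * sol U 1 r (i + 1))) -
          (U' l - U l) * eta U' l * (sol U 1 r l * eta U i - eta U l * sol U 1 r i) := by
        intro l; rw [eta_succ_succ, sol_succ_succ]; ring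
      rw [Finset.sum_range_succ, Finset.sum_congr rfl (fun l _ => e l), Finset.sum_sub_distrib,
        ← Finset.mul_sum, ← h1, Finset.sum_range_succ, ← h0]
      have e1 := eta_succ_succ U' i
      have e2 := eta_succ_succ U i
      change _ * eta U (i + 2) - sol U 1 r (i + 2) * _ = 1 at hw
      linear_combination e1 - e2 - (U' (i + 1) - U (i + 1)) * eta U' (i + 1) * hw

theorem st_proof (hPS : PS) : ST := by
  filter_upwards [hPS, eventually_ge_atTop (1 : ℝ), ev_const_le_rpow 10000 0.47 (by norm_num)]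
    with 𝕂 hP h1 h2 U U' hU hU' j hd hg
  have hp : 0 < 𝕂 := lt_of_lt_of_le one_pos h1
  obtain ⟨m, hm, he⟩ := exists_nn (eta U) j
  have hg' : ∀ l : ℕ, l ≤ j → 𝕂 ^ ((1 - (1 / 100 : ℝ)) * l) / 2 ≤ ne U l := by
    intro l hl
    have := hg l hl
    have h0 : 0 < 𝕂 ^ ((0.99 : ℝ) * l) := by positivity
    norm_num at this h0 ⊢; linarith
  have H := hP (1 / 100) (by norm_num) le_rfl U hU j m hm he hg'
  set ψ := sol U 1 (rr U m) with hψ
  set x : ℝ := 𝕂 ^ (-(0.47 : ℝ)) with hx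
  have hx0 : 0 < x := by positivity
  have hx1 : x ≤ 1 / 10000 := by
    rw [hx, Real.rpow_neg hp.le, inv_eq_one_div]; gcongr
  have hn := ne_pos U j
  have term : ∀ i, (i = j ∨ i = j + 1) → ∀ l, l ≤ j →
      |(U' l - U l) * eta U' l * (ψ l * eta U i - eta U l * ψ i)| ≤
        (if l = 0 then 0 else 260 * x ^ l * ne U j) := by
    intro i hi l hl
    rcases Nat.eq_zero_or_pos l with rfl | hl0
    · simp
    obtain ⟨l', rfl⟩ : ∃ l', l = l' + 1 := ⟨l - 1, by omega⟩
    rw [if_neg (by omega)]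
    have a1 := hd (l' + 1) (by omega) hl
    have a2 := abs_eta_succ_le_pow hU' l'
    have a3 := abs_eta_succ_le_pow hU l'
    have a4 := (abs_le_nn _ (l' + 1)).trans (H (l' + 1) hl)
    have a5 := (abs_le_nn_of _ hi).trans (H j le_rfl)
    have a6 : |eta U i| ≤ ne U j := abs_le_nn_of _ hi
    have a7 := hg j le_rfl
    rw [← Real.rpow_natCast] at a2 a3
    have hxl : x ^ (l' + 1) = 𝕂 ^ (-(0.47 : ℝ) * ((l' + 1 : ℕ) : ℝ)) := by
      rw [hx, ← Real.rpow_natCast, ← Real.rpow_mul hp.le]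
    have hlj : (l' : ℝ) + 1 ≤ j := by exact_mod_cast hl
    have hl0' : (0 : ℝ) ≤ l' := Nat.cast_nonneg _
    have b1 : 𝕂 ^ (1 - ((l' + 1 : ℕ) : ℝ) / 2) * 𝕂 ^ (l' : ℝ) *
        𝕂 ^ (1 / 100 - (1 - 2 * (1 / 100)) * ((l' + 1 : ℕ) : ℝ)) ≤ x ^ (l' + 1) := by
      rw [hxl, ← Real.rpow_add hp, ← Real.rpow_add hp]
      exact Real.rpow_le_rpow_of_exponent_le h1 (by push_cast; linarith)
    have b2 : 𝕂 ^ (1 - ((l' + 1 : ℕ) : ℝ) / 2) * 𝕂 ^ (l' : ℝ) * 𝕂 ^ (l' : ℝ) *
        𝕂 ^ (1 / 100 - (1 - 2 * (1 / 100)) * (j : ℝ)) ≤ x ^ (l' + 1) * ne U j := by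
      calc _ ≤ x ^ (l' + 1) * 𝕂 ^ ((0.99 : ℝ) * j) := by
            rw [hxl, ← Real.rpow_add hp, ← Real.rpow_add hp, ← Real.rpow_add hp,
              ← Real.rpow_add hp]
            exact Real.rpow_le_rpow_of_exponent_le h1 (by push_cast; linarith)
        _ ≤ _ := by gcongr
    calc _ ≤ |U' (l' + 1) - U (l' + 1)| * |eta U' (l' + 1)| *
          (|ψ (l' + 1)| * |eta U i| + |eta U (l' + 1)| * |ψ i|) := by
          rw [abs_mul, abs_mul, ← abs_mul (ψ _), ← abs_mul (eta U _)]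
          gcongr; exact abs_sub _ _
      _ ≤ (13 * 𝕂 ^ (1 - ((l' + 1 : ℕ) : ℝ) / 2)) * 𝕂 ^ (l' : ℝ) *
          ((10 * 𝕂 ^ (1 / 100 - (1 - 2 * (1 / 100)) * ((l' + 1 : ℕ) : ℝ))) * ne U j +
            𝕂 ^ (l' : ℝ) * (10 * 𝕂 ^ (1 / 100 - (1 - 2 * (1 / 100)) * (j : ℝ)))) := by
          gcongr
      _ = 130 * (𝕂 ^ (1 - ((l' + 1 : ℕ) : ℝ) / 2) * 𝕂 ^ (l' : ℝ) *
            𝕂 ^ (1 / 100 - (1 - 2 * (1 / 100)) * ((l' + 1 : ℕ) : ℝ))) * ne U j +
          130 * (𝕂 ^ (1 - ((l' + 1 : ℕ) : ℝ) / 2) * 𝕂 ^ (l' : ℝ) * 𝕂 ^ (l' : ℝ) *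
            𝕂 ^ (1 / 100 - (1 - 2 * (1 / 100)) * (j : ℝ))) := by ring
      _ ≤ 130 * x ^ (l' + 1) * ne U j + 130 * (x ^ (l' + 1) * ne U j) := by gcongr
      _ = _ := by ring
  have geo : ∀ i : ℕ, ∑ l ∈ Finset.range i, (if l = 0 then 0 else 260 * x ^ l * ne U j) ≤
      (520 * x - 520 * x ^ i) * ne U j + (if i = 0 then 520 * ne U j else 0) := by
    intro i
    induction i with
    | zero => simp; nlinarith
    | succ i ih =>
      rw [Finset.sum_range_succ]
      rcases Nat.eq_zero_or_pos i with rfl | hi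
      · simp
      · rw [if_neg hi.ne'] at ih
        rw [if_neg hi.ne', if_neg (Nat.succ_ne_zero i), pow_succ]
        have : 0 < x ^ i * ne U j := by positivity
        nlinarith
  have key : ∀ i, (i = j ∨ i = j + 1) → |eta U' i - eta U i| ≤ ne U j / 10 := by
    intro i hi
    rcases Nat.eq_zero_or_pos i with rfl | hi0
    · simp; positivity
    rw [var_const U U' (rr U m) i]
    refine (Finset.abs_sum_le_sum_abs _ _).trans ?_
    refine (Finset.sum_le_sum (fun l hl => term i hi l (by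
      have := Finset.mem_range.1 hl; omega))).trans ?_
    refine (geo i).trans ?_
    rw [if_neg hi0.ne']
    have : 0 < x ^ i * ne U j := by positivity
    nlinarith
  exact (nn_le_iff _ _ _).2 ⟨key j (Or.inl rfl), key (j + 1) (Or.inr rfl)⟩

end Crest.Agent.R128
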