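import Crest.Agent.R128.Defs

/-! Row 128, task SWEEP. -/

set_option autoImplicit false

namespace Crest.Agent.R128

open MeasureTheory Set Filter
open scoped Real BigOperators Classical

namespace SweepAux

theorem target (ε x : ℝ) (hε : ε = 1 ∨ ε = -1) :
    ∃ y : ℝ, x ≤ y ∧ y ≤ x + 1 ∧ ∀ z : ℝ, ε * Real.cos (2 * π * z) = Real.cos (2 * π * (z - y)) := by
  rcases hε with rfl | rfl
  · refine ⟨⌈x⌉, Int.le_ceil x, (Int.ceil_lt_add_one x).le, fun z => ?_⟩
    have : 2 * π * (z - (⌈x⌉ : ℝ)) = 2 * π * z - (⌈x⌉ : ℝ) * (2 * π) := by ring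
    rw [this, Real.cos_sub_int_mul_two_pi, one_mul]
  · refine ⟨⌈x - 1 / 2⌉ + 1 / 2, by linarith [Int.le_ceil (x - 1 / 2)],
      by linarith [Int.ceil_lt_add_one (x - 1 / 2)], fun z => ?_⟩
    have : 2 * π * (z - ((⌈x - 1 / 2⌉ : ℝ) + 1 / 2)) =
        (2 * π * z - π) - (⌈x - 1 / 2⌉ : ℝ) * (2 * π) := by ring
    rw [this, Real.cos_sub_int_mul_two_pi, Real.cos_sub_pi]
    ring

theorem cos_ge (d : ℝ) (hd : |d| ≤ 0.1) : 0.8 ≤ Real.cos (2 * π * d) := by
  have h1 := Real.one_sub_sq_div_two_le_cos (x := 2 * π * d)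
  have h2 : d ^ 2 ≤ 0.1 ^ 2 := by
    rw [← sq_abs]; exact pow_le_pow_left₀ (abs_nonneg d) hd 2
  have h3 : π ^ 2 ≤ 3.15 ^ 2 := pow_le_pow_left₀ Real.pi_pos.le Real.pi_lt_d2.le 2
  have h4 : π ^ 2 * d ^ 2 ≤ 3.15 ^ 2 * 0.1 ^ 2 := mul_le_mul h3 h2 (sq_nonneg d) (by positivity)
  have h5 : (2 * π * d) ^ 2 = 4 * (π ^ 2 * d ^ 2) := by ring
  rw [h5] at h1
  norm_num at h4 ⊢
  linarith

end SweepAux

open SweepAux in
theorem sweep_proof : SWEEP := by
  intro a A α β N ε hN hd hA hl hε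
  have hcont : Continuous a := continuous_iff_continuousAt.mpr fun p => (hd p).continuousAt
  obtain ⟨u, hu, hNu⟩ : ∃ u : ℝ, 0 < u ∧ N * u = 1 := ⟨N⁻¹, inv_pos.mpr hN, mul_inv_cancel₀ hN.ne'⟩
  have mvt : ∀ p q, α ≤ p → p ≤ q → q ≤ β →
      0.99 * N * (q - p) ≤ a q - a p ∧ a q - a p ≤ 1.01 * N * (q - p) := by
    intro p q hp hpq hq
    rcases eq_or_lt_of_le hpq with rfl | hlt
    · simp
    obtain ⟨ξ, hξ, e⟩ := exists_hasDerivAt_eq_slope a A hlt hcont.continuousOn (fun x _ => hd x)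
    have hqp : 0 < q - p := sub_pos.mpr hlt
    rw [eq_div_iff hqp.ne'] at e
    obtain ⟨b1, b2⟩ := hA ξ ⟨hp.trans hξ.1.le, hξ.2.le.trans hq⟩
    rw [← e]
    exact ⟨mul_le_mul_of_nonneg_right b1 hqp.le, mul_le_mul_of_nonneg_right b2 hqp.le⟩
  set n := ⌊(β - α) * N / 1.4⌋₊ with hn
  have hx : 2 ≤ (β - α) * N / 1.4 := by rw [le_div_iff₀ (by norm_num)]; linarith
  have hn1 : (n : ℝ) ≤ (β - α) * N / 1.4 := Nat.floor_le (by linarith)
  have hn2 : (β - α) * N / 1.4 < n + 1 := Nat.lt_floor_add_one _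
  have hn1' : 1.4 * n * u ≤ β - α := by
    rw [le_div_iff₀ (by norm_num)] at hn1
    have := mul_le_mul_of_nonneg_right hn1 hu.le
    have e : (β - α) * N * u = β - α := by rw [mul_assoc, hNu, mul_one]
    linarith
  have hn2' : β - α ≤ 2.8 * n * u := by
    have h : (β - α) * N ≤ 2.8 * n := by
      rw [div_lt_iff₀ (by norm_num)] at hn2
      rw [le_div_iff₀ (by norm_num)] at hx
      linarith
    have := mul_le_mul_of_nonneg_right h hu.le
    have e : (β - α) * N * u = β - α := by rw [mul_assoc, hNu, mul_one]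
    linarith
  have ex : ∀ i : Fin n, ∃ p : ℝ, α + (1.4 * (i : ℕ) + 0.1) * u ≤ p ∧
      p ≤ α + (1.4 * (i : ℕ) + 1.3) * u ∧
      Ioo (p - 0.09 * u) (p + 0.09 * u) ⊆
        {p | p ∈ Icc α β ∧ 0.8 ≤ ε * Real.cos (2 * π * a p)} := by
    intro i
    have hi0 : (0 : ℝ) ≤ (i : ℕ) := Nat.cast_nonneg _
    have hi1 : ((i : ℕ) : ℝ) + 1 ≤ n := by exact_mod_cast i.2
    have hiu0 : 0 ≤ ((i : ℕ) : ℝ) * u := mul_nonneg hi0 hu.le
    have hiu1 : (((i : ℕ) : ℝ) + 1) * u ≤ n * u := mul_le_mul_of_nonneg_right hi1 hu.le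
    have l1 : α ≤ α + (1.4 * (i : ℕ) + 0.1) * u := by nlinarith
    have l2 : α + (1.4 * (i : ℕ) + 0.1) * u ≤ α + (1.4 * (i : ℕ) + 1.3) * u := by nlinarith
    have l3 : α + (1.4 * (i : ℕ) + 1.3) * u ≤ β := by nlinarith
    obtain ⟨y, y1, y2, y3⟩ := target ε (a (α + (1.4 * (i : ℕ) + 0.1) * u)) hε
    have m1 := (mvt _ _ l1 l2 l3).1
    have e : 0.99 * N * (α + (1.4 * ((i : ℕ) : ℝ) + 1.3) * u - (α + (1.4 * (i : ℕ) + 0.1) * u)) =
        0.99 * 1.2 * (N * u) := by ring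
    rw [e, hNu] at m1
    obtain ⟨p, ⟨p1, p2⟩, hp⟩ := intermediate_value_Icc l2 hcont.continuousOn
      (show y ∈ Icc _ _ from ⟨y1, by linarith⟩)
    refine ⟨p, p1, p2, fun q hq => ?_⟩
    have q1 : α ≤ q := by have := hq.1; nlinarith
    have q2 : q ≤ β := by have := hq.2; nlinarith
    refine ⟨⟨q1, q2⟩, ?_⟩
    rw [y3, ← hp]
    apply cos_ge
    have pα : α ≤ p := l1.trans p1
    have pβ : p ≤ β := p2.trans l3
    rcases le_total p q with h | h
    · obtain ⟨m2, m3⟩ := mvt p q pα h q2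
      have : N * (q - p) ≤ N * (0.09 * u) :=
        mul_le_mul_of_nonneg_left (by linarith [hq.2]) hN.le
      have h0 : 0 ≤ N * (q - p) := mul_nonneg hN.le (by linarith)
      rw [abs_le]
      constructor <;> nlinarith
    · obtain ⟨m2, m3⟩ := mvt q p q1 h pβ
      have : N * (p - q) ≤ N * (0.09 * u) :=
        mul_le_mul_of_nonneg_left (by linarith [hq.1]) hN.le
      have h0 : 0 ≤ N * (p - q) := mul_nonneg hN.le (by linarith)
      rw [abs_le]
      constructor <;> nlinarith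
  choose p hp1 hp2 hp3 using ex
  have sep : ∀ i j : Fin n, i < j → p i + 0.09 * u ≤ p j - 0.09 * u := by
    intro i j hij
    have : ((i : ℕ) : ℝ) + 1 ≤ (j : ℕ) := by exact_mod_cast hij
    have := mul_le_mul_of_nonneg_right this hu.le
    have := hp2 i
    have := hp1 j
    nlinarith
  have hdisj : Pairwise (Function.onFun Disjoint
      fun i : Fin n => Ioo (p i - 0.09 * u) (p i + 0.09 * u)) := by
    intro i j hij
    rw [Function.onFun, Set.disjoint_left]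
    intro x hi hj
    rcases lt_or_gt_of_ne hij with h | h
    · linarith [sep i j h, hi.2, hj.1]
    · linarith [sep j i h, hi.1, hj.2]
  refine le_trans ?_ (measure_mono (iUnion_subset hp3))
  rw [measure_iUnion hdisj (fun i => measurableSet_Ioo), tsum_fintype]
  have : ∀ i : Fin n, volume (Ioo (p i - 0.09 * u) (p i + 0.09 * u)) =
      ENNReal.ofReal (0.18 * u) := by
    intro i
    rw [Real.volume_Ioo]
    congr 1
    ring
  simp only [this, Finset.sum_const, Finset.card_univ, Fintype.card_fin]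
  rw [← ENNReal.ofReal_nsmul]
  apply ENNReal.ofReal_le_ofReal
  rw [nsmul_eq_mul]
  have : 0 ≤ (n : ℝ) * u := by positivity
  nlinarith

end Crest.Agent.R128
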