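import Crest.Agent.R128.Basic

/-! # Row 128, task TAIL -/

set_option autoImplicit false

namespace Crest.Agent.R128

open Filter

theorem tail_proof : TAIL := by
  filter_upwards [ev_const_le_rpow 4 0.07 (by norm_num), ev_const_le_rpow 2 0.98 (by norm_num),
    eventually_ge_atTop (2 : ℝ)] with 𝕂 h07 h98 h2 U hU δ r S z hδ hS hz hF hL
  have h1 : (1 : ℝ) ≤ 𝕂 := by linarith
  have h0 : (0 : ℝ) < 𝕂 := by linarith
  set N := ne U z with hN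
  have hNp : 0 < N := ne_pos U z
  have mono : ∀ {a b : ℝ}, a ≤ b → 𝕂 ^ a ≤ 𝕂 ^ b := fun h => Real.rpow_le_rpow_of_exponent_le h1 h
  have pp : ∀ a : ℝ, 0 < 𝕂 ^ a := fun a => Real.rpow_pos_of_pos h0 a
  have hzS : ((z : ℝ)) * 2 ≤ S := by exact_mod_cast (by omega : z * 2 ≤ S)
  have hS' : (4 : ℝ) ≤ S := by exact_mod_cast hS
  have key : ∀ s i : ℕ, i + s = S → z < i → ∀ m : ℕ, (m = i ∨ m = i + 1) → |eta U m| = ne U i →
      |r - rr U m| ≤ (𝕂 ^ (-3.94 : ℝ) + 2 * 𝕂 ^ (1 - 0.99 * (2 * ((i : ℝ) - z) + 1))) / N ^ 2 := by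
    intro s
    induction s with
    | zero =>
      intro i hi hzi m hm he
      obtain rfl : i = S := by omega
      rw [sub_rr U r m (eta_ne_zero_of he), abs_div, he]
      have a1 : |sol U 1 r m| ≤ 𝕂 ^ (-(0.99 * (i : ℝ))) :=
        (abs_le_nn_of _ hm).trans (hL.le.trans (mono (by nlinarith)))
      have a2 := hF i hzi le_rfl
      have a3 : N ≤ 𝕂 ^ (z : ℝ) := by rw [Real.rpow_natCast]; exact ne_le_pow hU z
      have a4 : 𝕂 ^ (-(0.99 * (i : ℝ))) * 𝕂 ^ (z : ℝ) ≤ 𝕂 ^ (-3.94 : ℝ) * 𝕂 ^ ((0.99 : ℝ) * ((i : ℝ) - z)) := by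
        rw [← Real.rpow_add h0, ← Real.rpow_add h0]
        exact mono (by linarith)
      rw [div_le_div_iff₀ (ne_pos U i) (by positivity)]
      have := pp (1 - 0.99 * (2 * ((i : ℝ) - z) + 1))
      have p1 := pp (-3.94 : ℝ)
      have p2 := pp (-(0.99 * (i : ℝ)))
      calc |sol U 1 r m| * N ^ 2 ≤ 𝕂 ^ (-(0.99 * (i : ℝ))) * (𝕂 ^ (z : ℝ) * N) := by
            rw [sq]; gcongr
        _ = (𝕂 ^ (-(0.99 * (i : ℝ))) * 𝕂 ^ (z : ℝ)) * N := by ring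
        _ ≤ (𝕂 ^ (-3.94 : ℝ) * 𝕂 ^ ((0.99 : ℝ) * ((i : ℝ) - z))) * N := by gcongr
        _ = 𝕂 ^ (-3.94 : ℝ) * (𝕂 ^ ((0.99 : ℝ) * ((i : ℝ) - z)) * N) := by ring
        _ ≤ 𝕂 ^ (-3.94 : ℝ) * ne U i := by gcongr
        _ ≤ _ := by
          have := ne_pos U i
          gcongr
          linarith
    | succ s ih =>
      intro i hi hzi m hm he
      obtain ⟨m', hm', he'⟩ := exists_nn (eta U) (i + 1)
      have b1 := ih (i + 1) (by omega) (by omega) m' hm' he'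
      have b2 := rr_step hU hm hm' he he'
      have c1 := hF i hzi (by omega)
      have c2 := hF (i + 1) (by omega) (by omega)
      set e : ℝ := 1 - 0.99 * (2 * ((i : ℝ) - z) + 1) with he_def
      have d1 : 𝕂 / (ne U i * ne U (i + 1)) ≤ 𝕂 ^ e / N ^ 2 := by
        rw [div_le_div_iff₀ (mul_pos (ne_pos _ _) (ne_pos _ _)) (by positivity)]
        have : 𝕂 = 𝕂 ^ e * (𝕂 ^ ((0.99 : ℝ) * ((i : ℝ) - z)) * 𝕂 ^ ((0.99 : ℝ) * (((i + 1 : ℕ) : ℝ) - z))) := by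
          rw [← Real.rpow_add h0, ← Real.rpow_add h0]
          conv_lhs => rw [← Real.rpow_one 𝕂]
          congr 1
          push_cast
          ring
        have p1 := pp e
        have p2 := pp ((0.99 : ℝ) * ((i : ℝ) - z))
        have p3 := pp ((0.99 : ℝ) * (((i + 1 : ℕ) : ℝ) - z))
        have p4 := ne_pos U i
        calc 𝕂 * N ^ 2 = 𝕂 ^ e * ((𝕂 ^ ((0.99 : ℝ) * ((i : ℝ) - z)) * N) *
              (𝕂 ^ ((0.99 : ℝ) * (((i + 1 : ℕ) : ℝ) - z)) * N)) := by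
              conv_lhs => rw [this]
              ring
          _ ≤ _ := by gcongr
      have d2 : 2 * 𝕂 ^ (1 - 0.99 * (2 * (((i + 1 : ℕ) : ℝ) - z) + 1)) ≤ 𝕂 ^ e := by
        have : 𝕂 ^ e = 𝕂 ^ (1.98 : ℝ) * 𝕂 ^ (1 - 0.99 * (2 * (((i + 1 : ℕ) : ℝ) - z) + 1)) := by
          rw [← Real.rpow_add h0]; congr 1; push_cast; ring
        rw [this]
        have p := pp (1 - 0.99 * (2 * (((i + 1 : ℕ) : ℝ) - z) + 1))
        gcongr
        exact h98.trans (mono (by norm_num))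
      calc |r - rr U m| ≤ |r - rr U m'| + |rr U m' - rr U m| := abs_sub_le _ _ _
        _ ≤ (𝕂 ^ (-3.94 : ℝ) + 𝕂 ^ e) / N ^ 2 + 𝕂 ^ e / N ^ 2 := by
          refine add_le_add (b1.trans ?_) (b2.trans d1)
          gcongr
        _ = _ := by ring
  have hz2 : z + 2 ≤ S := by omega
  have f1 := hF (z + 1) (by omega) (by omega)
  have f2 := hF (z + 2) (by omega) hz2
  push_cast at f1 f2
  rw [show (0.99 : ℝ) * ((z : ℝ) + 1 - z) = 0.99 by ring] at f1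
  rw [show (0.99 : ℝ) * ((z : ℝ) + 2 - z) = 1.98 by ring] at f2
  have g1 : N < ne U (z + 1) := by
    have : 2 ≤ 𝕂 ^ (0.99 : ℝ) := h98.trans (mono (by norm_num))
    nlinarith
  have g2 : ne U (z + 1) < ne U (z + 2) := by
    have e : 𝕂 ^ (1.98 : ℝ) = 𝕂 ^ (0.98 : ℝ) * 𝕂 := by
      conv_rhs => rw [← Real.rpow_one 𝕂, ← Real.rpow_mul h0.le, ← Real.rpow_add h0]
      norm_num
    have := ne_succ_le hU z
    have h3 : 2 * 𝕂 * N ≤ 𝕂 ^ (1.98 : ℝ) * N := by rw [e]; gcongr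
    nlinarith
  have e1 : |eta U (z + 2)| = ne U (z + 1) := by
    rcases le_total |eta U (z + 1)| |eta U (z + 2)| with h | h
    · exact (max_eq_right h).symm
    · have : ne U (z + 1) = |eta U (z + 1)| := max_eq_left h
      have := abs_succ_le_nn (eta U) z
      exact absurd g1 (by rw [hN, ne]; linarith)
  have e2 : |eta U (z + 3)| = ne U (z + 2) := by
    rcases le_total |eta U (z + 2)| |eta U (z + 3)| with h | h
    · exact (max_eq_right h).symm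
    · have : ne U (z + 2) = |eta U (z + 2)| := max_eq_left h
      linarith
  refine ⟨eta_ne_zero_of e1, ?_⟩
  have k1 := key (S - (z + 2)) (z + 2) (by omega) (by omega) (z + 3) (Or.inr rfl) e2
  push_cast at k1
  rw [show (1 : ℝ) - 0.99 * (2 * ((z : ℝ) + 2 - z) + 1) = -3.95 by ring] at k1
  have k2 : |rr U (z + 3) - rr U (z + 2)| ≤ 𝕂 ^ (-2.97 : ℝ) / N ^ 2 := by
    rw [rr_succ U (z + 2) (eta_ne_zero_of e1) (eta_ne_zero_of e2), abs_div, abs_mul, e1, e2, abs_one,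
      div_le_div_iff₀ (mul_pos (ne_pos _ _) (ne_pos _ _)) (by positivity)]
    have : (1 : ℝ) = 𝕂 ^ (-2.97 : ℝ) * (𝕂 ^ (0.99 : ℝ) * 𝕂 ^ (1.98 : ℝ)) := by
      rw [← Real.rpow_add h0, ← Real.rpow_add h0]; norm_num
    have p1 := pp (-2.97 : ℝ)
    have p2 := pp (0.99 : ℝ)
    have p3 := pp (1.98 : ℝ)
    have p4 := ne_pos U (z + 1)
    calc 1 * N ^ 2 = 𝕂 ^ (-2.97 : ℝ) * ((𝕂 ^ (0.99 : ℝ) * N) * (𝕂 ^ (1.98 : ℝ) * N)) := by
          conv_lhs => rw [this]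
          ring
      _ ≤ _ := by gcongr
  have k3 : 𝕂 ^ (-2.9 : ℝ) = 𝕂 ^ (0.07 : ℝ) * 𝕂 ^ (-2.97 : ℝ) := by
    rw [← Real.rpow_add h0]; norm_num
  have k4 : 𝕂 ^ (-3.94 : ℝ) ≤ 𝕂 ^ (-2.97 : ℝ) := mono (by norm_num)
  have k5 : 𝕂 ^ (-3.95 : ℝ) ≤ 𝕂 ^ (-2.97 : ℝ) := mono (by norm_num)
  have p1 := pp (-2.97 : ℝ)
  calc |r - rr U (z + 2)| ≤ |r - rr U (z + 3)| + |rr U (z + 3) - rr U (z + 2)| := abs_sub_le _ _ _
    _ ≤ (𝕂 ^ (-3.94 : ℝ) + 2 * 𝕂 ^ (-3.95 : ℝ)) / N ^ 2 + 𝕂 ^ (-2.97 : ℝ) / N ^ 2 := add_le_add k1 k2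
    _ = (𝕂 ^ (-3.94 : ℝ) + 2 * 𝕂 ^ (-3.95 : ℝ) + 𝕂 ^ (-2.97 : ℝ)) / N ^ 2 := by ring
    _ ≤ _ := by
      gcongr
      nlinarith

end Crest.Agent.R128
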