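import Crest.Agent.R128.SEC

/-! # Row 128, task TRANS -/

set_option autoImplicit false

namespace Crest.Agent.R128

open Filter

namespace Trans

lemma grow {k : ℝ} (hk : 0 ≤ k) (b p b' p' : ℝ) (j s : ℕ) :
    nn (fun i => xi k b' p' i - xi k b p i) (j + s) ≤
      KK k ^ s * nn (fun i => xi k b' p' i - xi k b p i) j := by
  have h1 : 1 ≤ KK k := (bd_pot hk b p).one_le
  induction s with
  | zero => simp
  | succ s ih =>
    set f : ℕ → ℝ := fun i => xi k b' p' i - xi k b p i with hf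
    have a0 := nn_nonneg f (j + s)
    have a1 := abs_le_nn f (j + s)
    have a2 := abs_succ_le_nn f (j + s)
    have step : nn f (j + s + 1) ≤ KK k * nn f (j + s) := by
      rw [nn_le_iff]
      refine ⟨by nlinarith, ?_⟩
      have e : f (j + s + 1 + 1) = (Fm k (xi k b' p' (j + s + 1)) - Fm k (xi k b p (j + s + 1))) - f (j + s) := by
        simp only [hf, show j + s + 1 + 1 = j + s + 2 from rfl, xi_succ_succ]; ring
      rw [e]
      have l := Fm_lip hk (xi k b' p' (j + s + 1)) (xi k b p (j + s + 1))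
      calc _ ≤ |Fm k (xi k b' p' (j + s + 1)) - Fm k (xi k b p (j + s + 1))| + |f (j + s)| := abs_sub _ _
        _ ≤ (KK k - 1) * |f (j + s + 1)| + |f (j + s)| := by gcongr
        _ ≤ (KK k - 1) * nn f (j + s) + nn f (j + s) := by gcongr
        _ = _ := by ring
    calc nn f (j + (s + 1)) ≤ KK k * nn f (j + s) := step
      _ ≤ KK k * (KK k ^ s * nn f j) := by gcongr
      _ = _ := by ring

end Trans

theorem trans_proof (hT : TUBE) (hST : ST) : TRANS := by
  filter_upwards [hT, ev_KK hST, eventually_ge_atTop (0 : ℝ)] with k hT hS hk θ hθ0 hθ N g m hg b p b' hb hE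
  obtain ⟨hm, he, w, hw1, hw2, hwN, hlow, hup⟩ := hE
  set U := pot k b p with hU
  have bU : Bd (KK k) U := bd_pot hk b p
  have h1 : 1 ≤ KK k := bU.one_le
  have h0 : 0 < KK k := by linarith
  have mono : ∀ {a b : ℝ}, a ≤ b → KK k ^ a ≤ KK k ^ b := fun h => Real.rpow_le_rpow_of_exponent_le h1 h
  have pp : ∀ a : ℝ, 0 < KK k ^ a := fun a => Real.rpow_pos_of_pos h0 a
  have hL : 400 ≤ g ^ 2 := by nlinarith
  have hgr : ∀ l : ℕ, l ≤ w → KK k ^ ((0.99 : ℝ) * l) ≤ ne U l := by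
    intro l hl
    rcases hl.lt_or_eq with hl | rfl
    · refine (mono ?_).trans (hlow l hl)
      have : (0 : ℝ) ≤ l := Nat.cast_nonneg l
      nlinarith
    · obtain ⟨i, rfl⟩ : ∃ i, l = i + 1 := ⟨l - 1, by omega⟩
      have a := (hlow i (by omega)).trans (ne_le_succ bU i)
      have hi : (400 : ℝ) ≤ i := by exact_mod_cast (by omega : 400 ≤ i)
      have e : KK k * KK k ^ ((0.99 : ℝ) * ((i + 1 : ℕ) : ℝ)) ≤ KK k ^ ((1 - θ) * i) := by
        conv_lhs => rw [← Real.rpow_one_add' h0.le (by positivity)]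
        refine mono ?_
        push_cast
        nlinarith
      exact le_of_mul_le_mul_left (e.trans a) h0
  obtain ⟨p', hx, hd⟩ := hT b p b' hb (g ^ 2) m (by omega) hm he (fun l hl => hgr l (by omega))
  have hd1 : ∀ j : ℕ, 1 ≤ j → j ≤ m → |xi k b' p' j - xi k b p j| ≤ KK k ^ (-(j : ℝ) / 2) := by
    intro j h1 h2
    refine (hd j h1 h2).trans (mono ?_)
    have : (0 : ℝ) ≤ j := Nat.cast_nonneg j
    linarith
  have hd2 : ∀ j : ℕ, 1 ≤ j → j ≤ w → |xi k b' p' j - xi k b p j| ≤ KK k ^ (-(j : ℝ) / 2) := by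
    intro j hj1 hj2
    rcases le_or_gt j m with h | h
    · exact hd1 j hj1 h
    obtain ⟨i, rfl⟩ : ∃ i, m = i + 1 := ⟨m - 1, by omega⟩
    obtain ⟨s, rfl⟩ : ∃ s, j = i + s + 1 := ⟨j - i - 1, by omega⟩
    have a := Trans.grow hk b p b' p' i s
    have a1 : nn (fun i => xi k b' p' i - xi k b p i) i ≤ KK k ^ (-(0.8 : ℝ) * i) := by
      rw [nn_le_iff]
      refine ⟨hd i (by omega) (by omega), (hd (i + 1) (by omega) le_rfl).trans (mono ?_)⟩
      push_cast; linarith
    have a2 := abs_succ_le_nn (fun i => xi k b' p' i - xi k b p i) (i + s)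
    have hs : s ≤ 2 * g + 1 := by
      have : (g + 1) ^ 2 = g ^ 2 + 2 * g + 1 := by ring
      omega
    have hi : 20 * g ≤ i + 1 := by
      have : 20 * g ≤ g ^ 2 := by nlinarith
      omega
    have hs' : (s : ℝ) ≤ 2 * g + 1 := by exact_mod_cast hs
    have hi' : 20 * (g : ℝ) ≤ i + 1 := by exact_mod_cast hi
    have hg' : (20 : ℝ) ≤ g := by exact_mod_cast hg
    calc _ ≤ KK k ^ s * nn (fun i => xi k b' p' i - xi k b p i) i := a2.trans a
      _ ≤ KK k ^ s * KK k ^ (-(0.8 : ℝ) * i) := by gcongr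
      _ = KK k ^ ((s : ℝ) + -(0.8 : ℝ) * i) := by rw [Real.rpow_add h0, Real.rpow_natCast]
      _ ≤ _ := mono (by push_cast; linarith)
  set V := pot k b' p' with hV
  have bV : Bd (KK k) V := bd_pot hk b' p'
  have hdiff : ∀ l : ℕ, 1 ≤ l → l ≤ w → |V l - U l| ≤ 13 * KK k ^ (1 - (l : ℝ) / 2) := by
    intro l hl1 hl
    have a := Wm_lip' hk (xi k b' p' l) (xi k b p l)
    have e : KK k ^ (1 - (l : ℝ) / 2) = KK k * KK k ^ (-(l : ℝ) / 2) := by
      rw [show 1 - (l : ℝ) / 2 = 1 + -(l : ℝ) / 2 by ring, Real.rpow_add h0, Real.rpow_one]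
    rw [e]
    have p1 := pp (-(l : ℝ) / 2)
    calc |V l - U l| ≤ 6.5 * KK k * |xi k b' p' l - xi k b p l| := a
      _ ≤ 6.5 * KK k * KK k ^ (-(l : ℝ) / 2) := by gcongr; exact hd2 l hl1 hl
      _ ≤ _ := by nlinarith [mul_pos h0 p1]
  have hcl : ∀ j, j ≤ w → nn (fun i => eta V i - eta U i) j ≤ ne U j / 10 := fun j hj =>
    hS U V bU bV j (fun l h1 h2 => hdiff l h1 (by omega)) (fun l hl => hgr l (by omega))
  have q := (Sec.close (hcl (g ^ 2) hw1.le)).1 m hm
  have hp := ne_pos U (g ^ 2)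
  refine ⟨p', hx, hd1, ⟨fun j hj => ?_, w, hw1, hw2, hwN, ?_⟩, ?_, ?_⟩
  · have := (Sec.close (hcl j (by omega))).2.1
    have := hlow j (by omega)
    have := ne_pos U j
    linarith
  · have := (Sec.close (hcl w le_rfl)).2.2
    have := ne_pos U w
    linarith
  · intro h
    rw [h, zero_sub, abs_neg] at q
    linarith
  · have c := abs_sub_abs_le_abs_sub (eta V m) (eta U m)
    linarith

end Crest.Agent.R128
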