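import Crest.Agent.R128.Defs

/-! Task TUBE: Dirichlet shadowing. -/

set_option autoImplicit false

namespace Crest.Agent.R128

open Set Filter
open scoped Real BigOperators

noncomputable section

namespace TubeAux

theorem fp_fin {ι : Type} [Fintype ι] (a : ι → ℝ) (G : ι → ι → ℝ) (Nf : ι → ℝ → ℝ) (ρ Λ : ι → ℝ)
    (hρ : ∀ j, 0 < ρ j) (hΛ : ∀ j, 0 ≤ Λ j) (hN0 : ∀ l, Nf l 0 = 0)
    (hN : ∀ l x x', |x| ≤ ρ l → |x'| ≤ ρ l → |Nf l x - Nf l x'| ≤ Λ l * |x - x'|)
    (ha : ∀ j, |a j| ≤ ρ j / 2) (hG : ∀ j, ∑ l, |G j l| * Λ l * ρ l ≤ ρ j / 2) :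
    ∃ δ : ι → ℝ, ∀ j, |δ j| ≤ ρ j ∧ δ j = a j - ∑ l, G j l * Nf l (δ l) := by
  let c : ℝ → ℝ := fun y => max (-1) (min 1 y)
  have hc1 : ∀ y, |c y| ≤ 1 := fun y =>
    abs_le.mpr ⟨le_max_left _ _, max_le (by norm_num) (min_le_left _ _)⟩
  have hc2 : ∀ y y', |c y - c y'| ≤ |y - y'| := fun y y' =>
    (abs_max_sub_max_le_max _ _ _ _).trans (max_le (by simp)
      ((abs_min_sub_min_le_max _ _ _ _).trans (max_le (by simp) le_rfl)))
  have hc3 : ∀ y, |y| ≤ 1 → c y = y := fun y hy => by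
    have := abs_le.mp hy
    simp only [c]
    rw [min_eq_right this.2, max_eq_right this.1]
  have hρc : ∀ l y, |ρ l * c y| ≤ ρ l := fun l y => by
    rw [abs_mul, abs_of_pos (hρ l)]
    exact mul_le_of_le_one_right (hρ l).le (hc1 y)
  let T : (ι → ℝ) → (ι → ℝ) := fun y j => (a j - ∑ l, G j l * Nf l (ρ l * c (y l))) / ρ j
  have hT : ContractingWith (1 / 2) T := by
    refine ⟨by norm_num, LipschitzWith.of_dist_le_mul fun y y' => ?_⟩
    rw [dist_pi_le_iff (by positivity)]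
    intro j
    have h1 : T y j - T y' j =
        (∑ l, G j l * (Nf l (ρ l * c (y' l)) - Nf l (ρ l * c (y l)))) / ρ j := by
      simp only [T, mul_sub, Finset.sum_sub_distrib]
      ring
    rw [Real.dist_eq, h1, abs_div, abs_of_pos (hρ j), div_le_iff₀ (hρ j)]
    calc |∑ l, G j l * (Nf l (ρ l * c (y' l)) - Nf l (ρ l * c (y l)))|
        ≤ ∑ l, |G j l| * Λ l * ρ l * dist y y' := by
          refine (Finset.abs_sum_le_sum_abs _ _).trans (Finset.sum_le_sum fun l _ => ?_)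
          rw [abs_mul, mul_assoc, mul_assoc]
          refine mul_le_mul_of_nonneg_left ((hN l _ _ (hρc _ _) (hρc _ _)).trans ?_) (abs_nonneg _)
          refine mul_le_mul_of_nonneg_left ?_ (hΛ l)
          rw [← mul_sub, abs_mul, abs_of_pos (hρ l)]
          refine mul_le_mul_of_nonneg_left ((hc2 _ _).trans ?_) (hρ l).le
          rw [abs_sub_comm, ← Real.dist_eq]
          exact dist_le_pi_dist y y' l
      _ ≤ ρ j / 2 * dist y y' := by
          rw [← Finset.sum_mul]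
          exact mul_le_mul_of_nonneg_right (hG j) dist_nonneg
      _ = _ := by push_cast; ring
  set y := ContractingWith.fixedPoint T hT with hy
  have hfix : T y = y := hT.fixedPoint_isFixedPt
  have hb : ∀ j, |y j| ≤ 1 := by
    intro j
    rw [← hfix]
    simp only [T]
    rw [abs_div, abs_of_pos (hρ j), div_le_one (hρ j)]
    have h2 : |∑ l, G j l * Nf l (ρ l * c (y l))| ≤ ∑ l, |G j l| * Λ l * ρ l := by
      refine (Finset.abs_sum_le_sum_abs _ _).trans (Finset.sum_le_sum fun l _ => ?_)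
      rw [abs_mul, mul_assoc]
      refine mul_le_mul_of_nonneg_left ?_ (abs_nonneg _)
      have := hN l (ρ l * c (y l)) 0 (hρc _ _) (by simpa using (hρ l).le)
      rw [hN0, sub_zero, sub_zero] at this
      exact this.trans (mul_le_mul_of_nonneg_left (hρc _ _) (hΛ l))
    have := abs_sub (a j) (∑ l, G j l * Nf l (ρ l * c (y l)))
    linarith [ha j, hG j]
  refine ⟨fun j => ρ j * y j, fun j => ⟨?_, ?_⟩⟩
  · rw [abs_mul, abs_of_pos (hρ j)]
    exact mul_le_of_le_one_right (hρ j).le (hb j)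
  · have := congrFun hfix j
    simp only [T, hc3 _ (hb _)] at this
    rw [div_eq_iff (hρ j).ne'] at this
    rw [this, mul_comm]

theorem fp_set (s : Finset ℕ) (a : ℕ → ℝ) (G : ℕ → ℕ → ℝ) (Nf : ℕ → ℝ → ℝ) (ρ Λ : ℕ → ℝ)
    (hρ : ∀ j, 0 < ρ j) (hΛ : ∀ j, 0 ≤ Λ j) (hN0 : ∀ l, Nf l 0 = 0)
    (hN : ∀ l x x', |x| ≤ ρ l → |x'| ≤ ρ l → |Nf l x - Nf l x'| ≤ Λ l * |x - x'|)
    (ha : ∀ j ∈ s, |a j| ≤ ρ j / 2) (hG : ∀ j ∈ s, ∑ l ∈ s, |G j l| * Λ l * ρ l ≤ ρ j / 2) :
    ∃ δ : ℕ → ℝ, ∀ j ∈ s, |δ j| ≤ ρ j ∧ δ j = a j - ∑ l ∈ s, G j l * Nf l (δ l) := by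
  obtain ⟨δ, hδ⟩ := fp_fin (ι := s) (fun j => a j) (fun j l => G j l) (fun l => Nf l)
    (fun j => ρ j) (fun j => Λ j) (fun j => hρ j) (fun j => hΛ j) (fun l => hN0 l)
    (fun l => hN l) (fun j => ha j j.2) (fun j => by
      rw [Finset.sum_coe_sort s (fun l => |G j l| * Λ l * ρ l)]; exact hG j j.2)
  refine ⟨fun j => if h : j ∈ s then δ ⟨j, h⟩ else 0, fun j hj => ?_⟩
  simp only [dif_pos hj]
  refine ⟨(hδ ⟨j, hj⟩).1, ?_⟩
  rw [(hδ ⟨j, hj⟩).2, ← Finset.sum_coe_sort s]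
  simp

theorem sol_rec (U : ℕ → ℝ) (a b : ℝ) (j : ℕ) :
    sol U a b (j + 2) = U (j + 1) * sol U a b (j + 1) - sol U a b j := rfl

theorem sol_lin (U : ℕ → ℝ) (r : ℝ) (j : ℕ) : sol U 1 r j = zeta U j + r * eta U j := by
  induction j using Nat.twoStepInduction with
  | zero => simp [sol, zeta, eta]
  | one => simp [sol, zeta, eta]
  | more j h1 h2 =>
    rw [sol_rec, h1, h2]
    simp only [zeta, eta, sol_rec]
    ring

theorem wron (U : ℕ → ℝ) (r : ℝ) (l : ℕ) :
    sol U 1 r l * eta U (l + 1) - sol U 1 r (l + 1) * eta U l = 1 := by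
  induction l with
  | zero => simp [sol, eta]
  | succ l ih =>
    simp only [eta, sol_rec] at ih ⊢
    linear_combination ih

theorem eta_le {𝕂 : ℝ} (h1 : 1 ≤ 𝕂) {U : ℕ → ℝ} (hU : Bd 𝕂 U) (j : ℕ) :
    |eta U j| ≤ 𝕂 ^ j ∧ |eta U (j + 1)| ≤ 𝕂 ^ j := by
  induction j with
  | zero => simp [eta, sol]
  | succ j ih =>
    have hp : (0 : ℝ) ≤ 𝕂 ^ j := by positivity
    refine ⟨ih.2.trans (by rw [pow_succ]; nlinarith), ?_⟩
    have e : eta U (j + 1 + 1) = U (j + 1) * eta U (j + 1) - eta U j := rfl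
    rw [e, pow_succ]
    have := abs_sub (U (j + 1) * eta U (j + 1)) (eta U j)
    rw [abs_mul] at this
    have h2 : |U (j + 1)| * |eta U (j + 1)| ≤ (𝕂 - 1) * 𝕂 ^ j :=
      mul_le_mul (hU _) ih.2 (abs_nonneg _) (by linarith)
    linarith [ih.1]

theorem bd_pot {k : ℝ} (hk : 0 ≤ k) (b p : ℝ) : Bd (KK k) (pot k b p) := by
  intro j
  unfold pot Wm KK
  have h1 := Real.abs_cos_le_one (2 * π * xi k b p j)
  have h2 : 0 ≤ 2 * π * k := by positivity
  have := abs_add_le 2 (2 * π * k * Real.cos (2 * π * xi k b p j))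
  rw [abs_mul (2 * π * k), abs_of_nonneg h2, abs_two] at this
  nlinarith

theorem hasDeriv_Fm (k x : ℝ) : HasDerivAt (Fm k) (Wm k x) x := by
  unfold Fm Wm
  have h1 : HasDerivAt (fun x : ℝ => 2 * π * x) (2 * π) x := by
    simpa using (hasDerivAt_id x).const_mul (2 * π)
  have h2 := ((hasDerivAt_id x).const_mul 2).add (h1.sin.const_mul k)
  exact h2.congr_deriv (by ring)

theorem N_lip {k : ℝ} (hk : 0 ≤ k) (ξ ρ x x' : ℝ) (hx : |x| ≤ ρ) (hx' : |x'| ≤ ρ) :
    |(Fm k (ξ + x) - Fm k ξ - Wm k ξ * x) - (Fm k (ξ + x') - Fm k ξ - Wm k ξ * x')| ≤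
      7 * KK k * ρ * |x - x'| := by
  have hd : ∀ t ∈ Icc (-ρ) ρ, HasDerivWithinAt (fun t => Fm k (ξ + t) - Fm k ξ - Wm k ξ * t)
      (Wm k (ξ + t) - Wm k ξ) (Icc (-ρ) ρ) t := by
    intro t _
    have h1 : HasDerivAt (fun t => Fm k (ξ + t)) (Wm k (ξ + t)) t :=
      (hasDeriv_Fm k (ξ + t)).comp_const_add ξ t
    have h2 := (h1.sub_const (Fm k ξ)).sub ((hasDerivAt_id t).const_mul (Wm k ξ))
    exact (h2.congr_deriv (by ring)).hasDerivWithinAt
  have hb : ∀ t ∈ Icc (-ρ) ρ, ‖Wm k (ξ + t) - Wm k ξ‖ ≤ 7 * KK k * ρ := by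
    intro t ht
    have ht' : |t| ≤ ρ := abs_le.mpr ht
    have h2 : 0 ≤ 2 * π * k := by positivity
    have h3 := Real.abs_cos_sub_cos_le (2 * π * (ξ + t)) (2 * π * ξ)
    have h4 : |2 * π * (ξ + t) - 2 * π * ξ| = 2 * π * |t| := by
      rw [← mul_sub, add_sub_cancel_left, abs_mul, abs_of_pos (by positivity)]
    have e : Wm k (ξ + t) - Wm k ξ =
        2 * π * k * (Real.cos (2 * π * (ξ + t)) - Real.cos (2 * π * ξ)) := by
      unfold Wm; ring
    rw [e, Real.norm_eq_abs, abs_mul, abs_of_nonneg h2]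
    have h5 : 2 * π * |t| ≤ 7 * ρ :=
      mul_le_mul (by linarith [Real.pi_lt_d2]) ht' (abs_nonneg _) (by norm_num)
    have h6 : 2 * π * k ≤ KK k := by unfold KK; linarith
    have hρ : 0 ≤ ρ := (abs_nonneg _).trans hx
    calc _ ≤ KK k * (7 * ρ) := mul_le_mul h6 (by linarith) (abs_nonneg _) (by linarith)
      _ = _ := by ring
  have := (convex_Icc (-ρ) ρ).norm_image_sub_le_of_norm_hasDerivWithin_le hd hb
    (abs_le.mp hx') (abs_le.mp hx)
  simpa only [Real.norm_eq_abs] using this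

theorem green (U : ℕ → ℝ) (r : ℝ) (j l : ℕ) :
    eta U (min (j + 2) l) * sol U 1 r (max (j + 2) l) + eta U (min j l) * sol U 1 r (max j l)
      - U (j + 1) * (eta U (min (j + 1) l) * sol U 1 r (max (j + 1) l))
      = if l = j + 1 then -1 else 0 := by
  rcases lt_trichotomy l (j + 1) with h | h | h
  · rw [if_neg h.ne, min_eq_right (by omega), max_eq_left (by omega), min_eq_right (by omega),
      max_eq_left (by omega), min_eq_right (by omega), max_eq_left (by omega), sol_rec]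
    ring
  · subst h
    rw [if_pos rfl, min_eq_right (by omega), max_eq_left (by omega), min_eq_left (by omega),
      max_eq_right (by omega), min_self, max_self]
    have := wron U r (j + 1)
    have e : eta U (j + 1 + 1) = U (j + 1) * eta U (j + 1) - eta U j := rfl
    rw [e] at this
    linear_combination -this
  · rw [if_neg h.ne', min_eq_left (by omega), max_eq_right (by omega), min_eq_left (by omega),
      max_eq_right (by omega), min_eq_left (by omega), max_eq_right (by omega)]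
    have e : eta U (j + 2) = U (j + 1) * eta U (j + 1) - eta U j := rfl
    rw [e]
    ring

theorem geo (m : ℕ) : ∑ l ∈ Finset.Ico 1 m, (1 / 2 : ℝ) ^ l ≤ 1 := by
  have : ∀ n : ℕ, ∑ l ∈ Finset.Ico 1 (n + 1), (1 / 2 : ℝ) ^ l = 1 - (1 / 2) ^ n := by
    intro n
    induction n with
    | zero => simp
    | succ n ih => rw [Finset.sum_Ico_succ_top (by omega), ih]; ring
  rcases m with _ | m
  · simp
  · rw [this]
    have : (0 : ℝ) ≤ (1 / 2) ^ m := by positivity
    linarith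

theorem tendsto_KK : Tendsto KK atTop atTop := by
  unfold KK
  exact tendsto_atTop_add_const_right _ _ (tendsto_id.const_mul_atTop (by positivity))

end TubeAux

open TubeAux in
theorem tube_proof (hPS : PS) : TUBE := by
  have e1 : ∀ᶠ 𝕂 : ℝ in atTop, 𝕂 ^ (-(0.17 : ℝ)) ≤ 1 / 280 :=
    (tendsto_rpow_neg_atTop (by norm_num)).eventually (ge_mem_nhds (by norm_num))
  filter_upwards [tendsto_KK.eventually hPS, tendsto_KK.eventually e1,
    tendsto_KK.eventually (eventually_ge_atTop 1), eventually_ge_atTop 0] with k hP hq h1 hk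
  intro b p b' hb L m hL hm hη hne
  set 𝕂 := KK k with h𝕂
  set U := pot k b p with hU
  have h0 : 0 < 𝕂 := by linarith
  have hBd : Bd 𝕂 U := bd_pot hk b p
  set ψ := sol U 1 (rr U m) with hψ
  have hψb : ∀ j, 1 ≤ j → j ≤ L → |ψ j| ≤ 10 * 𝕂 ^ (-(0.97 : ℝ) * j) := by
    intro j hj hjL
    have := hP (1 / 100) (by norm_num) le_rfl U hBd L m hm hη (fun l hl => by
      have h2 := hne l hl
      have h3 : (0 : ℝ) ≤ 𝕂 ^ ((0.99 : ℝ) * l) := by positivity
      rw [show (1 - 1 / 100 : ℝ) = 0.99 by norm_num]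
      linarith) j hjL
    refine (le_max_left _ _).trans (this.trans ?_)
    have hj' : (1 : ℝ) ≤ j := by exact_mod_cast hj
    exact mul_le_mul_of_nonneg_left (Real.rpow_le_rpow_of_exponent_le h1 (by nlinarith))
      (by norm_num)
  have hηb : ∀ j, 1 ≤ j → |eta U j| ≤ 𝕂 ^ ((j : ℝ) - 1) := by
    intro j hj
    obtain ⟨i, rfl⟩ := Nat.exists_eq_add_of_le' hj
    have := (eta_le h1 hBd i).2
    rw [← Real.rpow_natCast] at this
    simpa using this
  have hψm : ψ m = 0 := by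
    have hpos : 0 < |eta U m| := by
      rw [hη]
      exact lt_of_lt_of_le (by positivity) (hne L le_rfl)
    have hne0 : eta U m ≠ 0 := abs_pos.mp hpos
    rw [hψ, sol_lin, rr]
    field_simp
    ring
  have hsmall : ∀ l : ℕ, 1 ≤ l → ∀ e : ℝ, e ≤ -(0.17 : ℝ) * l → 140 * 𝕂 ^ e ≤ (1 / 2 : ℝ) ^ l := by
    intro l hl e he
    have h2 : 𝕂 ^ e ≤ (1 / 280 : ℝ) ^ l := by
      refine (Real.rpow_le_rpow_of_exponent_le h1 he).trans ?_
      rw [Real.rpow_mul h0.le, Real.rpow_natCast]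
      exact pow_le_pow_left₀ (by positivity) hq l
    obtain ⟨i, rfl⟩ := Nat.exists_eq_add_of_le' hl
    have h3 : (1 / 280 : ℝ) ^ i ≤ (1 / 2) ^ i := pow_le_pow_left₀ (by norm_num) (by norm_num) i
    rw [pow_succ] at h2 ⊢
    linarith
  let Nf : ℕ → ℝ → ℝ := fun l x => Fm k (xi k b p l + x) - Fm k (xi k b p l) - U l * x
  let G : ℕ → ℕ → ℝ := fun j l => eta U (min j l) * ψ (max j l)
  obtain ⟨δ, hδ⟩ := fp_set (Finset.Ico 1 m) (fun j => (b' - b) * ψ j) G Nf
    (fun j => 𝕂 ^ (-(0.8 : ℝ) * j)) (fun j => 7 * 𝕂 * 𝕂 ^ (-(0.8 : ℝ) * j))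
    (fun j => by positivity) (fun j => by positivity) (fun l => by simp [Nf])
    (fun l x x' hx hx' => N_lip hk _ _ x x' hx hx')
    (fun j hj => by
      rw [Finset.mem_Ico] at hj
      have h2 := hψb j hj.1 (by omega)
      have h3 := hsmall j hj.1 _ le_rfl
      have h4 : (1 / 2 : ℝ) ^ j ≤ 1 := pow_le_one₀ (by norm_num) (by norm_num)
      have h5 : 𝕂 ^ (-(0.97 : ℝ) * j) = 𝕂 ^ (-(0.17 : ℝ) * j) * 𝕂 ^ (-(0.8 : ℝ) * j) := by
        rw [← Real.rpow_add h0]; congr 1; ring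
      have h6 : 0 < 𝕂 ^ (-(0.8 : ℝ) * j) := by positivity
      rw [abs_mul]
      have h7 : |b' - b| * |ψ j| ≤ |ψ j| := mul_le_of_le_one_left (abs_nonneg _) hb
      rw [h5] at h2
      nlinarith)
    (fun j hj => by
      rw [Finset.mem_Ico] at hj
      have h6 : 0 < 𝕂 ^ (-(0.8 : ℝ) * j) := by positivity
      have key : ∀ l ∈ Finset.Ico 1 m, |G j l| * (7 * 𝕂 * 𝕂 ^ (-(0.8 : ℝ) * l)) *
          𝕂 ^ (-(0.8 : ℝ) * l) ≤ (1 / 2 : ℝ) ^ l * (𝕂 ^ (-(0.8 : ℝ) * j) / 2) := by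
        intro l hl
        rw [Finset.mem_Ico] at hl
        have h2 := hψb (max j l) (by omega) (by omega)
        have h3 := hηb (min j l) (by omega)
        have h4 : |G j l| ≤ 𝕂 ^ (((min j l : ℕ) : ℝ) - 1) *
            (10 * 𝕂 ^ (-(0.97 : ℝ) * (max j l : ℕ))) := by
          simp only [G]
          rw [abs_mul]
          exact mul_le_mul h3 h2 (abs_nonneg _) (by positivity)
        have h5 := hsmall l hl.1 (((min j l : ℕ) : ℝ) - (0.97 : ℝ) * (max j l : ℕ)
          - 1.6 * l + 0.8 * j) (by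
            have hl0 : (0 : ℝ) ≤ l := by positivity
            have hj0 : (0 : ℝ) ≤ j := by positivity
            rcases le_total j l with h | h
            · rw [min_eq_left h, max_eq_right h]
              have : (j : ℝ) ≤ l := by exact_mod_cast h
              linarith
            · rw [min_eq_right h, max_eq_left h]
              have : (l : ℝ) ≤ j := by exact_mod_cast h
              linarith)
        have h7 : 𝕂 ^ (((min j l : ℕ) : ℝ) - 1) * (10 * 𝕂 ^ (-(0.97 : ℝ) * (max j l : ℕ))) *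
            (7 * 𝕂 * 𝕂 ^ (-(0.8 : ℝ) * l)) * 𝕂 ^ (-(0.8 : ℝ) * l) =
            140 * 𝕂 ^ (((min j l : ℕ) : ℝ) - (0.97 : ℝ) * (max j l : ℕ) - 1.6 * l + 0.8 * j) *
              (𝕂 ^ (-(0.8 : ℝ) * j) / 2) := by
          have a1 : 𝕂 ^ (((min j l : ℕ) : ℝ) - 1) * 𝕂 ^ (-(0.97 : ℝ) * (max j l : ℕ)) *
              𝕂 ^ (1 : ℝ) * 𝕂 ^ (-(0.8 : ℝ) * l) * 𝕂 ^ (-(0.8 : ℝ) * l) =
              𝕂 ^ (((min j l : ℕ) : ℝ) - (0.97 : ℝ) * (max j l : ℕ) - 1.6 * l + 0.8 * j) *
                𝕂 ^ (-(0.8 : ℝ) * j) := by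
            simp only [← Real.rpow_add h0]
            congr 1
            ring
          rw [Real.rpow_one] at a1
          linear_combination 70 * a1
        calc _ ≤ 𝕂 ^ (((min j l : ℕ) : ℝ) - 1) * (10 * 𝕂 ^ (-(0.97 : ℝ) * (max j l : ℕ))) *
            (7 * 𝕂 * 𝕂 ^ (-(0.8 : ℝ) * l)) * 𝕂 ^ (-(0.8 : ℝ) * l) := by gcongr
          _ ≤ _ := by rw [h7]; gcongr
      refine (Finset.sum_le_sum key).trans ?_
      rw [← Finset.sum_mul]
      exact mul_le_of_le_one_left (by positivity) (geo m))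
  let D : ℕ → ℝ := fun j => (b' - b) * ψ j - ∑ l ∈ Finset.Ico 1 m, G j l * Nf l (δ l)
  have hD : ∀ j, 1 ≤ j → j < m → D j = δ j := fun j h1 h2 =>
    (hδ j (Finset.mem_Ico.mpr ⟨h1, h2⟩)).2.symm
  have hD0 : D 0 = b' - b := by
    simp [D, G, hψ, sol, eta]
  have hDm : D m = 0 := by
    simp only [D, hψm, mul_zero, zero_sub, neg_eq_zero]
    refine Finset.sum_eq_zero fun l hl => ?_
    rw [Finset.mem_Ico] at hl
    simp only [G]
    rw [max_eq_left hl.2.le, hψm]
    simp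
  have hrec : ∀ j, j + 1 < m → D (j + 2) + D j - U (j + 1) * D (j + 1) = Nf (j + 1) (δ (j + 1)) := by
    intro j hj
    have h2 : ∑ l ∈ Finset.Ico 1 m, (G (j + 2) l + G j l - U (j + 1) * G (j + 1) l) * Nf l (δ l)
        = - Nf (j + 1) (δ (j + 1)) := by
      simp only [G, hψ, green]
      rw [Finset.sum_eq_single (j + 1)]
      · simp
      · intro l _ hl
        simp [hl]
      · intro h
        exact absurd (Finset.mem_Ico.mpr ⟨by omega, hj⟩) h
    have h3 : ψ (j + 2) = U (j + 1) * ψ (j + 1) - ψ j := rfl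
    simp only [D, h3]
    simp only [sub_mul, add_mul, Finset.sum_sub_distrib, Finset.sum_add_distrib, mul_assoc,
      ← Finset.mul_sum] at h2
    linear_combination -h2
  have horb : ∀ j, j ≤ m → xi k b' (p + D 1) j = xi k b p j + D j := by
    intro j
    induction j using Nat.twoStepInduction with
    | zero => intro _; simp [xi, hD0]
    | one => intro _; simp [xi]
    | more j ih1 ih2 =>
      intro hj
      have e1 : xi k b' (p + D 1) (j + 2) =
        Fm k (xi k b' (p + D 1) (j + 1)) - xi k b' (p + D 1) j := rfl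
      have e2 : xi k b p (j + 2) = Fm k (xi k b p (j + 1)) - xi k b p j := rfl
      rw [e1, e2, ih1 (by omega), ih2 (by omega)]
      have := hrec j (by omega)
      rw [← hD (j + 1) (by omega) (by omega)] at this
      simp only [Nf] at this
      linarith
  refine ⟨p + D 1, by rw [horb m le_rfl, hDm, add_zero], fun j hj1 hjm => ?_⟩
  rw [horb j hjm, add_sub_cancel_left]
  rcases hjm.lt_or_eq with h | rfl
  · rw [hD j hj1 h]
    exact (hδ j (Finset.mem_Ico.mpr ⟨hj1, h⟩)).1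
  · rw [hDm, abs_zero]
    positivity

end

end Crest.Agent.R128
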